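import Mathlib

/-!
Approximation in a Dedekind domain and continuity of polynomials.
-/

namespace Vale.Agent.P011.H321.Avoid

open IsDedekindDomain HeightOneSpectrum MvPolynomial WithZero

variable {R K : Type*} [CommRing R] [IsDedekindDomain R] [Field K] [Algebra R K]
  [IsFractionRing R K]

theorem hos_finite {x : K} (hx : x ≠ 0) :
    {v : HeightOneSpectrum R | v.valuation K x ≠ 1}.Finite := by
  have h1 := HeightOneSpectrum.Support.finite R x
  have h2 := HeightOneSpectrum.Support.finite R x⁻¹
  refine (h1.union h2).subset ?_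
  intro v hv
  change v.valuation K x ≠ 1 at hv
  rcases lt_or_gt_of_ne hv with h | h
  · right
    change 1 < v.valuation K x⁻¹
    rw [map_inv₀]
    exact (one_lt_inv₀ (zero_lt_iff.2 ((Valuation.ne_zero_iff _).2 hx))).2 h
  · left
    exact h

/-- A uniform exponent. -/
theorem exists_exp (T : Finset (HeightOneSpectrum R)) (g : HeightOneSpectrum R → ℤᵐ⁰)
    (hg : ∀ v ∈ T, g v ≠ 0) : ∃ n : ℕ, ∀ v ∈ T, exp (-(n : ℤ)) < g v := by
  refine ⟨T.sup (fun v => (-log (g v)).toNat) + 1, fun v hv => ?_⟩
  have h1 := Finset.le_sup (f := fun v : HeightOneSpectrum R => (-log (g v)).toNat) hv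
  have h2 := Int.self_le_toNat (-log (g v))
  rw [← exp_log (hg v hv), exp_lt_exp]
  push_cast
  omega

/-- An integer which is small at finitely many primes, as small as wished. -/
theorem exists_small (K : Type*) [Field K] [Algebra R K] [IsFractionRing R K]
    (T : Finset (HeightOneSpectrum R)) (g : HeightOneSpectrum R → ℤᵐ⁰)
    (hg : ∀ v ∈ T, g v ≠ 0) :
    ∃ c : R, c ≠ 0 ∧ ∀ v ∈ T, v.valuation K (algebraMap R K c) < g v := by
  classical
  obtain ⟨n, hn⟩ := exists_exp T g hg
  have h1 : ∀ v : HeightOneSpectrum R, ∃ c : R, c ≠ 0 ∧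
      v.valuation K (algebraMap R K c) ≤ exp (-(n : ℤ)) := by
    intro v
    obtain ⟨π, hπ, hπ0⟩ := Submodule.exists_mem_ne_zero_of_ne_bot v.ne_bot
    refine ⟨π ^ n, pow_ne_zero n hπ0, ?_⟩
    rw [valuation_of_algebraMap, intValuation_le_pow_iff_mem]
    exact Ideal.pow_mem_pow hπ n
  choose c hc0 hc using h1
  refine ⟨∏ v ∈ T, c v, Finset.prod_ne_zero_iff.mpr fun v _ => hc0 v, fun v hv => ?_⟩
  refine lt_of_le_of_lt ?_ (hn v hv)
  rw [← Finset.mul_prod_erase T c hv, map_mul, map_mul]
  calc _ ≤ v.valuation K (algebraMap R K (c v)) * 1 :=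
        mul_le_mul_right (valuation_le_one v _) _
    _ ≤ exp (-(n : ℤ)) := by rw [mul_one]; exact hc v

/-- Strong approximation away from infinity. -/
theorem approx (T : Finset (HeightOneSpectrum R)) (x : HeightOneSpectrum R → K)
    (g : HeightOneSpectrum R → ℤᵐ⁰) (hg : ∀ v ∈ T, g v ≠ 0) :
    ∃ y : K, (∀ v ∈ T, v.valuation K (y - x v) < g v) ∧
      ∀ v ∉ T, v.valuation K y ≤ 1 := by
  classical
  obtain ⟨n, hn⟩ := exists_exp T g hg
  obtain ⟨d, hd⟩ := IsLocalization.exist_integer_multiples_of_finset (nonZeroDivisors R)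
    (T.image x)
  have hd0 : (d : R) ≠ 0 := nonZeroDivisors.ne_zero d.2
  have hd0' : algebraMap R K d ≠ 0 := by
    simp [hd0]
  have hnum : ∀ v ∈ T, ∃ r : R, algebraMap R K r = algebraMap R K d * x v := by
    intro v hv
    obtain ⟨r, hr⟩ := hd (x v) (Finset.mem_image_of_mem x hv)
    exact ⟨r, by rw [hr, Algebra.smul_def]⟩
  choose! r hr using hnum
  let B : Finset (HeightOneSpectrum R) := (hos_finite (R := R) hd0').toFinset
  have hB : ∀ v, v ∉ B → v.valuation K (algebraMap R K d) = 1 := by
    intro v hv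
    by_contra h
    exact hv ((Set.Finite.mem_toFinset _).2 h)
  let T' := T ∪ B
  obtain ⟨N, hN⟩ : ∃ N : ℕ, ∀ v ∈ T', exp (-(N : ℤ)) ≤ exp (-(n : ℤ)) *
      v.valuation K (algebraMap R K d) := by
    refine ⟨n + T'.sup (fun v => (-log (v.valuation K (algebraMap R K d))).toNat), ?_⟩
    intro v hv
    have h1 := Finset.le_sup (f := fun v : HeightOneSpectrum R =>
      (-log (v.valuation K (algebraMap R K d))).toNat) hv
    have hv0 : v.valuation K (algebraMap R K d) ≠ 0 := (Valuation.ne_zero_iff _).2 hd0'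
    rw [← exp_log hv0, ← exp_add, exp_le_exp]
    have h2 := Int.self_le_toNat (-log (v.valuation K (algebraMap R K d)))
    push_cast
    omega
  obtain ⟨z, hz⟩ := IsDedekindDomain.exists_forall_sub_mem_ideal (s := T')
    (fun v : HeightOneSpectrum R => v.asIdeal) (fun _ => N) (fun v _ => v.prime)
    (fun v _ w _ hvw h => hvw (HeightOneSpectrum.ext h))
    (fun v => if (v : HeightOneSpectrum R) ∈ T then r v else 0)
  have hzv : ∀ v ∈ T', v.valuation K (algebraMap R K (z - if v ∈ T then r v else 0)) ≤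
      exp (-(N : ℤ)) := by
    intro v hv
    rw [valuation_of_algebraMap, intValuation_le_pow_iff_mem]
    exact hz v hv
  refine ⟨algebraMap R K z / algebraMap R K d, ?_, ?_⟩
  · intro v hv
    refine lt_of_le_of_lt ?_ (hn v hv)
    have hv' : v ∈ T' := Finset.mem_union_left _ hv
    have hv0 : 0 < v.valuation K (algebraMap R K d) :=
      zero_lt_iff.2 ((Valuation.ne_zero_iff _).2 hd0')
    have e1 : algebraMap R K z / algebraMap R K d - x v =
        algebraMap R K (z - r v) / algebraMap R K d := by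
      rw [map_sub, hr v hv]; field_simp
    rw [e1, map_div₀, div_le_iff₀ hv0]
    have := hzv v hv'
    rw [if_pos hv] at this
    exact this.trans (hN v hv')
  · intro v hv
    by_cases hvB : v ∈ B
    · have hv' : v ∈ T' := Finset.mem_union_right _ hvB
      have hv0 : 0 < v.valuation K (algebraMap R K d) :=
        zero_lt_iff.2 ((Valuation.ne_zero_iff _).2 hd0')
      rw [map_div₀, div_le_iff₀ hv0]
      have := hzv v hv'
      rw [if_neg hv, sub_zero] at this
      refine this.trans ((hN v hv').trans ?_)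
      gcongr
      rw [← exp_zero, exp_le_exp]
      omega
    · rw [map_div₀, hB v hvB, div_one]
      exact valuation_le_one v z

/-- An element integral at `v` is congruent to an element of `R`. -/
theorem exists_res (v : HeightOneSpectrum R) (x : K) (hx : v.valuation K x ≤ 1) :
    ∃ r : R, v.valuation K (x - algebraMap R K r) < 1 := by
  obtain ⟨y, hy1, hy2⟩ := approx {v} (fun _ => x) (fun _ => 1) (fun _ _ => one_ne_zero)
  have hy3 := hy1 v (Finset.mem_singleton_self v)
  have hy4 : v.valuation K y ≤ 1 := by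
    have e : y = (y - x) + x := by ring
    rw [e]
    exact (v.valuation K).map_add_le hy3.le hx
  obtain ⟨r, rfl⟩ := HeightOneSpectrum.mem_integers_of_valuation_le_one K y (by
    intro w
    by_cases h : w = v
    · rw [h]; exact hy4
    · exact hy2 w (by simpa using h))
  exact ⟨r, by rw [Valuation.map_sub_swap]; exact hy3⟩

/-- Polynomials are continuous. -/
theorem eval_close (w : Valuation K ℤᵐ⁰) {N : ℕ} (P : MvPolynomial (Fin N) K) (a : Fin N → K) :
    ∀ ε : ℤᵐ⁰, ε ≠ 0 → ∃ δ : ℤᵐ⁰, δ ≠ 0 ∧ ∀ x : Fin N → K, (∀ j, w (x j - a j) < δ) →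
      w (eval x P - eval a P) < ε := by
  induction P using MvPolynomial.induction_on with
  | C c =>
    intro ε hε
    refine ⟨1, one_ne_zero, fun x _ => ?_⟩
    rw [eval_C, eval_C, sub_self, map_zero]
    exact zero_lt_iff.mpr hε
  | add P Q hP hQ =>
    intro ε hε
    obtain ⟨δ, hδ, h⟩ := hP ε hε
    obtain ⟨δ', hδ', h'⟩ := hQ ε hε
    refine ⟨min δ δ', (lt_min (zero_lt_iff.mpr hδ) (zero_lt_iff.mpr hδ')).ne', fun x hx => ?_⟩
    have e : eval x (P + Q) - eval a (P + Q) = (eval x P - eval a P) + (eval x Q - eval a Q) := by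
      rw [map_add, map_add]; ring
    rw [e]
    exact w.map_add_lt (h x fun j => lt_of_lt_of_le (hx j) (min_le_left _ _))
      (h' x fun j => lt_of_lt_of_le (hx j) (min_le_right _ _))
  | mul_X P i hP =>
    intro ε hε
    set M : ℤᵐ⁰ := max (w (a i)) 1 with hM
    have hM0 : 0 < M := lt_of_lt_of_le zero_lt_one (le_max_right _ _)
    set M' : ℤᵐ⁰ := max (w (eval a P)) 1 with hM'
    have hM'0 : 0 < M' := lt_of_lt_of_le zero_lt_one (le_max_right _ _)
    obtain ⟨δ, hδ, h⟩ := hP (ε / M) (div_ne_zero hε hM0.ne')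
    have hε0 : 0 < ε := zero_lt_iff.mpr hε
    refine ⟨min (min δ 1) (ε / M'), (lt_min (lt_min (zero_lt_iff.mpr hδ) zero_lt_one)
      (div_pos hε0 hM'0)).ne', fun x hx => ?_⟩
    have e : eval x (P * X i) - eval a (P * X i) =
        (eval x P - eval a P) * x i + eval a P * (x i - a i) := by
      rw [map_mul, map_mul, eval_X, eval_X]; ring
    rw [e]
    refine w.map_add_lt ?_ ?_
    · rw [map_mul]
      have h1 : w (x i) ≤ M := by
        have e1 : x i = (x i - a i) + a i := by ring
        rw [e1]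
        refine w.map_add_le ?_ (le_max_left _ _)
        exact (lt_of_lt_of_le (hx i) ((min_le_left _ _).trans (min_le_right _ _))).le.trans
          (le_max_right _ _)
      have h2 := h x fun j => lt_of_lt_of_le (hx j) ((min_le_left _ _).trans (min_le_left _ _))
      calc w (eval x P - eval a P) * w (x i) ≤ w (eval x P - eval a P) * M :=
            mul_le_mul_right h1 _
        _ < ε / M * M := mul_lt_mul_of_pos_right h2 hM0
        _ = ε := div_mul_cancel₀ _ hM0.ne'
    · rw [map_mul]
      have h3 : w (x i - a i) < ε / M' := lt_of_lt_of_le (hx i) (min_le_right _ _)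
      calc w (eval a P) * w (x i - a i) ≤ M' * w (x i - a i) :=
            mul_le_mul_left (le_max_left _ _) _
        _ < M' * (ε / M') := mul_lt_mul_of_pos_left h3 hM'0
        _ = ε := by rw [mul_comm]; exact div_mul_cancel₀ _ hM'0.ne'

/-- Polynomials with integral coefficients have integral values at integral points. -/
theorem eval_int (w : Valuation K ℤᵐ⁰) {N : ℕ} (P : MvPolynomial (Fin N) K)
    (hP : ∀ m, w (coeff m P) ≤ 1) (x : Fin N → K) (hx : ∀ j, w (x j) ≤ 1) :
    w (eval x P) ≤ 1 := by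
  rw [eval_eq]
  refine Valuation.map_sum_le _ fun m _ => ?_
  rw [map_mul, map_prod]
  refine mul_le_one' (hP m) ?_
  refine Finset.prod_le_one' fun j _ => ?_
  rw [map_pow]
  exact pow_le_one' (hx j) _

/-- The coefficients of a polynomial are integral outside a finite set. -/
theorem bad_finite {N : ℕ} (P : MvPolynomial (Fin N) K) :
    {v : HeightOneSpectrum R | ∃ m, 1 < v.valuation K (coeff m P)}.Finite := by
  have h : {v : HeightOneSpectrum R | ∃ m, 1 < v.valuation K (coeff m P)} ⊆
      ⋃ m ∈ P.support, {v : HeightOneSpectrum R | v.valuation K (coeff m P) ≠ 1} := by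
    rintro v ⟨m, hm⟩
    simp only [Set.mem_iUnion]
    refine ⟨m, ?_, hm.ne'⟩
    rw [mem_support_iff]
    intro h0
    rw [h0, map_zero] at hm
    exact absurd hm (by simp)
  refine Set.Finite.subset ?_ h
  refine Set.Finite.biUnion (Finset.finite_toSet _) fun m hm => ?_
  exact hos_finite (mem_support_iff.mp hm)

end Vale.Agent.P011.H321.Avoid
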