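import Vale.Agent.P011.H182.QWa
import Vale.Agent.P011.H321.AvoidA

/-!
Zeros of a quadratic form near given local zeros and outside a hypersurface.
-/

namespace Vale.Agent.P011.H321.Rho

open IsDedekindDomain HeightOneSpectrum NumberField WithZero Topology QuadraticMap Module

variable {k : Type*} [Field k] [NumberField k]


/-- There are infinitely many primes. -/
theorem exists_notMem (T : Finset (HeightOneSpectrum (𝓞 k))) :
    ∃ v : HeightOneSpectrum (𝓞 k), v ∉ T := by
  classical
  set N : ℕ := ∏ v ∈ T, Ideal.absNorm v.asIdeal with hN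
  have hN0 : N ≠ 0 := Finset.prod_ne_zero_iff.mpr fun v _ h =>
    v.ne_bot (Ideal.absNorm_eq_zero_iff.mp h)
  have hNv : ∀ v ∈ T, (N : 𝓞 k) ∈ v.asIdeal := by
    intro v hv
    rw [hN, ← Finset.mul_prod_erase T _ hv, Nat.cast_mul]
    exact Ideal.mul_mem_right _ _ (Ideal.absNorm_mem v.asIdeal)
  obtain ⟨p, hpN, hp⟩ := Nat.exists_infinite_primes (N + 1)
  have hpn : ¬ IsUnit ((p : ℤ) : 𝓞 k) := by
    intro h
    have h1 := h.map (Algebra.norm ℤ)
    have h2 : Algebra.norm ℤ ((p : ℤ) : 𝓞 k) = (p : ℤ) ^ finrank ℤ (𝓞 k) :=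
      Algebra.norm_algebraMap (p : ℤ)
    rw [h2, isUnit_pow_iff (Module.finrank_pos.ne')] at h1
    rw [Int.isUnit_iff_natAbs_eq, Int.natAbs_natCast] at h1
    exact hp.one_lt.ne' h1
  obtain ⟨M, hM, hpM⟩ := exists_max_ideal_of_mem_nonunits (a := ((p : ℤ) : 𝓞 k)) hpn
  have hp0 : ((p : ℤ) : 𝓞 k) ≠ 0 := by
    rw [Int.cast_natCast]
    exact_mod_cast hp.ne_zero
  refine ⟨⟨M, hM.isPrime, fun h => hp0 (by rw [h] at hpM; simpa using hpM)⟩, fun hT => ?_⟩
  have h1 := hNv _ hT
  have h2 : IsCoprime (N : ℤ) (p : ℤ) := by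
    rw [Nat.isCoprime_iff_coprime]
    refine ((Nat.Prime.coprime_iff_not_dvd hp).mpr fun hd => ?_).symm
    exact absurd (Nat.le_of_dvd (Nat.pos_of_ne_zero hN0) hd) (by omega)
  obtain ⟨a, b, hab⟩ := h2
  apply hM.ne_top
  rw [Ideal.eq_top_iff_one]
  have h3 : (1 : 𝓞 k) = (a : 𝓞 k) * (N : 𝓞 k) + (b : 𝓞 k) * ((p : ℤ) : 𝓞 k) := by
    have := congrArg (fun z : ℤ => (z : 𝓞 k)) hab
    push_cast at this ⊢
    exact this.symm
  rw [h3]
  exact M.add_mem (M.mul_mem_left _ h1) (M.mul_mem_left _ hpM)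

/-- The value on `k` of the valuation of the completion. -/
theorem val_alg (v : HeightOneSpectrum (𝓞 k)) (x : k) :
    (Valued.v (algebraMap k (v.adicCompletion k) x) : ℤᵐ⁰) = v.valuation k x :=
  v.valuedAdicCompletion_eq_valuation' x

/-- Balls are neighbourhoods. -/
theorem ball_mem (v : HeightOneSpectrum (𝓞 k)) (α : v.adicCompletion k) {γ : ℤᵐ⁰} (hγ : γ ≠ 0) :
    {y : v.adicCompletion k | Valued.v (y - α) < γ} ∈ 𝓝 α := by
  obtain ⟨m, hm⟩ := Avoid.exists_exp {v} (fun _ => γ) (fun _ _ => hγ)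
  have hn := hm v (Finset.mem_singleton_self v)
  obtain ⟨π, hπ⟩ := v.valuation_exists_uniformizer k
  have hc : Valued.v (algebraMap k (v.adicCompletion k) (π ^ m)) < γ := by
    refine lt_of_le_of_lt (le_of_eq ?_) hn
    rw [val_alg, map_pow, hπ, ← WithZero.exp_nsmul]
    simp
  have hc0 : Valued.v (algebraMap k (v.adicCompletion k) (π ^ m)) ≠ (0 : ℤᵐ⁰) := by
    rw [Valuation.ne_zero_iff]
    refine (_root_.map_ne_zero _).mpr (pow_ne_zero m ?_)
    rintro rfl
    rw [map_zero] at hπ
    exact WithZero.exp_ne_zero hπ.symm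
  rw [Valued.mem_nhds]
  refine ⟨Units.mk0 (Valued.v.restrict (algebraMap k (v.adicCompletion k) (π ^ m))) ?_,
    fun z hz => ?_⟩
  · rw [Valuation.ne_zero_iff]
    exact (Valuation.ne_zero_iff _).mp hc0
  · exact ((Valuation.restrict_lt_iff _).mp hz).trans hc

/-- Neighbourhoods contain balls. -/
theorem exists_ball (v : HeightOneSpectrum (𝓞 k)) (α : v.adicCompletion k)
    {U : Set (v.adicCompletion k)} (hU : U ∈ 𝓝 α) :
    ∃ γ : ℤᵐ⁰, γ ≠ 0 ∧ {y : v.adicCompletion k | Valued.v (y - α) < γ} ⊆ U := by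
  obtain ⟨γ, hγ⟩ := Valued.mem_nhds.1 hU
  refine ⟨MonoidWithZeroHom.ValueGroup₀.embedding γ.1, ?_, fun y hy => hγ ?_⟩
  · exact (_root_.map_ne_zero _).mpr γ.ne_zero
  · exact (Valuation.restrict_lt_iff_lt_embedding _).mpr hy

/-- The field is dense in a finite product of completions. -/
theorem dense_prod (T : Finset (HeightOneSpectrum (𝓞 k))) :
    DenseRange fun (s : k) (v : T) => algebraMap k (v.1.adicCompletion k) s := by
  classical
  intro x
  rw [mem_closure_iff_nhds]
  intro t ht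
  rw [nhds_pi, Filter.mem_pi] at ht
  obtain ⟨I, -, U, hU, hUt⟩ := ht
  have h1 : ∀ v : T, ∃ γ : ℤᵐ⁰, γ ≠ 0 ∧ {y | Valued.v (y - x v) < γ} ⊆ U v :=
    fun v => exists_ball v.1 (x v) (hU v)
  choose γ hγ0 hγ using h1
  have h2 : ∀ v : T, ∃ a : k, Valued.v (algebraMap k (v.1.adicCompletion k) a - x v) < γ v := by
    intro v
    have h3 : {y | Valued.v (y - x v) < γ v} ∈ 𝓝 (x v) := ball_mem v.1 (x v) (hγ0 v)
    obtain ⟨_, h4, ⟨a, rfl⟩⟩ := (mem_closure_iff_nhds.1
      (v.1.denseRange_algebraMap (K := k) (x v))) _ h3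
    exact ⟨a, h4⟩
  choose a ha using h2
  obtain ⟨b, hb, -⟩ := Avoid.approx T (fun v => if h : v ∈ T then a ⟨v, h⟩ else 0)
    (fun v => if h : v ∈ T then γ ⟨v, h⟩ else 1) (by
      intro v hv
      rw [dif_pos hv]
      exact hγ0 _)
  refine ⟨_, hUt ?_, ⟨b, rfl⟩⟩
  intro v _
  refine hγ v ?_
  have h5 := hb v.1 v.2
  rw [dif_pos v.2, dif_pos v.2] at h5
  have e : algebraMap k (v.1.adicCompletion k) b - x v =
      algebraMap k (v.1.adicCompletion k) (b - a v) +
        (algebraMap k (v.1.adicCompletion k) (a v) - x v) := by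
    rw [map_sub]; ring
  change Valued.v (algebraMap k (v.1.adicCompletion k) b - x v) < γ v
  rw [e]
  refine Valued.v.map_add_lt ?_ (ha v)
  rw [val_alg]
  exact h5

/-- The same for tuples. -/
theorem dense_tuple (T : Finset (HeightOneSpectrum (𝓞 k))) (ι : Type*) [Finite ι] :
    DenseRange fun (s : ι → k) (v : T) (i : ι) => algebraMap k (v.1.adicCompletion k) (s i) := by
  have h1 : DenseRange (Pi.map (fun (_ : ι) (s : k) (v : T) =>
      algebraMap k (v.1.adicCompletion k) s)) := DenseRange.piMap fun _ => dense_prod T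
  have h2 : Continuous fun (x : ι → (v : T) → v.1.adicCompletion k) (v : T) (i : ι) => x i v := by
    fun_prop
  have h3 : DenseRange fun (x : ι → (v : T) → v.1.adicCompletion k) (v : T) (i : ι) => x i v :=
    Function.Surjective.denseRange fun y => ⟨fun i v => y v i, rfl⟩
  exact h3.comp h1 h2

variable {V : Type*} [AddCommGroup V] [Module k V] {ι : Type*} [Fintype ι]

/-- The quadratic form over the completion, in coordinates. -/
noncomputable def QC (Q : QuadraticForm k V) (B : Basis ι k V) (v : HeightOneSpectrum (𝓞 k)) :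
    QuadraticForm (v.adicCompletion k) (ι → v.adicCompletion k) :=
  ∑ i, ∑ j, (algebraMap k (v.adicCompletion k) (2⁻¹ * polar Q (B i) (B j))) •
    QuadraticMap.linMulLin (LinearMap.proj i) (LinearMap.proj j)

theorem QC_apply (Q : QuadraticForm k V) (B : Basis ι k V) (v : HeightOneSpectrum (𝓞 k))
    (x : ι → v.adicCompletion k) : QC Q B v x =
      ∑ i, ∑ j, algebraMap k (v.adicCompletion k) (2⁻¹ * polar Q (B i) (B j)) * (x i * x j) := by
  simp [QC]

/-- The coordinates as a semilinear map. -/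
noncomputable def jC (B : Basis ι k V) (v : HeightOneSpectrum (𝓞 k)) :
    V →ₛₗ[algebraMap k (v.adicCompletion k)] (ι → v.adicCompletion k) where
  toFun z i := algebraMap k (v.adicCompletion k) (B.repr z i)
  map_add' x y := by
    ext i
    simp
  map_smul' c x := by
    ext i
    simp

theorem jC_apply (B : Basis ι k V) (v : HeightOneSpectrum (𝓞 k)) (z : V) (i : ι) :
    jC B v z i = algebraMap k (v.adicCompletion k) (B.repr z i) := rfl

theorem Q_eq_sum (Q : QuadraticForm k V) (B : Basis ι k V) (z : V) :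
    Q z = ∑ i, ∑ j, 2⁻¹ * polar Q (B i) (B j) * (B.repr z i * B.repr z j) := by
  have h2 : (2 : k) ≠ 0 := two_ne_zero
  have h1 : polar Q z z = 2 * Q z := by
    rw [QuadraticMap.polar_self, two_smul, two_mul]
  have h3 : polar Q z z = ∑ i, ∑ j, polar Q (B i) (B j) * (B.repr z i * B.repr z j) := by
    have e : ∀ x y : V, polar Q x y = Q.polarBilin x y := fun x y => rfl
    conv_lhs => rw [← B.sum_repr z, e]
    simp only [map_sum, LinearMap.sum_apply, map_smul, LinearMap.smul_apply, smul_eq_mul]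
    refine Finset.sum_congr rfl fun i _ => ?_
    rw [Finset.mul_sum]
    refine Finset.sum_congr rfl fun j _ => ?_
    rw [e, QuadraticMap.polarBilin_apply_apply, QuadraticMap.polarBilin_apply_apply,
      QuadraticMap.polar_comm Q (B i) (B j)]
    ring
  have h4 : Q z = 2⁻¹ * polar Q z z := by rw [h1]; field_simp
  rw [h4, h3, Finset.mul_sum]
  refine Finset.sum_congr rfl fun i _ => ?_
  rw [Finset.mul_sum]
  exact Finset.sum_congr rfl fun j _ => by ring

theorem QC_jC (Q : QuadraticForm k V) (B : Basis ι k V) (v : HeightOneSpectrum (𝓞 k)) (z : V) :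
    QC Q B v (jC B v z) = algebraMap k (v.adicCompletion k) (Q z) := by
  rw [QC_apply, Q_eq_sum Q B z, map_sum]
  refine Finset.sum_congr rfl fun i _ => ?_
  rw [map_sum]
  refine Finset.sum_congr rfl fun j _ => ?_
  rw [jC_apply, jC_apply, ← map_mul, ← map_mul]

theorem QC_cont (Q : QuadraticForm k V) (B : Basis ι k V) (v : HeightOneSpectrum (𝓞 k)) :
    Continuous (QC Q B v) := by
  have : (QC Q B v : (ι → v.adicCompletion k) → v.adicCompletion k) = fun x =>
      ∑ i, ∑ j, algebraMap k (v.adicCompletion k) (2⁻¹ * polar Q (B i) (B j)) * (x i * x j) :=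
    funext fun x => QC_apply Q B v x
  rw [this]
  fun_prop

/-- **Zeros of a quadratic form near local zeros.** -/
theorem exists_zero_near_completion (Q : QuadraticForm k V) (B : Basis ι k V) {p : V}
    (hp : Q p = 0) (hp1 : ∃ y, polar Q p y ≠ 0) (hp2 : ∃ y, polar Q p y = 0 ∧ Q y ≠ 0)
    (T : Finset (HeightOneSpectrum (𝓞 k)))
    (x : ∀ v : HeightOneSpectrum (𝓞 k), ι → v.adicCompletion k)
    (hx : ∀ v ∈ T, QC Q B v (x v) = 0) (hs : ∀ v ∈ T, ∃ y, polar (QC Q B v) (x v) y ≠ 0)
    (γ : HeightOneSpectrum (𝓞 k) → ℤᵐ⁰) (hγ : ∀ v ∈ T, γ v ≠ 0)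
    (f : MvPolynomial ι k) {q : V} (hq : Q q = 0) (hq1 : ∃ y, polar Q q y ≠ 0)
    (hf : MvPolynomial.eval (B.repr q) f ≠ 0) :
    ∃ ρ : V, Q ρ = 0 ∧ (∀ v ∈ T, ∀ i,
      Valued.v (algebraMap k (v.adicCompletion k) (B.repr ρ i) - x v i) < γ v) ∧
      MvPolynomial.eval (B.repr ρ) f ≠ 0 := by
  classical
  -- an auxiliary place
  obtain ⟨v₀, hv₀⟩ := exists_notMem T
  set T' : Finset (HeightOneSpectrum (𝓞 k)) := insert v₀ T with hT'
  let X : ∀ v : T', ι → v.1.adicCompletion k := fun v => if v.1 = v₀ then jC B v.1 q else x v.1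
  have hXQ : ∀ v : T', QC Q B v.1 (X v) = 0 := by
    intro v
    by_cases h : v.1 = v₀
    · simp only [X, if_pos h, QC_jC, hq, map_zero]
    · simp only [X, if_neg h]
      exact hx v.1 ((Finset.mem_insert.mp v.2).resolve_left h)
  have hXs : ∀ v : T', ∃ y, polar (QC Q B v.1) (X v) y ≠ 0 := by
    intro v
    by_cases h : v.1 = v₀
    · obtain ⟨y, hy⟩ := hq1
      refine ⟨jC B v.1 y, ?_⟩
      simp only [X, if_pos h]
      rw [Vale.Agent.P011.H182.QW.polar_map Q (QC Q B v.1) (jC B v.1) (QC_jC Q B v.1)]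
      exact (map_ne_zero _).2 hy
    · simp only [X, if_neg h]
      exact hs v.1 ((Finset.mem_insert.mp v.2).resolve_left h)
  let W : ∀ v : T', Set (ι → v.1.adicCompletion k) := fun v =>
    if v.1 = v₀ then {y | MvPolynomial.eval₂ (algebraMap k (v.1.adicCompletion k)) y f ≠ 0}
    else {y | ∀ i, Valued.v (y i - x v.1 i) < γ v.1}
  have hW : ∀ v : T', W v ∈ 𝓝 (X v) := by
    intro v
    by_cases h : v.1 = v₀
    · simp only [X, W, if_pos h]
      have hc : Continuous fun y : ι → v.1.adicCompletion k =>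
          MvPolynomial.eval₂ (algebraMap k (v.1.adicCompletion k)) y f := by
        have e : (fun y : ι → v.1.adicCompletion k =>
            MvPolynomial.eval₂ (algebraMap k (v.1.adicCompletion k)) y f) = fun y =>
            MvPolynomial.eval y (MvPolynomial.map (algebraMap k (v.1.adicCompletion k)) f) := by
          ext y
          rw [MvPolynomial.eval_map]
        rw [e]
        exact MvPolynomial.continuous_eval _
      refine hc.continuousAt.eventually_ne ?_
      have e : MvPolynomial.eval₂ (algebraMap k (v.1.adicCompletion k)) (jC B v.1 q) f =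
          algebraMap k (v.1.adicCompletion k) (MvPolynomial.eval (B.repr q) f) := by
        rw [MvPolynomial.eval₂_eq', MvPolynomial.eval_eq', map_sum]
        refine Finset.sum_congr rfl fun m _ => ?_
        rw [map_mul, map_prod]
        congr 1
        refine Finset.prod_congr rfl fun i _ => ?_
        rw [map_pow, jC_apply]
      rw [e]
      exact (map_ne_zero _).2 hf
    · simp only [X, W, if_neg h]
      have hvT : v.1 ∈ T := (Finset.mem_insert.mp v.2).resolve_left h
      have e : {y : ι → v.1.adicCompletion k | ∀ i, Valued.v (y i - x v.1 i) < γ v.1} =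
          Set.pi Set.univ fun i => {y | Valued.v (y - x v.1 i) < γ v.1} := by
        ext y
        simp
      rw [e]
      refine set_pi_mem_nhds Set.finite_univ fun i _ => ?_
      exact ball_mem v.1 (x v.1 i) (hγ v.1 hvT)
  have hdV : DenseRange fun (z : V) (v : T') => jC B v.1 z := by
    have h1 := dense_tuple T' ι
    have h2 : (fun (z : V) (v : T') => jC B v.1 z) =
        (fun (s : ι → k) (v : T') (i : ι) => algebraMap k (v.1.adicCompletion k) (s i)) ∘
          (fun z : V => (B.equivFun z : ι → k)) := by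
      ext z v i
      rfl
    rw [h2]
    have h3 : Function.Surjective (fun z : V => (B.equivFun z : ι → k)) := B.equivFun.surjective
    intro y
    have h4 := h1 y
    rwa [Set.range_comp, h3.range_eq, Set.image_univ]
  obtain ⟨ρ, hρ, hρ2⟩ := Vale.Agent.P011.H182.QW.wa_field Q
    (fun v : T' => algebraMap k (v.1.adicCompletion k)) (fun v => jC B v.1)
    (fun v => QC Q B v.1) (fun v => QC_jC Q B v.1) (fun v => QC_cont Q B v.1)
    (dense_prod T') hdV hp hp1 hp2 X hXQ hXs hW
  refine ⟨ρ, hρ, fun v hv i => ?_, ?_⟩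
  · have h1 := hρ2 ⟨v, Finset.mem_insert_of_mem hv⟩
    have h2 : v ≠ v₀ := fun h => hv₀ (h ▸ hv)
    simp only [W, if_neg h2] at h1
    exact h1 i
  · have h1 := hρ2 ⟨v₀, Finset.mem_insert_self _ _⟩
    simp only [W, if_true] at h1
    intro h
    apply h1
    have e : MvPolynomial.eval₂ (algebraMap k (v₀.adicCompletion k)) (jC B v₀ ρ) f =
        algebraMap k (v₀.adicCompletion k) (MvPolynomial.eval (B.repr ρ) f) := by
      rw [MvPolynomial.eval₂_eq', MvPolynomial.eval_eq', map_sum]
      refine Finset.sum_congr rfl fun m _ => ?_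
      rw [map_mul, map_prod]
      congr 1
      refine Finset.prod_congr rfl fun i _ => ?_
      rw [map_pow, jC_apply]
    rw [e, h, map_zero]

end Vale.Agent.P011.H321.Rho
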