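import Mathlib

/-!
Gauss: polynomials over a factorial ring without a common factor generate an ideal that meets the
constants.
-/

namespace Vale.Agent.P011.H321.Avoid

open Polynomial

theorem exists_bezout {A : Type*} [CommRing A] [IsDomain A] [UniqueFactorizationMonoid A]
    {ι : Type*} [Fintype ι] (p : ι → A[X]) (h : ∀ q : A[X], (∀ i, q ∣ p i) → IsUnit q) :
    ∃ r : A, r ≠ 0 ∧ ∃ u : ι → A[X], ∑ i, u i * p i = C r := by
  classical
  let _ := Classical.choice (inferInstance : Nonempty (NormalizationMonoid A))
  let _ : NormalizedGCDMonoid A := UniqueFactorizationMonoid.toNormalizedGCDMonoid A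
  let L := FractionRing A
  set I : Ideal L[X] := Ideal.span (Set.range fun i => (p i).map (algebraMap A L)) with hI
  obtain ⟨g, hg⟩ := (IsPrincipalIdealRing.principal I).principal
  have hdvd : ∀ i, g ∣ (p i).map (algebraMap A L) := by
    intro i
    have h1 : (p i).map (algebraMap A L) ∈ I := Ideal.subset_span ⟨i, rfl⟩
    rw [hg] at h1
    exact Ideal.mem_span_singleton.mp h1
  have hinj : Function.Injective (algebraMap A L) := IsFractionRing.injective A L
  have hg0 : g ≠ 0 := by
    rintro rfl
    have h1 := h 0 fun i => by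
      have h2 := zero_dvd_iff.mp (hdvd i)
      rw [Polynomial.map_eq_zero_iff hinj] at h2
      rw [h2]
    exact not_isUnit_zero h1
  have hgu : IsUnit g := by
    obtain ⟨b, hb, hG⟩ := IsLocalization.integerNormalization_spec (nonZeroDivisors A) g
    set G := IsLocalization.integerNormalization (nonZeroDivisors A) g with hGdef
    have hb0 : algebraMap A L b ≠ 0 := by
      rw [Ne, map_eq_zero_iff _ hinj]
      exact nonZeroDivisors.ne_zero hb
    have hG' : G.map (algebraMap A L) = C (algebraMap A L b) * g := by
      rw [hG, ← algebraMap_smul L b g, smul_eq_C_mul]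
    have hdeg : G.natDegree = g.natDegree := by
      rw [← natDegree_map_eq_of_injective hinj, hG', natDegree_C_mul hb0]
    have h1 : ∀ i, G.primPart ∣ p i := by
      intro i
      refine (isPrimitive_primPart G).dvd_of_fraction_map_dvd_fraction_map (K := L) ?_
      have h2 : G.primPart.map (algebraMap A L) ∣ G.map (algebraMap A L) := by
        conv_rhs => rw [G.eq_C_content_mul_primPart]
        rw [Polynomial.map_mul]
        exact dvd_mul_left _ _
      refine h2.trans ?_
      rw [hG']
      exact ((isUnit_C.mpr (isUnit_iff_ne_zero.mpr hb0)).mul_left_dvd).mpr (hdvd i)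
    have h3 := natDegree_eq_zero_of_isUnit (h _ h1)
    rw [natDegree_primPart, hdeg] at h3
    rw [eq_C_of_natDegree_eq_zero h3] at hg0 ⊢
    exact isUnit_C.mpr (isUnit_iff_ne_zero.mpr fun h4 => hg0 (by rw [h4, C_0]))
  have h1 : (1 : L[X]) ∈ I := by
    rw [hg]
    exact Ideal.mem_span_singleton.mpr (hgu.dvd)
  obtain ⟨c, hc⟩ := Ideal.mem_span_range_iff_exists_fun.mp h1
  have hb : ∀ i, ∃ b : A, b ≠ 0 ∧ ∃ v : A[X], v.map (algebraMap A L) = C (algebraMap A L b) * c i := by
    intro i
    obtain ⟨b, hb, hG⟩ := IsLocalization.integerNormalization_spec (nonZeroDivisors A) (c i)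
    refine ⟨b, nonZeroDivisors.ne_zero hb,
      IsLocalization.integerNormalization (nonZeroDivisors A) (c i), ?_⟩
    rw [hG, ← algebraMap_smul L b (c i), smul_eq_C_mul]
  choose b hb0 v hv using hb
  set r : A := ∏ i, b i with hr
  have hu : ∀ i, ∃ u : A[X], u.map (algebraMap A L) = C (algebraMap A L r) * c i := by
    intro i
    refine ⟨C (∏ j ∈ Finset.univ.erase i, b j) * v i, ?_⟩
    rw [Polynomial.map_mul, map_C, hv, ← mul_assoc, ← C_mul, ← map_mul,
      Finset.prod_erase_mul _ _ (Finset.mem_univ i)]
  choose u hu using hu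
  refine ⟨r, Finset.prod_ne_zero_iff.mpr fun i _ => hb0 i, u, ?_⟩
  apply Polynomial.map_injective _ hinj
  rw [Polynomial.map_sum, map_C]
  calc ∑ i, (u i * p i).map (algebraMap A L)
      = ∑ i, C (algebraMap A L r) * (c i * (p i).map (algebraMap A L)) :=
        Finset.sum_congr rfl fun i _ => by rw [Polynomial.map_mul, hu, mul_assoc]
    _ = C (algebraMap A L r) := by rw [← Finset.mul_sum, hc, mul_one]

end Vale.Agent.P011.H321.Avoid
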