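import Vale.Agent.P011.H321.AvoidA
import Vale.Agent.P011.H321.AvoidB

/-!
Points avoiding a condition of codimension two modulo all primes (an elementary sieve).
-/

namespace Vale.Agent.P011.H321.Avoid

open IsDedekindDomain HeightOneSpectrum MvPolynomial WithZero

variable {R K : Type*} [CommRing R] [IsDedekindDomain R] [Field K] [Algebra R K]
  [IsFractionRing R K]

/-- The residue fields are large outside a finite set. -/
def BigRes (R : Type*) [CommRing R] : Prop :=
  ∀ C : ℕ, {v : HeightOneSpectrum R | ¬ ∃ s : Finset (R ⧸ v.asIdeal), C < s.card}.Finite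

/-- A polynomial in one variable with integral coefficients, one of which is a unit, has a unit
value if the residue field is large. -/
theorem exists_unit_value (v : HeightOneSpectrum R) (f : Polynomial K)
    (hf : ∀ j, v.valuation K (f.coeff j) ≤ 1) {j : ℕ} (hj : 1 ≤ v.valuation K (f.coeff j))
    {D : ℕ} (hD : f.natDegree ≤ D) (hs : ∃ s : Finset (R ⧸ v.asIdeal), D < s.card) :
    ∃ y : K, v.valuation K y ≤ 1 ∧ 1 ≤ v.valuation K (f.eval y) := by
  classical
  choose r hr using fun j => exists_res v (f.coeff j) (hf j)
  set F : Polynomial R := ∑ i ∈ Finset.range (D + 1), Polynomial.monomial i (r i) with hF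
  have hco : ∀ i, i ≤ D → F.coeff i = r i := by
    intro i hi
    rw [hF, Polynomial.finsetSum_coeff, Finset.sum_eq_single i]
    · rw [Polynomial.coeff_monomial, if_pos rfl]
    · intro b _ hb
      rw [Polynomial.coeff_monomial, if_neg hb]
    · intro h
      exact absurd (Finset.mem_range.mpr (Nat.lt_succ_of_le hi)) h
  have hj0 : f.coeff j ≠ 0 := by
    intro h
    rw [h, map_zero] at hj
    exact absurd hj (by simp)
  have hjD : j ≤ D := (Polynomial.le_natDegree_of_ne_zero hj0).trans hD
  have hFd : F.natDegree ≤ D := by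
    rw [hF]
    refine Polynomial.natDegree_sum_le_of_forall_le _ _ fun i hi => ?_
    exact (Polynomial.natDegree_monomial_le _).trans (Nat.lt_succ_iff.mp (Finset.mem_range.mp hi))
  have := v.isMaximal
  let _ : Field (R ⧸ v.asIdeal) := Ideal.Quotient.field v.asIdeal
  have hrj : r j ∉ v.asIdeal := by
    intro h
    have h1 := (v.valuation_lt_one_iff_mem (K := K) _).mpr h
    have h2 : v.valuation K (f.coeff j) < 1 := by
      have e : f.coeff j = (f.coeff j - algebraMap R K (r j)) + algebraMap R K (r j) := by ring
      rw [e]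
      exact (v.valuation K).map_add_lt (hr j) h1
    exact absurd hj (not_le.mpr h2)
  set G := F.map (Ideal.Quotient.mk v.asIdeal) with hG
  have hG0 : G ≠ 0 := by
    intro h
    have h1 : G.coeff j = 0 := by rw [h, Polynomial.coeff_zero]
    rw [hG, Polynomial.coeff_map, hco j hjD] at h1
    exact hrj (Ideal.Quotient.eq_zero_iff_mem.mp h1)
  obtain ⟨s, hs⟩ := hs
  obtain ⟨z, hz, hzr⟩ : ∃ z ∈ s, G.eval z ≠ 0 := by
    by_contra hcon
    push Not at hcon
    have h1 : s ⊆ G.roots.toFinset := by
      intro z hz
      rw [Multiset.mem_toFinset, Polynomial.mem_roots hG0]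
      exact hcon z hz
    have h2 := Finset.card_le_card h1
    have h3 := Multiset.toFinset_card_le G.roots
    have h4 := G.card_roots'
    have h5 : G.natDegree ≤ D := (Polynomial.natDegree_map_le).trans hFd
    omega
  obtain ⟨y, rfl⟩ := Ideal.Quotient.mk_surjective z
  refine ⟨algebraMap R K y, valuation_le_one v y, ?_⟩
  rw [hG, Polynomial.eval_map, Polynomial.eval₂_hom, Ne, Ideal.Quotient.eq_zero_iff_mem,
    ← v.valuation_lt_one_iff_mem (K := K), not_lt] at hzr
  have e : f.eval (algebraMap R K y) - algebraMap R K (F.eval y) =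
      ∑ i ∈ Finset.range (D + 1), (f.coeff i - algebraMap R K (r i)) * algebraMap R K y ^ i := by
    rw [Polynomial.eval_eq_sum_range' (Nat.lt_succ_of_le hD),
      Polynomial.eval_eq_sum_range' (Nat.lt_succ_of_le hFd), map_sum, ← Finset.sum_sub_distrib]
    refine Finset.sum_congr rfl fun i hi => ?_
    rw [hco i (Nat.lt_succ_iff.mp (Finset.mem_range.mp hi)), map_mul, map_pow, sub_mul]
  have h1 : v.valuation K (f.eval (algebraMap R K y) - algebraMap R K (F.eval y)) < 1 := by
    rw [e]
    refine Valuation.map_sum_lt _ one_ne_zero fun i _ => ?_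
    rw [map_mul, map_pow]
    calc _ ≤ v.valuation K (f.coeff i - algebraMap R K (r i)) * 1 :=
          mul_le_mul_right (pow_le_one' (valuation_le_one v y) _) _
      _ < 1 := by rw [mul_one]; exact hr i
  by_contra hcon
  rw [not_le] at hcon
  have h2 : v.valuation K (algebraMap R K (F.eval y)) < 1 := by
    have e2 : algebraMap R K (F.eval y) = f.eval (algebraMap R K y) -
        (f.eval (algebraMap R K y) - algebraMap R K (F.eval y)) := by ring
    rw [e2]
    exact (v.valuation K).map_sub_lt hcon h1
  exact absurd hzr (not_le.mpr h2)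

/-- **The avoidance lemma.** Let `P` be a finite family of polynomials without a common factor.
If at every prime `v` outside the finite set `T` there is an integral point at which some `P i` is
not in the maximal ideal, then there is a point with these properties at all primes outside `T` at
once, which is as near as wished to given points at the primes in `T`, and outside the zero set of
a given nonzero polynomial. -/
theorem avoid [Infinite R] (hR : BigRes R) : ∀ (N : ℕ) {ι : Type} [Finite ι]
    (P : ι → MvPolynomial (Fin N) K) (_ : ∀ q, (∀ i, q ∣ P i) → IsUnit q)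
    (Q : MvPolynomial (Fin N) K) (_ : Q ≠ 0)
    (T : Finset (HeightOneSpectrum R)) (a : HeightOneSpectrum R → Fin N → K)
    (g : HeightOneSpectrum R → ℤᵐ⁰) (_ : ∀ v ∈ T, g v ≠ 0)
    (_ : ∀ v ∉ T, ∃ x : Fin N → K, (∀ j, v.valuation K (x j) ≤ 1) ∧
      ∃ i, 1 ≤ v.valuation K (eval x (P i))),
    ∃ x : Fin N → K, (∀ v ∈ T, ∀ j, v.valuation K (x j - a v j) < g v) ∧
      (∀ v ∉ T, ∀ j, v.valuation K (x j) ≤ 1) ∧
      (∀ v ∉ T, ∃ i, 1 ≤ v.valuation K (eval x (P i))) ∧ eval x Q ≠ 0 := by
  classical
  intro N
  induction N with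
  | zero =>
    intro ι _ P hP Q hQ T a g hg hloc
    refine ⟨fun j => j.elim0, fun v _ j => j.elim0, fun v _ j => j.elim0, fun v hv => ?_, ?_⟩
    · obtain ⟨x, -, i, hi⟩ := hloc v hv
      refine ⟨i, ?_⟩
      rwa [Subsingleton.elim (fun j => j.elim0) x]
    · intro h
      apply hQ
      rw [eq_C_of_isEmpty Q] at h ⊢
      rw [eval_C] at h
      rw [h, C_0]
  | succ N ih =>
    intro ι _ P hP Q hQ T a g hg hloc
    have := Fintype.ofFinite ι
    -- the coefficients in the first variable
    set p : ι → Polynomial (MvPolynomial (Fin N) K) := fun i => finSuccEquiv K N (P i) with hp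
    obtain ⟨D, hD⟩ : ∃ D : ℕ, ∀ i, (p i).natDegree ≤ D :=
      ⟨Finset.univ.sup fun i => (p i).natDegree, fun i =>
        Finset.le_sup (f := fun i => (p i).natDegree) (Finset.mem_univ i)⟩
    have hval : ∀ (x : Fin N → K) (y : K) (i : ι), eval (Fin.cons y x : Fin (N + 1) → K) (P i) =
        ((p i).map (eval x)).eval y := fun x y i => eval_eq_eval_mv_eval' x y (P i)
    have hpq : ∀ q : Polynomial (MvPolynomial (Fin N) K), (∀ i, q ∣ p i) → IsUnit q := by
      intro q hq
      have h1 : IsUnit ((finSuccEquiv K N).symm q) := by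
        refine hP _ fun i => ?_
        obtain ⟨c, hc⟩ := hq i
        refine ⟨(finSuccEquiv K N).symm c, ?_⟩
        rw [← map_mul, ← hc, hp, AlgEquiv.symm_apply_apply]
      have h2 := h1.map (finSuccEquiv K N)
      rwa [AlgEquiv.apply_symm_apply] at h2
    obtain ⟨r, hr0, u, hu⟩ := exists_bezout p hpq
    set C' : ι × Fin (D + 1) → MvPolynomial (Fin N) K := fun c => (p c.1).coeff c.2 with hC'
    have hC : ∀ q, (∀ c, q ∣ C' c) → IsUnit q := by
      intro q hq
      refine Polynomial.isUnit_C.mp (hpq _ fun i => ?_)
      rw [Polynomial.C_dvd_iff_dvd_coeff]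
      intro n
      by_cases hn : n ≤ D
      · exact hq (i, ⟨n, Nat.lt_succ_of_le hn⟩)
      · rw [Polynomial.coeff_eq_zero_of_natDegree_lt (lt_of_le_of_lt (hD i) (not_le.mp hn))]
        exact dvd_zero q
    -- the auxiliary polynomial
    set Qp := finSuccEquiv K N Q with hQp
    have hQp0 : Qp ≠ 0 := by
      rw [hQp, Ne, map_eq_zero_iff _ (finSuccEquiv K N).injective]
      exact hQ
    obtain ⟨m, hm⟩ : ∃ m, Qp.coeff m ≠ 0 := by
      by_contra hcon
      push Not at hcon
      exact hQp0 (Polynomial.ext fun n => by rw [hcon n, Polynomial.coeff_zero])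
    -- the first finite set
    have hbadC : {v : HeightOneSpectrum R | ∃ c : ι × Fin (D + 1), ∃ m, 1 < v.valuation K
        (coeff m (C' c))}.Finite := by
      have : {v : HeightOneSpectrum R | ∃ c : ι × Fin (D + 1), ∃ m, 1 < v.valuation K
          (coeff m (C' c))} = ⋃ c : ι × Fin (D + 1), {v | ∃ m, 1 < v.valuation K
          (coeff m (C' c))} := by
        ext v
        simp
      rw [this]
      exact Set.finite_iUnion fun c => bad_finite (C' c)
    set T₁ : Finset (HeightOneSpectrum R) := T ∪ (hR D).toFinset ∪ hbadC.toFinset with hT₁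
    have hTT₁ : ∀ v ∈ T, v ∈ T₁ := fun v hv =>
      Finset.mem_union_left _ (Finset.mem_union_left _ hv)
    have hT₁big : ∀ v ∉ T₁, ∃ s : Finset (R ⧸ v.asIdeal), D < s.card := by
      intro v hv
      by_contra hcon
      exact hv (Finset.mem_union_left _ (Finset.mem_union_right _
        ((Set.Finite.mem_toFinset _).mpr hcon)))
    have hT₁int : ∀ v ∉ T₁, ∀ c m, v.valuation K (coeff m (C' c)) ≤ 1 := by
      intro v hv c m
      by_contra hcon
      exact hv (Finset.mem_union_right _ ((Set.Finite.mem_toFinset _).mpr ⟨c, m, not_le.mp hcon⟩))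
    -- the local points at the primes of the first finite set
    choose! z hz1 hz2 using hloc
    have hclose : ∀ v ∉ T, ∃ δ : ℤᵐ⁰, δ ≠ 0 ∧ δ ≤ 1 ∧ ∀ x : Fin (N + 1) → K,
        (∀ j, v.valuation K (x j - z v j) < δ) →
          (∀ j, v.valuation K (x j) ≤ 1) ∧ ∃ i, 1 ≤ v.valuation K (eval x (P i)) := by
      intro v hv
      obtain ⟨i, hi⟩ := hz2 v hv
      obtain ⟨δ, hδ, h⟩ := eval_close (v.valuation K) (P i) (z v) 1 one_ne_zero
      refine ⟨min δ 1, (lt_min (zero_lt_iff.mpr hδ) zero_lt_one).ne', min_le_right _ _,
        fun x hx => ⟨fun j => ?_, i, ?_⟩⟩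
      · have e : x j = (x j - z v j) + z v j := by ring
        rw [e]
        exact (v.valuation K).map_add_le ((lt_of_lt_of_le (hx j) (min_le_right _ _)).le)
          (hz1 v hv j)
      · have h1 := h x fun j => lt_of_lt_of_le (hx j) (min_le_left _ _)
        by_contra hcon
        rw [not_le] at hcon
        have e : eval (z v) (P i) = eval x (P i) - (eval x (P i) - eval (z v) (P i)) := by ring
        rw [e] at hi
        exact absurd hi (not_le.mpr ((v.valuation K).map_sub_lt hcon h1))
    choose! δ hδ0 hδ1 hδ using hclose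
    set a₁ : HeightOneSpectrum R → Fin (N + 1) → K := fun v => if v ∈ T then a v else z v with ha₁
    set g₁ : HeightOneSpectrum R → ℤᵐ⁰ := fun v => if v ∈ T then g v else δ v with hg₁
    have hg₁0 : ∀ v ∈ T₁, g₁ v ≠ 0 := by
      intro v _
      rw [hg₁]
      dsimp only
      split_ifs with h
      · exact hg v h
      · exact hδ0 v h
    -- the first `N` coordinates
    obtain ⟨x, hx1, hx2, hx3, hx4⟩ := ih C' hC (r * Qp.coeff m) (mul_ne_zero hr0 hm) T₁
      (fun v j => a₁ v j.succ) g₁ hg₁0 (by
        intro v hv
        have hvT : v ∉ T := fun h => hv (hTT₁ v h)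
        refine ⟨fun j => z v j.succ, fun j => hz1 v hvT _, ?_⟩
        by_contra hcon
        push Not at hcon
        obtain ⟨i, hi⟩ := hz2 v hvT
        have e : z v = Fin.cons (z v 0) (fun j => z v j.succ) := (Fin.cons_self_tail _).symm
        rw [e, hval, Polynomial.eval_eq_sum_range' (n := D + 1)
          (Nat.lt_succ_of_le ((Polynomial.natDegree_map_le).trans (hD i)))] at hi
        refine absurd hi (not_le.mpr (Valuation.map_sum_lt _ one_ne_zero fun n hn => ?_))
        rw [Polynomial.coeff_map, map_mul, map_pow]
        calc _ ≤ v.valuation K (eval (fun j => z v j.succ) ((p i).coeff n)) * 1 :=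
              mul_le_mul_right (pow_le_one' (hz1 v hvT 0) _) _
          _ < 1 := by
            rw [mul_one]
            exact hcon (i, ⟨n, Finset.mem_range.mp hn⟩))
    rw [map_mul, mul_ne_zero_iff] at hx4
    obtain ⟨hrx, hmx⟩ := hx4
    -- the second finite set
    have hbadU : {v : HeightOneSpectrum R | ∃ i : ι, ∃ n ∈ (u i).support, ¬ v.valuation K
        (eval x ((u i).coeff n)) ≤ 1}.Finite := by
      have : {v : HeightOneSpectrum R | ∃ i : ι, ∃ n ∈ (u i).support, ¬ v.valuation K
          (eval x ((u i).coeff n)) ≤ 1} ⊆ ⋃ i : ι, ⋃ n ∈ (u i).support,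
          {v | ¬ v.valuation K (eval x ((u i).coeff n)) ≤ 1} := by
        intro v hv
        simpa using hv
      refine Set.Finite.subset ?_ this
      refine Set.finite_iUnion fun i => Set.Finite.biUnion (Finset.finite_toSet _) fun n _ => ?_
      by_cases h0 : eval x ((u i).coeff n) = 0
      · convert Set.finite_empty
        ext v
        simp [h0]
      · refine (hos_finite (R := R) h0).subset fun v hv h1 => hv ?_
        rw [h1]
    set T₂ : Finset (HeightOneSpectrum R) :=
      T₁ ∪ (hos_finite (R := R) hrx).toFinset ∪ hbadU.toFinset with hT₂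
    have hT₁T₂ : ∀ v ∈ T₁, v ∈ T₂ := fun v hv =>
      Finset.mem_union_left _ (Finset.mem_union_left _ hv)
    have hT₂r : ∀ v ∉ T₂, v.valuation K (eval x r) = 1 := by
      intro v hv
      by_contra hcon
      exact hv (Finset.mem_union_left _ (Finset.mem_union_right _
        ((Set.Finite.mem_toFinset _).mpr hcon)))
    have hT₂u : ∀ v ∉ T₂, ∀ i n, v.valuation K (eval x ((u i).coeff n)) ≤ 1 := by
      intro v hv i n
      by_cases hn : n ∈ (u i).support
      · by_contra hcon
        exact hv (Finset.mem_union_right _ ((Set.Finite.mem_toFinset _).mpr ⟨i, n, hn, hcon⟩))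
      · rw [Polynomial.notMem_support_iff.mp hn, map_zero, map_zero]
        exact zero_le_one
    -- unit values of the polynomials in one variable
    have hcoef : ∀ v ∉ T₁, ∀ i n, v.valuation K (((p i).map (eval x)).coeff n) ≤ 1 := by
      intro v hv i n
      rw [Polynomial.coeff_map]
      by_cases hn : n ≤ D
      · exact eval_int _ _ (fun m => hT₁int v hv (i, ⟨n, Nat.lt_succ_of_le hn⟩) m) x (hx2 v hv)
      · rw [Polynomial.coeff_eq_zero_of_natDegree_lt (lt_of_le_of_lt (hD i) (not_le.mp hn)),
          map_zero, map_zero]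
        exact zero_le_one
    have hone : ∀ v ∉ T₁, ∃ y : K, v.valuation K y ≤ 1 ∧ ∃ i,
        1 ≤ v.valuation K (((p i).map (eval x)).eval y) := by
      intro v hv
      obtain ⟨⟨i, n⟩, hin⟩ := hx3 v hv
      obtain ⟨y, hy1, hy2⟩ := exists_unit_value v ((p i).map (eval x)) (hcoef v hv i)
        (j := n) (by rw [Polynomial.coeff_map]; exact hin)
        ((Polynomial.natDegree_map_le).trans (hD i)) (hT₁big v hv)
      exact ⟨y, hy1, i, hy2⟩
    choose! w hw1 hw2 using hone
    set b : HeightOneSpectrum R → K := fun v => if v ∈ T₁ then a₁ v 0 else w v with hb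
    set h₁ : HeightOneSpectrum R → ℤᵐ⁰ := fun v => if v ∈ T₁ then g₁ v else 1 with hh₁
    have hh₁0 : ∀ v ∈ T₂, h₁ v ≠ 0 := by
      intro v _
      rw [hh₁]
      dsimp only
      split_ifs with h
      · exact hg₁0 v h
      · exact one_ne_zero
    obtain ⟨y₀, hy1, hy2⟩ := approx T₂ b h₁ hh₁0
    obtain ⟨c, hc0, hc⟩ := exists_small K T₂ h₁ hh₁0
    -- avoid the zeros of the auxiliary polynomial
    have hQx : (Qp.map (eval x)) ≠ 0 := by
      intro h
      have h1 : (Qp.map (eval x)).coeff m = 0 := by rw [h, Polynomial.coeff_zero]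
      rw [Polynomial.coeff_map] at h1
      exact hmx h1
    obtain ⟨t, ht⟩ : ∃ t : R, (Qp.map (eval x)).eval (y₀ + algebraMap R K (c * t)) ≠ 0 := by
      by_contra hcon
      push Not at hcon
      have h1 : Set.range (fun t : R => y₀ + algebraMap R K (c * t)) ⊆
          ((Qp.map (eval x)).roots.toFinset : Set K) := by
        rintro _ ⟨t, rfl⟩
        rw [Finset.mem_coe, Multiset.mem_toFinset, Polynomial.mem_roots hQx]
        exact hcon t
      have h2 : Function.Injective (fun t : R => y₀ + algebraMap R K (c * t)) := by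
        intro s t hst
        exact mul_left_cancel₀ hc0 (IsFractionRing.injective R K (add_left_cancel hst))
      exact (Set.infinite_range_of_injective h2) ((Finset.finite_toSet _).subset h1)
    set y := y₀ + algebraMap R K (c * t) with hy
    have hyT₂ : ∀ v ∈ T₂, v.valuation K (y - b v) < h₁ v := by
      intro v hv
      have e : y - b v = (y₀ - b v) + algebraMap R K (c * t) := by rw [hy]; ring
      rw [e]
      refine (v.valuation K).map_add_lt (hy1 v hv) ?_
      rw [map_mul, map_mul]
      calc _ ≤ v.valuation K (algebraMap R K c) * 1 :=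
            mul_le_mul_right (valuation_le_one v _) _
        _ < h₁ v := by rw [mul_one]; exact hc v hv
    have hyint : ∀ v ∉ T₂, v.valuation K y ≤ 1 := fun v hv =>
      (v.valuation K).map_add_le (hy2 v hv) (valuation_le_one v _)
    have hyT₁ : ∀ v ∈ T₁, v.valuation K (y - a₁ v 0) < g₁ v := by
      intro v hv
      have h1 := hyT₂ v (hT₁T₂ v hv)
      rw [hb, hh₁] at h1
      dsimp only at h1
      rwa [if_pos hv, if_pos hv] at h1
    have hxy : ∀ v ∈ T₁, ∀ j, v.valuation K ((Fin.cons y x : Fin (N + 1) → K) j - a₁ v j) < g₁ v := by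
      intro v hv j
      refine Fin.cases ?_ (fun j => ?_) j
      · rw [Fin.cons_zero]
        exact hyT₁ v hv
      · rw [Fin.cons_succ]
        exact hx1 v hv j
    have hgood : ∀ v ∈ T₁, v ∉ T → (∀ j, v.valuation K ((Fin.cons y x : Fin (N + 1) → K) j) ≤ 1) ∧
        ∃ i, 1 ≤ v.valuation K (eval (Fin.cons y x : Fin (N + 1) → K) (P i)) := by
      intro v hv hvT
      refine hδ v hvT _ fun j => ?_
      have h1 := hxy v hv j
      rw [ha₁, hg₁] at h1
      dsimp only at h1
      rwa [if_neg hvT, if_neg hvT] at h1
    refine ⟨Fin.cons y x, fun v hv j => ?_, fun v hv j => ?_, fun v hv => ?_, ?_⟩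
    · have h1 := hxy v (hTT₁ v hv) j
      rw [ha₁, hg₁] at h1
      dsimp only at h1
      rwa [if_pos hv, if_pos hv] at h1
    · by_cases hv1 : v ∈ T₁
      · exact (hgood v hv1 hv).1 j
      · refine Fin.cases ?_ (fun j => ?_) j
        · rw [Fin.cons_zero]
          by_cases hv2 : v ∈ T₂
          · have h1 := hyT₂ v hv2
            rw [hb, hh₁] at h1
            dsimp only at h1
            rw [if_neg hv1, if_neg hv1] at h1
            have e : y = (y - w v) + w v := by ring
            rw [e]
            exact (v.valuation K).map_add_le h1.le (hw1 v hv1)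
          · exact hyint v hv2
        · rw [Fin.cons_succ]
          exact hx2 v hv1 j
    · by_cases hv1 : v ∈ T₁
      · exact (hgood v hv1 hv).2
      · by_cases hv2 : v ∈ T₂
        · have h1 := hyT₂ v hv2
          rw [hb, hh₁] at h1
          dsimp only at h1
          rw [if_neg hv1, if_neg hv1] at h1
          obtain ⟨i, hi⟩ := hw2 v hv1
          refine ⟨i, ?_⟩
          rw [hval]
          by_contra hcon
          rw [not_le] at hcon
          have e : ((p i).map (eval x)).eval (w v) - ((p i).map (eval x)).eval y =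
              ∑ n ∈ Finset.range (D + 1), ((p i).map (eval x)).coeff n * (w v ^ n - y ^ n) := by
            rw [Polynomial.eval_eq_sum_range' (n := D + 1)
              (Nat.lt_succ_of_le ((Polynomial.natDegree_map_le).trans (hD i))),
              Polynomial.eval_eq_sum_range' (n := D + 1)
              (Nat.lt_succ_of_le ((Polynomial.natDegree_map_le).trans (hD i))),
              ← Finset.sum_sub_distrib]
            exact Finset.sum_congr rfl fun n _ => by ring
          have hyv : v.valuation K y ≤ 1 := by
            have e : y = (y - w v) + w v := by ring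
            rw [e]
            exact (v.valuation K).map_add_le h1.le (hw1 v hv1)
          have h2 : v.valuation K (((p i).map (eval x)).eval (w v) -
              ((p i).map (eval x)).eval y) < 1 := by
            rw [e]
            refine Valuation.map_sum_lt _ one_ne_zero fun n _ => ?_
            rw [map_mul]
            have h3 : v.valuation K (w v ^ n - y ^ n) < 1 := by
              obtain ⟨q, hq⟩ : ∃ q : K, v.valuation K q ≤ 1 ∧ w v ^ n - y ^ n = (w v - y) * q := by
                refine ⟨∑ i ∈ Finset.range n, w v ^ i * y ^ (n - 1 - i), ?_, ?_⟩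
                · refine Valuation.map_sum_le _ fun i _ => ?_
                  rw [map_mul, map_pow, map_pow]
                  exact mul_le_one' (pow_le_one' (hw1 v hv1) _) (pow_le_one' hyv _)
                · rw [mul_comm]
                  exact (Commute.geom_sum₂_mul (Commute.all _ _) n).symm
              rw [hq.2, map_mul]
              calc _ ≤ v.valuation K (w v - y) * 1 := mul_le_mul_right hq.1 _
                _ < 1 := by rw [mul_one, Valuation.map_sub_swap]; exact h1
            calc _ ≤ 1 * v.valuation K (w v ^ n - y ^ n) := mul_le_mul_left (hcoef v hv1 i n) _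
              _ < 1 := by rw [one_mul]; exact h3
          have e4 : ((p i).map (eval x)).eval (w v) = (((p i).map (eval x)).eval (w v) -
              ((p i).map (eval x)).eval y) + ((p i).map (eval x)).eval y := by ring
          rw [e4] at hi
          exact absurd hi (not_le.mpr ((v.valuation K).map_add_lt h2 hcon))
        · by_contra hcon
          push Not at hcon
          have e : ∑ i, ((u i).map (eval x)).eval y * ((p i).map (eval x)).eval y = eval x r := by
            have h1 := congrArg (fun f : Polynomial (MvPolynomial (Fin N) K) =>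
              (f.map (eval x)).eval y) hu
            rw [Polynomial.map_C, Polynomial.eval_C] at h1
            rw [← h1, Polynomial.map_sum, Polynomial.eval_finsetSum]
            refine Finset.sum_congr rfl fun i _ => ?_
            rw [Polynomial.map_mul, Polynomial.eval_mul]
          have h1 : v.valuation K (eval x r) < 1 := by
            rw [← e]
            refine Valuation.map_sum_lt _ one_ne_zero fun i _ => ?_
            rw [map_mul]
            have h2 : v.valuation K (((u i).map (eval x)).eval y) ≤ 1 := by
              rw [Polynomial.eval_eq_sum_range]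
              refine Valuation.map_sum_le _ fun n _ => ?_
              rw [map_mul, map_pow, Polynomial.coeff_map]
              exact mul_le_one' (hT₂u v hv2 i n) (pow_le_one' (hyint v hv2) _)
            have h3 := hcon i
            rw [hval] at h3
            calc _ ≤ 1 * v.valuation K (((p i).map (eval x)).eval y) := mul_le_mul_left h2 _
              _ < 1 := by rw [one_mul]; exact h3
          rw [hT₂r v hv2] at h1
          exact lt_irrefl _ h1
    · rw [eval_eq_eval_mv_eval']
      exact ht

/-- The residue fields of a number field are large outside a finite set. -/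
theorem bigRes_nf (k : Type*) [Field k] [NumberField k] : BigRes (NumberField.RingOfIntegers k) := by
  intro C
  have h1 : {I : Ideal (NumberField.RingOfIntegers k) | Ideal.absNorm I ≤ C}.Finite :=
    Ideal.finite_setOfPred_absNorm_le C
  refine Set.Finite.of_finite_image (f := fun v : HeightOneSpectrum _ => v.asIdeal)
    (h1.subset ?_) (fun v _ w _ h => HeightOneSpectrum.ext h)
  rintro _ ⟨v, hv, rfl⟩
  by_contra hcon
  apply hv
  have h2 : C < Ideal.absNorm v.asIdeal := not_le.mp hcon
  rw [Ideal.absNorm_apply, Submodule.cardQuot_apply] at h2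
  have h3 : Finite (NumberField.RingOfIntegers k ⧸ v.asIdeal) :=
    Nat.finite_of_card_ne_zero (by omega)
  have := Fintype.ofFinite (NumberField.RingOfIntegers k ⧸ v.asIdeal)
  refine ⟨Finset.univ, ?_⟩
  rwa [Finset.card_univ, ← Nat.card_eq_fintype_card]

/-- The avoidance lemma over a number field. -/
theorem avoid_nf {k : Type*} [Field k] [NumberField k] (N : ℕ) {ι : Type} [Finite ι]
    (P : ι → MvPolynomial (Fin N) k) (hP : ∀ q, (∀ i, q ∣ P i) → IsUnit q)
    (Q : MvPolynomial (Fin N) k) (hQ : Q ≠ 0)
    (T : Finset (HeightOneSpectrum (NumberField.RingOfIntegers k)))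
    (a : HeightOneSpectrum (NumberField.RingOfIntegers k) → Fin N → k)
    (g : HeightOneSpectrum (NumberField.RingOfIntegers k) → ℤᵐ⁰) (hg : ∀ v ∈ T, g v ≠ 0)
    (hloc : ∀ v ∉ T, ∃ x : Fin N → k, (∀ j, v.valuation k (x j) ≤ 1) ∧
      ∃ i, 1 ≤ v.valuation k (eval x (P i))) :
    ∃ x : Fin N → k, (∀ v ∈ T, ∀ j, v.valuation k (x j - a v j) < g v) ∧
      (∀ v ∉ T, ∀ j, v.valuation k (x j) ≤ 1) ∧
      (∀ v ∉ T, ∃ i, 1 ≤ v.valuation k (eval x (P i))) ∧ eval x Q ≠ 0 :=
  avoid (bigRes_nf k) N P hP Q hQ T a g hg hloc

end Vale.Agent.P011.H321.Avoid
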