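import Mathlib

/-!
A central division algebra with a unitary involution at a place which splits the centre and the
algebra: the base change is the product of two matrix rings exchanged by the involution. Any
characteristic.
-/

open Module

namespace Vale.Agent.P011.H321

section indep

variable {K D F A : Type*} [Field K] [DivisionRing D] [Algebra K D] [Algebra.IsCentral K D]
  [Field F] [Algebra K F] [Ring A] [Nontrivial A] [Algebra F A]

/-- Relations with coefficients which are independent over the centre are trivial. -/
theorem eq_zero_of_sum (f : D →+* A)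
    (hf : ∀ c : K, f (algebraMap K D c) = algebraMap F A (algebraMap K F c)) {ι : Type*}
    {b : ι → F} (hb : LinearIndependent K b) (s : Finset ι) : ∀ d : ι → D,
    ∑ j ∈ s, b j • f (d j) = 0 → ∀ j ∈ s, d j = 0 := by
  classical
  induction s using Finset.strongInduction with
  | H s ih =>
    intro d hd
    by_contra hcon
    push Not at hcon
    obtain ⟨j₀, hj₀, hne⟩ := hcon
    set e : ι → D := fun j => d j * (d j₀)⁻¹ with he
    have he0 : e j₀ = 1 := mul_inv_cancel₀ hne
    have hsum : ∑ j ∈ s, b j • f (e j) = 0 := by
      have h1 : ∑ j ∈ s, b j • f (e j) = (∑ j ∈ s, b j • f (d j)) * f (d j₀)⁻¹ := by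
        rw [Finset.sum_mul]
        exact Finset.sum_congr rfl fun j _ => by rw [he, map_mul, smul_mul_assoc]
      rw [h1, hd, zero_mul]
    have hcomm : ∀ j ∈ s, ∀ a : D, a * e j = e j * a := by
      intro j hj a
      by_cases hjj : j = j₀
      · rw [hjj, he0, mul_one, one_mul]
      have h1 : ∑ i ∈ s.erase j₀, b i • f (a * e i - e i * a) = 0 := by
        have h2 : ∑ i ∈ s, b i • f (a * e i - e i * a) = 0 := by
          have h3 : ∑ i ∈ s, b i • f (a * e i - e i * a) =
              f a * (∑ i ∈ s, b i • f (e i)) - (∑ i ∈ s, b i • f (e i)) * f a := by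
            rw [Finset.mul_sum, Finset.sum_mul, ← Finset.sum_sub_distrib]
            exact Finset.sum_congr rfl fun i _ => by
              rw [map_sub, map_mul f a, map_mul f (e i), smul_sub, mul_smul_comm, smul_mul_assoc]
          rw [h3, hsum, mul_zero, zero_mul, sub_zero]
        rw [← Finset.add_sum_erase s _ hj₀, he0, mul_one, one_mul, sub_self, map_zero, smul_zero,
          zero_add] at h2
        exact h2
      exact sub_eq_zero.mp (ih _ (Finset.erase_ssubset hj₀) _ h1 j
        (Finset.mem_erase.mpr ⟨hjj, hj⟩))
    have hcen : ∀ j ∈ s, ∃ c : K, algebraMap K D c = e j := by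
      intro j hj
      have h1 : e j ∈ Subalgebra.center K D :=
        Subalgebra.mem_center_iff.mpr fun a => hcomm j hj a
      rw [Algebra.IsCentral.center_eq_bot, Algebra.mem_bot] at h1
      exact h1
    choose! c hc using hcen
    have h1 : ∑ j ∈ s, c j • b j = 0 := by
      apply FaithfulSMul.algebraMap_injective F A
      rw [map_sum, map_zero, ← hsum]
      refine Finset.sum_congr rfl fun j hj => ?_
      rw [← hc j hj, hf, Algebra.smul_def, mul_comm, map_mul, ← Algebra.smul_def]
    have h2 := linearIndependent_iff'.mp hb s c h1 j₀ hj₀
    have h3 := hc j₀ hj₀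
    rw [h2, map_zero, he0] at h3
    exact zero_ne_one h3

/-- Independent elements of a central division algebra stay independent after base change. -/
theorem linearIndependent_map (f : D →+* A)
    (hf : ∀ c : K, f (algebraMap K D c) = algebraMap F A (algebraMap K F c)) {κ : Type*}
    {e : κ → D} (he : LinearIndependent K e) : LinearIndependent F fun i => f (e i) := by
  classical
  rw [linearIndependent_iff']
  intro t g hg i hi
  let b := Basis.ofVectorSpace K F
  have hsm : ∀ (c : K) (x : D), f (c • x) = (algebraMap K F c) • f x := by
    intro c x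
    rw [Algebra.smul_def, map_mul, hf, ← Algebra.smul_def]
  set s : Finset (Basis.ofVectorSpaceIndex K F) := t.biUnion fun i => (b.repr (g i)).support with hs
  have hexp : ∀ i ∈ t, g i = ∑ j ∈ s, b.repr (g i) j • b j := by
    intro i hi
    conv_lhs => rw [← b.linearCombination_repr (g i), Finsupp.linearCombination_apply]
    rw [Finsupp.sum]
    refine Finset.sum_subset (Finset.subset_biUnion_of_mem
      (fun i => (b.repr (g i)).support) hi) fun j _ hj => ?_
    rw [Finsupp.notMem_support_iff.mp hj, zero_smul]
  have h1 : ∑ j ∈ s, b j • f (∑ i ∈ t, b.repr (g i) j • e i) = 0 := by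
    rw [← hg]
    have h2 : ∀ i ∈ t, g i • f (e i) = ∑ j ∈ s, b j • ((algebraMap K F (b.repr (g i) j)) • f (e i)) := by
      intro i hi
      conv_lhs => rw [hexp i hi, Finset.sum_smul]
      refine Finset.sum_congr rfl fun j _ => ?_
      rw [smul_smul]
      congr 1
      rw [Algebra.smul_def, mul_comm]
    rw [Finset.sum_congr rfl h2, Finset.sum_comm]
    refine Finset.sum_congr rfl fun j _ => ?_
    rw [map_sum, Finset.smul_sum]
    exact Finset.sum_congr rfl fun i _ => by rw [hsm]
  have h2 := eq_zero_of_sum f hf b.linearIndependent s _ h1
  rw [hexp i hi]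
  refine Finset.sum_eq_zero fun j hj => ?_
  rw [linearIndependent_iff'.mp he t _ (h2 j hj) i hi, zero_smul]

end indep

section matrix

variable {K D F : Type*} [Field K] [DivisionRing D] [Algebra K D] [Algebra.IsCentral K D]
  [Field F] [Algebra K F] {n : ℕ}

/-- The image of a splitting spans the matrix ring. -/
theorem span_range_eq_top (hn : finrank K D = n ^ 2) (hn0 : n ≠ 0)
    (f : D →+* Matrix (Fin n) (Fin n) F)
    (hf : ∀ c : K, f (algebraMap K D c) = algebraMap F _ (algebraMap K F c)) :
    Submodule.span F (Set.range f) = ⊤ := by
  have : NeZero n := ⟨hn0⟩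
  have : FiniteDimensional K D := Module.finite_of_finrank_pos (by
    rw [hn]
    positivity)
  have h1 := linearIndependent_map f hf (finBasis K D).linearIndependent
  have h2 : Submodule.span F (Set.range fun i => f (finBasis K D i)) = ⊤ := by
    apply h1.span_eq_top_of_card_eq_finrank'
    rw [Fintype.card_fin, hn, Module.finrank_matrix, Fintype.card_fin, Module.finrank_self]
    ring
  rw [eq_top_iff, ← h2]
  exact Submodule.span_mono (by rintro _ ⟨i, rfl⟩; exact ⟨_, rfl⟩)

end matrix

section several

variable {K D F : Type*} [Field K] [DivisionRing D] [Algebra K D] [Algebra.IsCentral K D]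
  [Field F] {n : ℕ}

/-- The image of a splitting over a homomorphism of fields spans the matrix ring. -/
theorem span_range_eq_top' (hn : finrank K D = n ^ 2) (hn0 : n ≠ 0) (τ : K →+* F)
    (f : D →+* Matrix (Fin n) (Fin n) F)
    (hf : ∀ c : K, f (algebraMap K D c) = algebraMap F _ (τ c)) :
    Submodule.span F (Set.range f) = ⊤ := by
  let _ : Algebra K F := τ.toAlgebra
  exact span_range_eq_top hn hn0 f hf

/-- Distinct homomorphisms to a field separate all coordinates. -/
theorem span_hom_eq_top {T : Type*} [Finite T] {τ : T → K →+* F} (hτ : Function.Injective τ) :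
    Submodule.span F (Set.range fun (c : K) (t : T) => τ t c) = ⊤ := by
  classical
  have := Fintype.ofFinite T
  have hli : LinearIndependent F fun t : T => (τ t : K → F) := by
    have h1 := linearIndependent_monoidHom K F
    have h2 : Function.Injective fun t : T => ((τ t : K →+* F) : K →* F) := by
      intro a b hab
      apply hτ
      ext x
      exact DFunLike.congr_fun hab x
    exact h1.comp _ h2
  by_contra hcon
  obtain ⟨φ, hφ0, hφ⟩ := Submodule.exists_le_ker_of_lt_top _ (lt_top_iff_ne_top.mpr hcon)
  apply hφ0
  have h1 : ∀ v : T → F, φ v = ∑ t, v t * φ (Pi.single t 1) := by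
    intro v
    conv_lhs => rw [← Finset.univ_sum_single v]
    rw [map_sum]
    refine Finset.sum_congr rfl fun t _ => ?_
    rw [← smul_eq_mul, ← map_smul]
    congr 1
    ext u
    rw [Pi.smul_apply, smul_eq_mul]
    by_cases h : t = u
    · subst h
      simp
    · rw [Pi.single_eq_of_ne (Ne.symm h), Pi.single_eq_of_ne (Ne.symm h), mul_zero]
  have h2 : ∑ t, φ (Pi.single t 1) • (τ t : K → F) = 0 := by
    ext c
    rw [Finset.sum_apply, Pi.zero_apply]
    have h3 : φ (fun t => τ t c) = 0 := hφ (Submodule.subset_span ⟨c, rfl⟩)
    rw [h1] at h3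
    rw [← h3]
    exact Finset.sum_congr rfl fun t _ => by rw [Pi.smul_apply, smul_eq_mul, mul_comm]
  have h3 := linearIndependent_iff'.mp hli Finset.univ _ h2
  ext t
  simpa using h3 t (Finset.mem_univ t)

/-- **The base change is the full product of matrix rings.** -/
theorem span_pi_eq_top (hn : finrank K D = n ^ 2) (hn0 : n ≠ 0) {T : Type*} [Finite T]
    {τ : T → K →+* F} (hτ : Function.Injective τ) (f : T → D →+* Matrix (Fin n) (Fin n) F)
    (hf : ∀ t (c : K), f t (algebraMap K D c) = algebraMap F _ (τ t c)) :
    Submodule.span F (Set.range fun (x : D) (t : T) => f t x) = ⊤ := by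
  classical
  have := Fintype.ofFinite T
  set W := Submodule.span F (Set.range fun (x : D) (t : T) => f t x) with hW
  -- the span is closed under multiplication by the scalars
  have hmul : ∀ (v : T → F) (w : T → Matrix (Fin n) (Fin n) F), w ∈ W →
      (fun t => v t • w t) ∈ W := by
    intro v w hw
    have hv : v ∈ Submodule.span F (Set.range fun (c : K) (t : T) => τ t c) := by
      rw [span_hom_eq_top hτ]
      exact Submodule.mem_top
    induction hv using Submodule.span_induction with
    | mem x hx =>
      obtain ⟨c, rfl⟩ := hx
      induction hw using Submodule.span_induction with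
      | mem y hy =>
        obtain ⟨x, rfl⟩ := hy
        refine Submodule.subset_span ⟨algebraMap K D c * x, ?_⟩
        funext t
        change f t (algebraMap K D c * x) = τ t c • f t x
        rw [map_mul, hf, Algebra.smul_def]
      | zero =>
        convert W.zero_mem using 1
        funext t
        simp
      | add a b _ _ ha hb =>
        convert W.add_mem ha hb using 1
        funext t
        simp
      | smul r a _ ha =>
        convert W.smul_mem r ha using 1
        funext t
        change (τ t c : F) • (r • a t) = r • (τ t c • a t)
        exact smul_comm _ _ _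
    | zero =>
      convert W.zero_mem using 1
      funext t
      simp
    | add a b _ _ ha hb =>
      convert W.add_mem ha hb using 1
      funext t
      simp [add_smul]
    | smul r a _ ha =>
      convert W.smul_mem r ha using 1
      funext t
      exact mul_smul _ _ _
  have hsingle : ∀ (t : T) (M : Matrix (Fin n) (Fin n) F), Pi.single t M ∈ W := by
    intro t M
    have hM : M ∈ Submodule.span F (Set.range (f t)) := by
      rw [span_range_eq_top' hn hn0 (τ t) (f t) (hf t)]
      exact Submodule.mem_top
    induction hM using Submodule.span_induction with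
    | mem x hx =>
      obtain ⟨x, rfl⟩ := hx
      convert hmul (Pi.single t 1) _ (Submodule.subset_span ⟨x, rfl⟩) using 1
      funext u
      by_cases h : t = u
      · subst h
        simp
      · rw [Pi.single_eq_of_ne (Ne.symm h), Pi.single_eq_of_ne (Ne.symm h), zero_smul]
    | zero =>
      rw [Pi.single_zero]
      exact W.zero_mem
    | add a b _ _ ha hb =>
      rw [Pi.single_add]
      exact W.add_mem ha hb
    | smul r a _ ha =>
      rw [Pi.single_smul]
      exact W.smul_mem r ha
  rw [eq_top_iff]
  intro w _
  rw [← Finset.univ_sum_single w]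
  exact W.sum_mem fun t _ => hsingle t _

/-- A basis over a subfield becomes a basis of the product of the matrix rings, if the degrees
match. -/
theorem linearIndependent_pi {k : Type*} [Field k] [Algebra k D] [Algebra k F]
    (hn : finrank K D = n ^ 2) (hn0 : n ≠ 0) {T : Type*} [Fintype T]
    (hcard : finrank k D = Fintype.card T * n ^ 2)
    {τ : T → K →+* F} (hτ : Function.Injective τ) (f : T → D →+* Matrix (Fin n) (Fin n) F)
    (hf : ∀ t (c : K), f t (algebraMap K D c) = algebraMap F _ (τ t c))
    (hk : ∀ t (a : k) (x : D), f t (a • x) = algebraMap k F a • f t x)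
    {N : ℕ} (B : Basis (Fin N) k D) :
    LinearIndependent F (fun i (t : T) => f t (B i)) ∧
      Submodule.span F (Set.range fun i (t : T) => f t (B i)) = ⊤ := by
  have h1 : Submodule.span F (Set.range fun i (t : T) => f t (B i)) = ⊤ := by
    rw [eq_top_iff, ← span_pi_eq_top hn hn0 hτ f hf, Submodule.span_le]
    rintro _ ⟨x, rfl⟩
    have h2 : (fun t => f t x) = ∑ i, algebraMap k F (B.repr x i) • fun t => f t (B i) := by
      funext t
      conv_lhs => rw [← B.sum_repr x]
      rw [map_sum, Finset.sum_apply]
      exact Finset.sum_congr rfl fun i _ => by rw [hk, Pi.smul_apply]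
    rw [SetLike.mem_coe]
    change (fun t => f t x) ∈ _
    rw [h2]
    exact Submodule.sum_mem _ fun i _ => Submodule.smul_mem _ _ (Submodule.subset_span ⟨i, rfl⟩)
  refine ⟨?_, h1⟩
  apply linearIndependent_of_top_le_span_of_card_eq_finrank h1.ge
  rw [Fintype.card_fin, Module.finrank_pi_fintype, Finset.sum_const, Finset.card_univ,
    Module.finrank_matrix, Fintype.card_fin, Module.finrank_self, mul_one, smul_eq_mul,
    ← pow_two, ← hcard, finrank_eq_card_basis B, Fintype.card_fin]

end several

end Vale.Agent.P011.H321
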