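import Vale.Agent.P011.H321.SplitP
import Vale.Agent.P011.H321.SplitAlg

/-!
A central division algebra over a number field `K` splits at all places above infinitely many
rational primes `p`, which split completely in `K`.
-/

open Module

namespace Vale.Agent.P011.H321

section emb

variable {K L : Type*} [Field K] [NumberField K] [Field L] [NumberField L] [Algebra K L]
  [IsGalois ℚ L]

/-- The embeddings of `K` in a field containing a Galois extension `L` of `K`. -/
theorem card_emb {E : Type*} [Field E] [CharZero E] (σ : L →+* E) :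
    Nat.card (K →+* E) = finrank ℚ K ∧ ∀ τ : K →+* E, ∃ g : K →ₐ[ℚ] L, ∀ c, σ (g c) = τ c := by
  have h1 : ∀ x : K, ((minpoly ℚ x).map (algebraMap ℚ L)).Splits := by
    intro x
    have h2 := Normal.splits (F := ℚ) (K := L) inferInstance (algebraMap K L x)
    rwa [minpoly.algebraMap_eq (algebraMap K L).injective] at h2
  have hcard : Nat.card (K →ₐ[ℚ] L) = finrank ℚ K := AlgHom.natCard_of_splits ℚ K L h1
  let σ' : L →ₐ[ℚ] E := σ.toRatAlgHom
  have hinj : Function.Injective fun g : K →ₐ[ℚ] L => σ'.comp g := by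
    intro g g' h
    ext x
    have h2 : σ' (g x) = σ' (g' x) := DFunLike.congr_fun h x
    exact σ'.toRingHom.injective h2
  have hle : Nat.card (K →ₐ[ℚ] E) ≤ finrank ℚ K := card_algHom_le_finrank ℚ K E
  have heq : Nat.card (K →ₐ[ℚ] L) = Nat.card (K →ₐ[ℚ] E) :=
    le_antisymm (Nat.card_le_card_of_injective _ hinj) (hcard ▸ hle)
  have hbij := (Nat.bijective_iff_injective_and_card (fun g : K →ₐ[ℚ] L => σ'.comp g)).mpr
    ⟨hinj, heq⟩
  refine ⟨?_, fun τ => ?_⟩
  · rw [← hcard, heq]
    exact Nat.card_congr ⟨fun τ => τ.toRatAlgHom, fun g => g.toRingHom, fun τ => by ext; rfl,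
      fun g => by ext; rfl⟩
  · obtain ⟨g, hg⟩ := hbij.2 τ.toRatAlgHom
    exact ⟨g, fun c => DFunLike.congr_fun hg c⟩

end emb

/-- For infinitely many primes `p` all the embeddings of `K` and the splittings of `D` are defined
over the field of `p`-adic numbers. -/
theorem exists_split_homs {K L D : Type*} [Field K] [NumberField K] [Field L] [NumberField L]
    [Algebra K L] [IsGalois ℚ L] [DivisionRing D] [Algebra K D] {n : ℕ}
    (s : D →ₐ[K] Matrix (Fin n) (Fin n) L) (N : ℕ) :
    ∃ (p : ℕ) (_ : Fact p.Prime), N < p ∧ Nat.card (K →+* ℚ_[p]) = finrank ℚ K ∧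
      ∀ τ : K →+* ℚ_[p], ∃ f : D →+* Matrix (Fin n) (Fin n) ℚ_[p],
        ∀ c : K, f (algebraMap K D c) = algebraMap ℚ_[p] _ (τ c) := by
  obtain ⟨p, hp, hN, ⟨σ⟩⟩ := exists_padic_embedding L N
  obtain ⟨hcard, hfix⟩ := card_emb (K := K) σ
  refine ⟨p, hp, hN, hcard, ?_⟩
  intro τ
  obtain ⟨g, hg⟩ := hfix τ
  let G : L →ₐ[ℚ] L := AlgHom.liftNormal (K₁ := K) (K₂ := L) g L
  refine ⟨((σ.comp G.toRingHom).mapMatrix).comp s.toRingHom, fun c => ?_⟩
  have h1 : s (algebraMap K D c) = algebraMap L _ (algebraMap K L c) := by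
    rw [AlgHom.commutes, ← IsScalarTower.algebraMap_apply]
  change (σ.comp G.toRingHom).mapMatrix (s (algebraMap K D c)) = _
  rw [h1]
  have h2 : G (algebraMap K L c) = g c := AlgHom.liftNormal_commutes (K₂ := L) g L c
  ext i j
  rw [RingHom.mapMatrix_apply, Matrix.map_apply, Matrix.algebraMap_matrix_apply,
    Matrix.algebraMap_matrix_apply]
  split_ifs
  · rw [← hg, ← h2]
    rfl
  · exact map_zero _

/-- **Complete splitting.** For infinitely many primes `p` the algebra `D ⊗ ℚ_[p]` is the product
of the matrix rings over `ℚ_[p]` indexed by the embeddings of `K`: a basis of `D` over the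
rational numbers becomes a basis of the product. -/
theorem exists_split_basis {K L D : Type*} [Field K] [NumberField K] [Field L] [NumberField L]
    [Algebra K L] [IsGalois ℚ L] [DivisionRing D] [Algebra K D] [Algebra.IsCentral K D]
    [Algebra ℚ D] {n : ℕ} (hn0 : n ≠ 0) (hn : finrank K D = n ^ 2)
    (s : D →ₐ[K] Matrix (Fin n) (Fin n) L) (N : ℕ) :
    ∃ (p : ℕ) (_ : Fact p.Prime), N < p ∧ Nat.card (K →+* ℚ_[p]) = finrank ℚ K ∧
      ∃ f : (K →+* ℚ_[p]) → D →+* Matrix (Fin n) (Fin n) ℚ_[p],
        (∀ τ (c : K), f τ (algebraMap K D c) = algebraMap ℚ_[p] _ (τ c)) ∧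
        ∀ {m : ℕ} (B : Basis (Fin m) ℚ D),
          LinearIndependent ℚ_[p] (fun i (τ : K →+* ℚ_[p]) => f τ (B i)) ∧
          Submodule.span ℚ_[p] (Set.range fun i (τ : K →+* ℚ_[p]) => f τ (B i)) = ⊤ := by
  obtain ⟨p, hp, hN, hcard, hf⟩ := exists_split_homs s N
  choose f hf using hf
  refine ⟨p, hp, hN, hcard, f, hf, fun {m} B => ?_⟩
  have hpos : 0 < Nat.card (K →+* ℚ_[p]) := by
    rw [hcard]
    exact Module.finrank_pos
  have : Finite (K →+* ℚ_[p]) := Nat.finite_of_card_ne_zero hpos.ne'
  have := Fintype.ofFinite (K →+* ℚ_[p])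
  have : IsScalarTower ℚ K D := inferInstance
  refine linearIndependent_pi (k := ℚ) hn hn0 ?_ (τ := fun τ => τ) (fun a b h => h) f hf ?_ B
  · rw [← Module.finrank_mul_finrank ℚ K D, hn, ← hcard, Nat.card_eq_fintype_card]
  · intro τ a x
    rw [Algebra.smul_def, map_mul, ← RingHom.comp_apply, Algebra.smul_def]
    congr 1
    exact RingHom.congr_fun (Subsingleton.elim ((f τ).comp (algebraMap ℚ D))
      ((algebraMap ℚ_[p] _).comp (algebraMap ℚ ℚ_[p]))) a

section star

variable {K D F : Type*} [Field K] [StarRing K] [DivisionRing D] [StarRing D] [Algebra K D]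
  [Field F] {n : ℕ}

/-- The conjugate of a homomorphism to a matrix ring. -/
def conjHom (f : D →+* Matrix (Fin n) (Fin n) F) : D →+* Matrix (Fin n) (Fin n) F where
  toFun x := (f (star x)).transpose
  map_one' := by simp
  map_mul' x y := by rw [star_mul, map_mul, Matrix.transpose_mul]
  map_zero' := by simp
  map_add' x y := by rw [star_add, map_add, Matrix.transpose_add]

theorem conjHom_apply (f : D →+* Matrix (Fin n) (Fin n) F) (x : D) :
    conjHom f x = (f (star x)).transpose := rfl

/-- The splittings at the embeddings of `K` can be chosen compatible with the involution. -/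
theorem exists_star_compatible (hK : ∃ c : K, star c ≠ c)
    (hst : ∀ (c : K), star (algebraMap K D c) = algebraMap K D (star c))
    (g : (K →+* F) → D →+* Matrix (Fin n) (Fin n) F)
    (hg : ∀ τ (c : K), g τ (algebraMap K D c) = algebraMap F _ (τ c)) :
    ∃ f : (K →+* F) → D →+* Matrix (Fin n) (Fin n) F,
      (∀ τ (c : K), f τ (algebraMap K D c) = algebraMap F _ (τ c)) ∧
      ∀ τ x, f (τ.comp (starRingEnd K)) x = (f τ (star x)).transpose := by
  classical
  obtain ⟨c₀, hc₀⟩ := hK
  let T := K →+* F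
  let S : T → T := fun τ => τ.comp (starRingEnd K)
  have hSS : ∀ τ, S (S τ) = τ := by
    intro τ
    ext x
    change τ (star (star x)) = τ x
    rw [star_star]
  have hne : ∀ τ, S τ ≠ τ := by
    intro τ h
    apply hc₀
    apply τ.injective
    exact RingHom.congr_fun h c₀
  let _ : LinearOrder T := linearOrderOfSTO WellOrderingRel
  refine ⟨fun τ => if τ < S τ then g τ else conjHom (g (S τ)), ?_, ?_⟩
  · intro τ c
    by_cases h : τ < S τ
    · simp only [h, if_true]
      exact hg τ c
    · simp only [h, if_false]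
      rw [conjHom_apply, hst, hg]
      have h1 : S τ (star c) = τ c := by
        change τ (star (star c)) = τ c
        rw [star_star]
      rw [h1, Matrix.algebraMap_eq_diagonal, Matrix.diagonal_transpose]
  · intro τ x
    change (if S τ < S (S τ) then g (S τ) else conjHom (g (S (S τ)))) x =
      ((if τ < S τ then g τ else conjHom (g (S τ))) (star x)).transpose
    rw [hSS]
    rcases lt_trichotomy τ (S τ) with h | h | h
    · rw [if_neg h.not_gt, if_pos h, conjHom_apply]
    · exact absurd h.symm (hne τ)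
    · rw [if_pos h, if_neg h.not_gt, conjHom_apply, star_star, Matrix.transpose_transpose]

end star

end Vale.Agent.P011.H321
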