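import Mathlib.Algebra.MvPolynomial.Funext
import Mathlib.Algebra.MvPolynomial.CommRing
import Mathlib.LinearAlgebra.Vandermonde
import Mathlib.RingTheory.Polynomial.Basic
import Mathlib.RingTheory.MvPolynomial.Basic
import Mathlib.Algebra.Polynomial.RingDivision
import Mathlib.Algebra.Polynomial.FieldDivision
import Mathlib.LinearAlgebra.Dimension.Constructions
import Mathlib.LinearAlgebra.FiniteDimensional.Lemmas
import Mathlib.Tactic

/-!
# Coprimality of the real and the imaginary part of the cubic resultant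

The two polynomials obtained from the split form `GG` have no common factor.
-/

open Module

namespace Vale.Agent.P011.H321.Cop

section core

variable {Om : Type*} [Field Om]

/-- The split form. -/
def GG (a : Fin 3 → Om) (c : Om) (X Y : Fin 3 → Om) : Om :=
  (a 0 * X 0 ^ 3 * (Y 1 * Y 2) ^ 3 + a 1 * X 1 ^ 3 * (Y 0 * Y 2) ^ 3 +
    a 2 * X 2 ^ 3 * (Y 0 * Y 1) ^ 3) ^ 3 - c * (X 0 * X 1 * X 2 * (Y 0 * Y 1 * Y 2) ^ 2) ^ 3

theorem GG_smul (a : Fin 3 → Om) (c t : Om) (X Y : Fin 3 → Om) :
    GG a c (t • X) Y = t ^ 9 * GG a c X Y := by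
  simp only [GG, Pi.smul_apply, smul_eq_mul]
  ring

open Polynomial in
/-- A divisor of a monomial is a monomial. -/
theorem monomial_of_mul {p r : Om[X]} {g : Om} {n : ℕ} (hg : g ≠ 0)
    (h : ∀ t, p.eval t * r.eval t = t ^ n * g) [Infinite Om] :
    ∃ (c : Om) (m : ℕ), c ≠ 0 ∧ m ≤ n ∧ ∀ t, p.eval t = c * t ^ m := by
  have h1 : p * r = X ^ n * C g := by
    apply Polynomial.funext
    intro t
    rw [eval_mul, h, eval_mul, eval_pow, eval_X, eval_C]
  have h2 : p ∣ X ^ n := by
    refine ⟨r * C g⁻¹, ?_⟩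
    rw [← mul_assoc, h1, mul_assoc, ← C_mul, mul_inv_cancel₀ hg, C_1, mul_one]
  obtain ⟨m, hm, h3⟩ := (dvd_prime_pow Polynomial.prime_X n).1 h2
  obtain ⟨u, hu⟩ := h3.symm
  obtain ⟨c, hc, hcu⟩ := Polynomial.isUnit_iff.1 u.isUnit
  refine ⟨c, m, hc.ne_zero, hm, fun t => ?_⟩
  rw [← hu, ← hcu, eval_mul, eval_pow, eval_X, eval_C, mul_comm]

open Polynomial in
/-- A common divisor of `(a X ^ 3 + b) ^ 3` and `b' X ^ 9` is constant. -/
theorem const_of_mul [Infinite Om] {p r r' : Om[X]} {a b b' : Om} (hb : b ≠ 0) (hb' : b' ≠ 0)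
    (h : ∀ t, p.eval t * r.eval t = (a * t ^ 3 + b) ^ 3)
    (h' : ∀ t, p.eval t * r'.eval t = b' * t ^ 9) :
    ∃ c : Om, c ≠ 0 ∧ ∀ t, p.eval t = c := by
  obtain ⟨c, m, hc, hm, hp⟩ := monomial_of_mul (p := p) (r := r') (n := 9) hb' (fun t => by
    rw [h']
    ring)
  have h0 := h 0
  have hb3 : b ^ 3 ≠ 0 := pow_ne_zero 3 hb
  rw [hp] at h0
  have hm0 : m = 0 := by
    by_contra hm0
    rw [zero_pow hm0] at h0
    apply hb3
    linear_combination -h0
  subst hm0
  exact ⟨c, hc, fun t => by rw [hp, pow_zero, mul_one]⟩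

variable {ι : Type*} [Finite ι]

omit [Finite ι] in
/-- Restriction of a polynomial function to a line. -/
theorem exists_line (q : MvPolynomial ι Om) (x y : ι → Om) :
    ∃ p : Polynomial Om, ∀ t, p.eval t = MvPolynomial.eval (x + t • y) q := by
  refine ⟨MvPolynomial.aeval (fun i => Polynomial.C (x i) + Polynomial.X * Polynomial.C (y i)) q,
    fun t => ?_⟩
  have h := MvPolynomial.map_aeval (fun i => Polynomial.C (x i) + Polynomial.X * Polynomial.C (y i))
    (Polynomial.evalRingHom t) q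
  rw [← Polynomial.coe_evalRingHom, h]
  have h2 : (Polynomial.evalRingHom t).comp (algebraMap Om (Polynomial Om)) = RingHom.id Om := by
    ext c
    simp
  rw [h2]
  change MvPolynomial.eval _ q = _
  congr 2
  funext i
  simp
  ring

/-- Composition of a polynomial function with a linear map. -/
theorem exists_comp (q : MvPolynomial ι Om) (A : (ι → Om) →ₗ[Om] (ι → Om)) :
    ∃ r : MvPolynomial ι Om, ∀ x, MvPolynomial.eval x r = MvPolynomial.eval (A x) q := by
  classical
  cases nonempty_fintype ι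
  refine ⟨MvPolynomial.aeval (fun i => ∑ j, MvPolynomial.C (A (fun l => if j = l then 1 else 0) i) *
    MvPolynomial.X j) q, fun x => ?_⟩
  have h := MvPolynomial.map_aeval (fun i => ∑ j, MvPolynomial.C (A (fun l => if j = l then 1 else 0) i) *
    MvPolynomial.X j) (MvPolynomial.eval x) q
  rw [h]
  have h2 : (MvPolynomial.eval x).comp (algebraMap Om (MvPolynomial ι Om)) = RingHom.id Om := by
    ext c
    simp
  rw [h2]
  change MvPolynomial.eval _ q = _
  congr 2
  funext i
  rw [map_sum]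
  simp only [map_mul, MvPolynomial.eval_C, MvPolynomial.eval_X]
  conv_rhs => rw [LinearMap.pi_apply_eq_sum_univ A x, Finset.sum_apply]
  refine Finset.sum_congr rfl fun j _ => ?_
  rw [Pi.smul_apply, smul_eq_mul, mul_comm]

end core

section main

variable {Om : Type*} [Field Om] [Infinite Om] {ι : Type*} [Finite ι]
  (E : (ι → Om) ≃ₗ[Om] (Fin 3 → Om) × (Fin 3 → Om))

/-- **The core**: a common divisor does not depend on the first block of variables. -/
theorem core {a b : Fin 3 → Om} {c c' : Om} (ha : ∀ j, a j ≠ 0) (hb : ∀ j, b j ≠ 0)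
    {q r r' : MvPolynomial ι Om}
    (h : ∀ x, MvPolynomial.eval x q * MvPolynomial.eval x r = GG a c (E x).1 (E x).2)
    (h' : ∀ x, MvPolynomial.eval x q * MvPolynomial.eval x r' = GG b c' (E x).2 (E x).1)
    (x : ι → Om) :
    MvPolynomial.eval x q = MvPolynomial.eval (E.symm (0, (E x).2)) q := by
  classical
  -- the polynomial function in the new coordinates
  set F : (Fin 3 → Om) → (Fin 3 → Om) → Om := fun X Y =>
    MvPolynomial.eval (E.symm (X, Y)) q with hF
  have hmul : ∀ X Y, F X Y * MvPolynomial.eval (E.symm (X, Y)) r = GG a c X Y := fun X Y => by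
    rw [hF]
    simp only
    rw [h, E.apply_symm_apply]
  have hmul' : ∀ X Y, F X Y * MvPolynomial.eval (E.symm (X, Y)) r' = GG b c' Y X := fun X Y => by
    rw [hF]
    simp only
    rw [h', E.apply_symm_apply]
  -- restriction to the line `t ↦ (P + t Q, Y)`
  have hline : ∀ (f : MvPolynomial ι Om) (P Q Y : Fin 3 → Om), ∃ p : Polynomial Om,
      ∀ t, p.eval t = MvPolynomial.eval (E.symm (P + t • Q, Y)) f := by
    intro f P Q Y
    obtain ⟨p, hp⟩ := exists_line f (E.symm (P, Y)) (E.symm (Q, 0))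
    refine ⟨p, fun t => ?_⟩
    rw [hp, ← map_smul, ← map_add]
    congr 3
    ext i <;> simp
  -- along rays through the origin the function is a monomial
  have hmono : ∀ X Y, GG a c X Y ≠ 0 → ∃ (γ : Om) (m : ℕ), γ ≠ 0 ∧ m ≤ 9 ∧
      ∀ t : Om, F (t • X) Y = γ * t ^ m := by
    intro X Y hXY
    obtain ⟨p, hp⟩ := hline q 0 X Y
    obtain ⟨p', hp'⟩ := hline r 0 X Y
    simp only [zero_add] at hp hp'
    obtain ⟨γ, m, hγ, hm, hpm⟩ := monomial_of_mul (p := p) (r := p') (n := 9) hXY (fun t => by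
      rw [hp, hp', ← GG_smul]
      exact hmul _ _)
    exact ⟨γ, m, hγ, hm, fun t => by rw [← hpm, hp]⟩
  -- the two lines in the plane `X 0 = 0`, `Y = 1`
  obtain ⟨κ, hκ0, hκ⟩ : ∃ κ : Om, κ ≠ 0 ∧ ∀ t, F ![0, t, 1] 1 = κ := by
    obtain ⟨p, hp⟩ := hline q ![0, 0, 1] ![0, 1, 0] 1
    obtain ⟨p1, hp1⟩ := hline r ![0, 0, 1] ![0, 1, 0] 1
    obtain ⟨p2, hp2⟩ := hline r' ![0, 0, 1] ![0, 1, 0] 1
    have e : ∀ t : Om, (![0, 0, 1] : Fin 3 → Om) + t • ![0, 1, 0] = ![0, t, 1] := by
      intro t
      ext i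
      fin_cases i <;> simp
    simp only [e] at hp hp1 hp2
    obtain ⟨κ, hκ, h3⟩ := const_of_mul (p := p) (r := p1) (r' := p2) (a := a 1) (b := a 2)
      (b' := b 0 ^ 3) (ha 2) (pow_ne_zero 3 (hb 0)) (fun t => by
        rw [hp, hp1]
        refine (hmul _ _).trans ?_
        simp [GG]) (fun t => by
        rw [hp, hp2]
        refine (hmul' _ _).trans ?_
        simp [GG]
        ring)
    exact ⟨κ, hκ, fun t => by rw [← h3 t, hp]⟩
  obtain ⟨κ', hκ0', hκ'⟩ : ∃ κ : Om, κ ≠ 0 ∧ ∀ t, F ![0, 1, t] 1 = κ := by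
    obtain ⟨p, hp⟩ := hline q ![0, 1, 0] ![0, 0, 1] 1
    obtain ⟨p1, hp1⟩ := hline r ![0, 1, 0] ![0, 0, 1] 1
    obtain ⟨p2, hp2⟩ := hline r' ![0, 1, 0] ![0, 0, 1] 1
    have e : ∀ t : Om, (![0, 1, 0] : Fin 3 → Om) + t • ![0, 0, 1] = ![0, 1, t] := by
      intro t
      ext i
      fin_cases i <;> simp
    simp only [e] at hp hp1 hp2
    obtain ⟨κ, hκ, h3⟩ := const_of_mul (p := p) (r := p1) (r' := p2) (a := a 2) (b := a 1)
      (b' := b 0 ^ 3) (ha 1) (pow_ne_zero 3 (hb 0)) (fun t => by
        rw [hp, hp1]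
        refine (hmul _ _).trans ?_
        simp [GG]
        ring) (fun t => by
        rw [hp, hp2]
        refine (hmul' _ _).trans ?_
        simp [GG]
        ring)
    exact ⟨κ, hκ, fun t => by rw [← h3 t, hp]⟩
  have hκκ : κ' = κ := (hκ' 1).symm.trans (hκ 1)
  -- a good parameter
  obtain ⟨t₀, ht0, hta, htm⟩ : ∃ t : Om, t ≠ 0 ∧ a 1 * t ^ 3 + a 2 ≠ 0 ∧
      ∀ m, m ≤ 9 → t ^ m = 1 → m = 0 := by
    set f : Polynomial Om := Polynomial.X * (Polynomial.C (a 1) * Polynomial.X ^ 3 +
      Polynomial.C (a 2)) * (Polynomial.X ^ 2520 - 1) with hf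
    have hf0 : f ≠ 0 := by
      rw [hf]
      refine mul_ne_zero (mul_ne_zero Polynomial.X_ne_zero ?_) ?_
      · intro h0
        have := congrArg (Polynomial.eval 0) h0
        simp at this
        exact ha 2 this
      · intro h0
        have := congrArg (Polynomial.eval 0) h0
        simp at this
    obtain ⟨t, ht⟩ : ∃ t, f.eval t ≠ 0 := by
      by_contra hcon
      push Not at hcon
      exact hf0 (Polynomial.funext fun t => by rw [hcon t, Polynomial.eval_zero])
    rw [hf] at ht
    simp only [Polynomial.eval_mul, Polynomial.eval_X, Polynomial.eval_add, Polynomial.eval_C,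
      Polynomial.eval_pow, Polynomial.eval_sub, Polynomial.eval_one] at ht
    refine ⟨t, left_ne_zero_of_mul (left_ne_zero_of_mul ht),
      right_ne_zero_of_mul (left_ne_zero_of_mul ht), fun m hm htm => ?_⟩
    by_contra hm0
    apply right_ne_zero_of_mul ht
    have hdvd : m ∣ 2520 := by
      interval_cases m <;> first | exact absurd rfl hm0 | decide
    obtain ⟨l, hl⟩ := hdvd
    rw [hl, pow_mul, htm, one_pow, sub_self]
  have hGt : GG a c ![0, t₀, 1] 1 ≠ 0 := by
    have : GG a c ![0, t₀, 1] 1 = (a 1 * t₀ ^ 3 + a 2) ^ 3 := by simp [GG]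
    rw [this]
    exact pow_ne_zero 3 hta
  have hF0 : F 0 1 ≠ 0 := by
    obtain ⟨γ, m, hγ, hm, hg⟩ := hmono _ _ hGt
    have e1 := hg 1
    rw [one_smul, hκ, one_pow, mul_one] at e1
    have e2 := hg t₀⁻¹
    have e3 : t₀⁻¹ • (![0, t₀, 1] : Fin 3 → Om) = ![0, 1, t₀⁻¹] := by
      ext i
      fin_cases i <;> simp [ht0]
    rw [e3, hκ', hκκ, ← e1] at e2
    have e4 : t₀ ^ m = 1 := by
      rw [inv_pow] at e2
      have h5 : t₀ ^ m ≠ 0 := pow_ne_zero _ ht0
      field_simp at e2
      have h6 : κ * (t₀ ^ m - 1) = 0 := by linear_combination κ * e2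
      exact sub_eq_zero.1 ((mul_eq_zero.1 h6).resolve_left hκ0)
    have hm0 := htm m hm e4
    subst hm0
    have e5 := hg 0
    rw [zero_smul, pow_zero, mul_one] at e5
    rw [e5]
    exact hγ
  -- the polynomial identity
  let A : (ι → Om) →ₗ[Om] (ι → Om) :=
    E.symm.toLinearMap ∘ₗ (LinearMap.inr Om (Fin 3 → Om) (Fin 3 → Om)) ∘ₗ
      (LinearMap.snd Om (Fin 3 → Om) (Fin 3 → Om)) ∘ₗ E.toLinearMap
  have hA : ∀ x, A x = E.symm (0, (E x).2) := fun x => rfl
  obtain ⟨qA, hqA⟩ := exists_comp q A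
  have key : (q - qA) * (q * r) * qA = 0 := by
    apply MvPolynomial.funext
    intro x
    simp only [map_mul, map_sub, map_zero]
    rw [hqA, hA, h]
    by_cases h1 : GG a c (E x).1 (E x).2 = 0
    · rw [h1, mul_zero, zero_mul]
    · by_cases h2 : MvPolynomial.eval (E.symm (0, (E x).2)) q = 0
      · rw [h2, mul_zero]
      · obtain ⟨γ, m, hγ, hm, hg⟩ := hmono _ _ h1
        have e0 := hg 0
        have e1 := hg 1
        rw [zero_smul] at e0
        rw [one_smul, one_pow, mul_one] at e1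
        have hm0 : m = 0 := by
          by_contra hm0
          rw [zero_pow hm0, mul_zero] at e0
          exact h2 e0
        subst hm0
        rw [pow_zero, mul_one, ← e1] at e0
        have e2 : F (E x).1 (E x).2 = MvPolynomial.eval x q := by
          rw [hF]
          simp
        have e3 : MvPolynomial.eval (E.symm (0, (E x).2)) q = MvPolynomial.eval x q := by
          rw [← e2, ← e0]
        rw [e3, sub_self, zero_mul, zero_mul]
  have hq0 : q * r ≠ 0 := by
    intro h0
    apply hGt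
    have e := hmul ![0, t₀, 1] 1
    have e' : F ![0, t₀, 1] 1 * MvPolynomial.eval (E.symm (![0, t₀, 1], 1)) r =
        MvPolynomial.eval (E.symm (![0, t₀, 1], 1)) (q * r) := by
      rw [map_mul]
    rw [← e, e', h0, map_zero]
  have hqA0 : qA ≠ 0 := by
    intro h0
    apply hF0
    have e := hqA (E.symm (0, 1))
    rw [h0, map_zero, hA, E.apply_symm_apply] at e
    exact e.symm
  have hfin : q = qA := by
    rcases mul_eq_zero.1 key with h1 | h1
    · rcases mul_eq_zero.1 h1 with h2 | h2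
      · exact sub_eq_zero.1 h2
      · exact absurd h2 hq0
    · exact absurd h1 hqA0
  conv_lhs => rw [hfin]
  rw [hqA, hA]

/-- A common divisor is constant. -/
theorem const_of_dvd {a b : Fin 3 → Om} {c c' : Om} (ha : ∀ j, a j ≠ 0) (hb : ∀ j, b j ≠ 0)
    {q r r' : MvPolynomial ι Om}
    (h : ∀ x, MvPolynomial.eval x q * MvPolynomial.eval x r = GG a c (E x).1 (E x).2)
    (h' : ∀ x, MvPolynomial.eval x q * MvPolynomial.eval x r' = GG b c' (E x).2 (E x).1)
    (x : ι → Om) : MvPolynomial.eval x q = MvPolynomial.eval 0 q := by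
  have h1 := core E ha hb h h' x
  have h2 := core (E.trans (LinearEquiv.prodComm Om (Fin 3 → Om) (Fin 3 → Om))) hb ha
    (q := q) (r := r') (r' := r) (c := c') (c' := c) (fun x => h' x) (fun x => h x)
    (E.symm (0, (E x).2))
  rw [h1, h2]
  congr 2
  simp

end main

section final

variable {k Om : Type*} [Field k] [Infinite k] [Field Om] (iota : k →+* Om)

/-- The first block of coordinates. -/
def XX (s : Om) (ep : Fin 3 → Om) (x : Fin (3 + 3) → k) (j : Fin 3) : Om :=
  ∑ i : Fin 3, (iota (x (Fin.castAdd 3 i)) + s * iota (x (Fin.natAdd 3 i))) * ep j ^ (i : ℕ)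

/-- The second block of coordinates. -/
def YY (s : Om) (ep : Fin 3 → Om) (x : Fin (3 + 3) → k) (j : Fin 3) : Om :=
  ∑ i : Fin 3, (iota (x (Fin.castAdd 3 i)) - s * iota (x (Fin.natAdd 3 i))) * (ep j)⁻¹ ^ (i : ℕ)

/-- The coordinates over the big field. -/
theorem exists_E {s : Om} {ep : Fin 3 → Om} (h2 : (2 : Om) ≠ 0) (hs : s ≠ 0)
    (hep : Function.Injective ep) :
    ∃ E : (Fin (3 + 3) → Om) ≃ₗ[Om] (Fin 3 → Om) × (Fin 3 → Om),
      ∀ x, E x = (XX (RingHom.id Om) s ep x, YY (RingHom.id Om) s ep x) := by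
  let L : (Fin (3 + 3) → Om) →ₗ[Om] (Fin 3 → Om) × (Fin 3 → Om) :=
    { toFun := fun x => (XX (RingHom.id Om) s ep x, YY (RingHom.id Om) s ep x)
      map_add' := fun x y => by
        ext j
        · simp only [XX, Prod.fst_add, Pi.add_apply, ← Finset.sum_add_distrib, RingHom.id_apply]
          exact Finset.sum_congr rfl fun i _ => by ring
        · simp only [YY, Prod.snd_add, Pi.add_apply, ← Finset.sum_add_distrib, RingHom.id_apply]
          exact Finset.sum_congr rfl fun i _ => by ring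
      map_smul' := fun t x => by
        ext j
        · simp only [XX, Prod.smul_fst, Pi.smul_apply, smul_eq_mul, Finset.mul_sum,
            RingHom.id_apply]
          exact Finset.sum_congr rfl fun i _ => by ring
        · simp only [YY, Prod.smul_snd, Pi.smul_apply, smul_eq_mul, Finset.mul_sum,
            RingHom.id_apply]
          exact Finset.sum_congr rfl fun i _ => by ring }
  have hL : ∀ x, L x = (XX (RingHom.id Om) s ep x, YY (RingHom.id Om) s ep x) := fun _ => rfl
  have hinj : Function.Injective L := by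
    rw [← LinearMap.ker_eq_bot, LinearMap.ker_eq_bot']
    intro x hx
    rw [hL, Prod.mk_eq_zero] at hx
    have h1 : (fun i : Fin 3 => x (Fin.castAdd 3 i) + s * x (Fin.natAdd 3 i)) = 0 :=
      Matrix.eq_zero_of_forall_index_sum_mul_pow_eq_zero hep (fun j => congrFun hx.1 j)
    have h3 : (fun i : Fin 3 => x (Fin.castAdd 3 i) - s * x (Fin.natAdd 3 i)) = 0 :=
      Matrix.eq_zero_of_forall_index_sum_mul_pow_eq_zero
        (f := fun j => (ep j)⁻¹) (inv_injective.comp hep) (fun j => congrFun hx.2 j)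
    have e1 : ∀ i : Fin 3, x (Fin.castAdd 3 i) = 0 := fun i => by
      have a1 := congrFun h1 i
      have a2 := congrFun h3 i
      simp only [Pi.zero_apply] at a1 a2
      have : 2 * x (Fin.castAdd 3 i) = 0 := by linear_combination a1 + a2
      exact (mul_eq_zero.1 this).resolve_left h2
    have e2 : ∀ i : Fin 3, x (Fin.natAdd 3 i) = 0 := fun i => by
      have a1 := congrFun h1 i
      simp only [Pi.zero_apply, e1 i, zero_add] at a1
      exact (mul_eq_zero.1 a1).resolve_left hs
    funext i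
    exact Fin.addCases (m := 3) (n := 3) (motive := fun i => x i = 0) e1 e2 i
  have hfr : finrank Om (Fin (3 + 3) → Om) = finrank Om ((Fin 3 → Om) × (Fin 3 → Om)) := by
    rw [finrank_prod, finrank_fin_fun, finrank_fin_fun]
  exact ⟨LinearEquiv.ofInjectiveOfFinrankEq L hinj hfr, fun x => rfl⟩

/-- A polynomial over the big field whose values are given on the small field. -/
theorem eval_eq_GG {s : Om} {ep : Fin 3 → Om} {a : Fin 3 → Om} {c : Om}
    {P : MvPolynomial (Fin (3 + 3)) Om}
    (h : ∀ x : Fin (3 + 3) → k, MvPolynomial.eval (fun i => iota (x i)) P =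
      GG a c (XX iota s ep x) (YY iota s ep x)) (x : Fin (3 + 3) → Om) :
    MvPolynomial.eval x P = GG a c (XX (RingHom.id Om) s ep x) (YY (RingHom.id Om) s ep x) := by
  let Xp : Fin 3 → MvPolynomial (Fin (3 + 3)) Om := fun j =>
    ∑ i : Fin 3, (MvPolynomial.X (Fin.castAdd 3 i) + MvPolynomial.C s *
      MvPolynomial.X (Fin.natAdd 3 i)) * MvPolynomial.C (ep j) ^ (i : ℕ)
  let Yp : Fin 3 → MvPolynomial (Fin (3 + 3)) Om := fun j =>
    ∑ i : Fin 3, (MvPolynomial.X (Fin.castAdd 3 i) - MvPolynomial.C s *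
      MvPolynomial.X (Fin.natAdd 3 i)) * MvPolynomial.C (ep j)⁻¹ ^ (i : ℕ)
  let Gp : MvPolynomial (Fin (3 + 3)) Om :=
    (MvPolynomial.C (a 0) * Xp 0 ^ 3 * (Yp 1 * Yp 2) ^ 3 +
      MvPolynomial.C (a 1) * Xp 1 ^ 3 * (Yp 0 * Yp 2) ^ 3 +
      MvPolynomial.C (a 2) * Xp 2 ^ 3 * (Yp 0 * Yp 1) ^ 3) ^ 3 -
      MvPolynomial.C c * (Xp 0 * Xp 1 * Xp 2 * (Yp 0 * Yp 1 * Yp 2) ^ 2) ^ 3
  have hX : ∀ (y : Fin (3 + 3) → Om) j, MvPolynomial.eval y (Xp j) =
      XX (RingHom.id Om) s ep y j := fun y j => by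
    simp only [Xp, XX, map_sum, map_mul, map_add, map_pow, MvPolynomial.eval_X,
      MvPolynomial.eval_C, RingHom.id_apply]
  have hY : ∀ (y : Fin (3 + 3) → Om) j, MvPolynomial.eval y (Yp j) =
      YY (RingHom.id Om) s ep y j := fun y j => by
    simp only [Yp, YY, map_sum, map_mul, map_sub, map_pow, MvPolynomial.eval_X,
      MvPolynomial.eval_C, RingHom.id_apply]
  have hG : ∀ y : Fin (3 + 3) → Om, MvPolynomial.eval y Gp =
      GG a c (XX (RingHom.id Om) s ep y) (YY (RingHom.id Om) s ep y) := fun y => by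
    simp only [Gp, GG, map_mul, map_add, map_sub, map_pow, MvPolynomial.eval_C, hX, hY]
  have key : P = Gp := by
    refine MvPolynomial.funext_set (s := fun _ => Set.range iota)
      (fun _ => Set.infinite_range_of_injective iota.injective) ?_
    intro y hy
    choose x hx using fun i => hy i (Set.mem_univ i)
    have : y = fun i => iota (x i) := funext fun i => (hx i).symm
    rw [this, h, hG]
    rfl
  rw [key, hG]

/-- **Coprimality.** -/
theorem cop {s : Om} {ep a b : Fin 3 → Om} {c c' : Om} (h2 : (2 : Om) ≠ 0) (hs : s ≠ 0)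
    (hep : Function.Injective ep) (ha : ∀ j, a j ≠ 0) (hb : ∀ j, b j ≠ 0)
    {P1 P2 : MvPolynomial (Fin (3 + 3)) k}
    (h1 : ∀ x : Fin (3 + 3) → k, iota (MvPolynomial.eval x P1) + s * iota (MvPolynomial.eval x P2) =
      GG a c (XX iota s ep x) (YY iota s ep x))
    (h1' : ∀ x : Fin (3 + 3) → k, iota (MvPolynomial.eval x P1) -
      s * iota (MvPolynomial.eval x P2) = GG b c' (YY iota s ep x) (XX iota s ep x)) :
    (P1 ≠ 0 ∨ P2 ≠ 0) ∧ ∀ q, q ∣ P1 → q ∣ P2 → IsUnit q := by
  have hinf : Infinite Om := Infinite.of_injective iota iota.injective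
  obtain ⟨E, hE⟩ := exists_E h2 hs hep
  have hmap : ∀ (f : MvPolynomial (Fin (3 + 3)) k) (x : Fin (3 + 3) → k),
      MvPolynomial.eval (fun i => iota (x i)) (MvPolynomial.map iota f) =
        iota (MvPolynomial.eval x f) := fun f x => by
    rw [MvPolynomial.eval_map, MvPolynomial.eval₂_comp]
    rfl
  have g1 := eval_eq_GG (k := k) iota (s := s) (ep := ep) (a := a) (c := c)
    (P := MvPolynomial.map iota P1 + MvPolynomial.C s * MvPolynomial.map iota P2) (fun x => by
      rw [map_add, map_mul, MvPolynomial.eval_C, hmap, hmap, h1])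
  -- the second identity, with the two blocks exchanged
  have g2 : ∀ x : Fin (3 + 3) → Om, MvPolynomial.eval x (MvPolynomial.map iota P1 -
      MvPolynomial.C s * MvPolynomial.map iota P2) =
      GG b c' (YY (RingHom.id Om) s ep x) (XX (RingHom.id Om) s ep x) := by
    have e1 : ∀ (j : k →+* Om) (x : Fin (3 + 3) → k), XX j (-s) (fun j => (ep j)⁻¹) x =
        YY j s ep x := fun j x => by
      funext i
      simp only [XX, YY]
      exact Finset.sum_congr rfl fun l _ => by ring
    have e2 : ∀ (j : k →+* Om) (x : Fin (3 + 3) → k), YY j (-s) (fun j => (ep j)⁻¹) x =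
        XX j s ep x := fun j x => by
      funext i
      simp only [XX, YY, inv_inv]
      exact Finset.sum_congr rfl fun l _ => by ring
    have e1' : ∀ (x : Fin (3 + 3) → Om), XX (RingHom.id Om) (-s) (fun j => (ep j)⁻¹) x =
        YY (RingHom.id Om) s ep x := fun x => by
      funext i
      simp only [XX, YY]
      exact Finset.sum_congr rfl fun l _ => by ring
    have e2' : ∀ (x : Fin (3 + 3) → Om), YY (RingHom.id Om) (-s) (fun j => (ep j)⁻¹) x =
        XX (RingHom.id Om) s ep x := fun x => by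
      funext i
      simp only [XX, YY, inv_inv]
      exact Finset.sum_congr rfl fun l _ => by ring
    intro x
    have h := eval_eq_GG (k := k) iota (s := -s) (ep := fun j => (ep j)⁻¹) (a := b) (c := c')
      (P := MvPolynomial.map iota P1 - MvPolynomial.C s * MvPolynomial.map iota P2) (fun x => by
        rw [map_sub, map_mul, MvPolynomial.eval_C, hmap, hmap, h1', e1, e2]) x
    rw [h, e1', e2']
  constructor
  · by_contra hcon
    push Not at hcon
    have h3 := g1 (E.symm (![0, 0, 1], 1))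
    have h4 := hE (E.symm (![0, 0, 1], 1))
    rw [E.apply_symm_apply] at h4
    have h5 : XX (RingHom.id Om) s ep (E.symm (![0, 0, 1], 1)) = ![0, 0, 1] :=
      (congrArg Prod.fst h4).symm
    have h6 : YY (RingHom.id Om) s ep (E.symm (![0, 0, 1], 1)) = 1 :=
      (congrArg Prod.snd h4).symm
    rw [hcon.1, hcon.2, h5, h6] at h3
    simp [GG] at h3
    exact pow_ne_zero 3 (ha 2) h3.symm
  · intro q hq1 hq2
    obtain ⟨u1, hu1⟩ := hq1
    obtain ⟨u2, hu2⟩ := hq2
    have hc := const_of_dvd E ha hb (c := c) (c' := c') (q := MvPolynomial.map iota q)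
      (r := MvPolynomial.map iota u1 + MvPolynomial.C s * MvPolynomial.map iota u2)
      (r' := MvPolynomial.map iota u1 - MvPolynomial.C s * MvPolynomial.map iota u2)
      (fun x => by
        have := g1 x
        rw [hE, ← this, hu1, hu2]
        simp only [map_add, map_mul, MvPolynomial.eval_C]
        ring)
      (fun x => by
        have := g2 x
        rw [hE, ← this, hu1, hu2]
        simp only [map_sub, map_mul, MvPolynomial.eval_C]
        ring)
    have hq0 : ∀ x : Fin (3 + 3) → k, MvPolynomial.eval x q = MvPolynomial.eval 0 q := by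
      intro x
      apply iota.injective
      rw [← hmap, ← hmap, hc, ← hc (fun i => iota ((0 : Fin (3 + 3) → k) i))]
    have hqC : q = MvPolynomial.C (MvPolynomial.eval 0 q) := by
      apply MvPolynomial.funext
      intro x
      rw [hq0, MvPolynomial.eval_C]
    have hne : MvPolynomial.eval 0 q ≠ 0 := by
      intro h0
      rw [h0, map_zero] at hqC
      have h3 := g1 (E.symm (![0, 0, 1], 1))
      have h4 := hE (E.symm (![0, 0, 1], 1))
      rw [E.apply_symm_apply] at h4
      have h5 : XX (RingHom.id Om) s ep (E.symm (![0, 0, 1], 1)) = ![0, 0, 1] :=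
        (congrArg Prod.fst h4).symm
      have h6 : YY (RingHom.id Om) s ep (E.symm (![0, 0, 1], 1)) = 1 :=
        (congrArg Prod.snd h4).symm
      rw [hu1, hu2, hqC, zero_mul, zero_mul, h5, h6] at h3
      simp [GG] at h3
      exact pow_ne_zero 3 (ha 2) h3.symm
    rw [hqC]
    exact (isUnit_iff_ne_zero.2 hne).map MvPolynomial.C

end final

end Vale.Agent.P011.H321.Cop
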