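import Vale.Agent.P011.H321.M8b

/-!
# The global pair

Two elements `g0`, `w0` of norm one of the unitary group, close to one at finitely many places,
whose commutator `x0` satisfies `x0 w0 ≠ w0 x0` and `T x0 + T (star x0) ≠ 6`.
-/

set_option linter.unusedSectionVars false

open Module NumberField IsDedekindDomain Filter Topology

namespace Vale.Agent.P011.H321.Pair

open Vale.Agent.P011.Arith Vale.Agent.P011.Even Vale.Agent.P011.H511 Vale.Agent.P011.H775
  Vale.Agent.P011.H948 Vale.Agent.P011.Two Vale.Agent.P011.One Vale.Agent.P011.H321.M8a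

variable {k K D : Type} [Field k] [NumberField k] [Field K] [StarRing K]
  [DivisionRing D] [StarRing D] [Algebra k K] [Algebra k D] [Algebra K D] [IsScalarTower k K D]
  {d : kˣ} {s : K} {N : ℕ}

section alg

/-- Every element is a combination of two skew elements. -/
theorem exists_skew_add (hS : Setting k K D d s) (x : D) :
    ∃ a b : D, star a = -a ∧ star b = -b ∧ x = a + s • b := by
  have hK := char0K hS
  have hs0 := s_ne_zero hS
  refine ⟨(2 : K)⁻¹ • (x - star x), (2 * s)⁻¹ • (x + star x), ?_, ?_, ?_⟩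
  · rw [hS.star_smul, star_inv₀, star_ofNat, star_sub, star_star, ← smul_neg, neg_sub]
  · rw [hS.star_smul, star_inv₀, star_mul', star_ofNat, hS.star_s, star_add, star_star, mul_neg,
      inv_neg, neg_smul, add_comm (star x)]
  · rw [smul_smul, mul_inv, mul_comm (2 : K)⁻¹ s⁻¹, ← mul_assoc, mul_inv_cancel₀ hs0, one_mul,
      ← smul_add]
    have : x - star x + (x + star x) = (2 : K) • x := by
      rw [two_smul]
      abel
    rw [this, smul_smul, inv_mul_cancel₀ two_ne_zero, one_smul]

/-- A noncentral skew element. -/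
theorem exists_Q (hS : Setting k K D d s) (hdeg : finrank K D = 3 ^ 2) :
    ∃ Q : D, star Q = -Q ∧ ∃ x, Q * x ≠ x * Q := by
  have := hS.cen
  have := hS.fin
  by_contra hcon
  push Not at hcon
  have h1 : ∀ x y : D, x * y = y * x := by
    intro x y
    obtain ⟨a, b, ha, hb, rfl⟩ := exists_skew_add hS x
    rw [add_mul, mul_add, smul_mul_assoc, mul_smul_comm, hcon a ha y, hcon b hb y]
  have h2 : ∀ x : D, x ∈ (⊥ : Subalgebra K D) := by
    intro x
    rw [← Algebra.IsCentral.center_eq_bot K D, Subalgebra.mem_center_iff]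
    intro y
    exact h1 y x
  have h5 : ∀ x : D, ∃ c : K, c • (1 : D) = x := by
    intro x
    obtain ⟨c, hc⟩ := Algebra.mem_bot.1 (h2 x)
    exact ⟨c, by rw [← hc, Algebra.algebraMap_eq_smul_one]⟩
  have h4 : finrank K D = 1 := (finrank_eq_one_iff_of_nonzero' (1 : D) one_ne_zero).2 h5
  rw [hdeg] at h4
  norm_num at h4

/-- The trace form on the commutators with a noncentral skew element. -/
theorem exists_P (hS : Setting k K D d s) (C : Cub K D) {Q : D} (hQ : ∃ x, Q * x ≠ x * Q) :
    ∃ P : D, star P = -P ∧ C.T ((P * Q - Q * P) * (P * Q - Q * P)) ≠ 0 := by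
  have hK := char0K hS
  by_contra hcon
  push Not at hcon
  -- polarisation
  have h1 : ∀ P P' : D, star P = -P → star P' = -P' →
      C.T ((P * Q - Q * P) * (P' * Q - Q * P')) = 0 := by
    intro P P' hP hP'
    have e1 := hcon P hP
    have e2 := hcon P' hP'
    have e3 := hcon (P + P') (by rw [star_add, hP, hP', neg_add])
    have e4 : ((P + P') * Q - Q * (P + P')) * ((P + P') * Q - Q * (P + P')) =
        (P * Q - Q * P) * (P * Q - Q * P) + (P' * Q - Q * P') * (P' * Q - Q * P') +
        ((P * Q - Q * P) * (P' * Q - Q * P') + (P' * Q - Q * P') * (P * Q - Q * P)) := by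
      noncomm_ring
    rw [e4, map_add, map_add, map_add, e1, e2, C.T_comm (P' * Q - Q * P')] at e3
    have : 2 * C.T ((P * Q - Q * P) * (P' * Q - Q * P')) = 0 := by linear_combination e3
    exact (mul_eq_zero.1 this).resolve_left two_ne_zero
  have h2 : ∀ x y : D, C.T ((x * Q - Q * x) * (y * Q - Q * y)) = 0 := by
    intro x y
    obtain ⟨a, b, ha, hb, rfl⟩ := exists_skew_add hS x
    obtain ⟨a', b', ha', hb', rfl⟩ := exists_skew_add hS y
    have e : ((a + s • b) * Q - Q * (a + s • b)) * ((a' + s • b') * Q - Q * (a' + s • b')) =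
        (a * Q - Q * a) * (a' * Q - Q * a') + s • ((a * Q - Q * a) * (b' * Q - Q * b')) +
        (s • ((b * Q - Q * b) * (a' * Q - Q * a')) +
          (s * s) • ((b * Q - Q * b) * (b' * Q - Q * b'))) := by
      simp only [add_mul, mul_add, sub_mul, mul_sub, smul_mul_assoc, mul_smul_comm, smul_sub,
        smul_add, smul_smul]
      abel
    rw [e, map_add, map_add, map_add, map_smul, map_smul, map_smul, h1 a a' ha ha',
      h1 a b' ha hb', h1 b a' hb ha', h1 b b' hb hb']
    simp
  -- the square of the inner derivation vanishes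
  have h3 : ∀ x : D, Q * (x * Q - Q * x) = (x * Q - Q * x) * Q := by
    intro x
    rw [← sub_eq_zero]
    apply eq_zero_of_T hS C
    intro y
    have e := h2 x y
    have e' : (x * Q - Q * x) * (y * Q - Q * y) =
        (x * Q - Q * x) * y * Q - (x * Q - Q * x) * Q * y := by noncomm_ring
    rw [e', map_sub, C.T_comm _ Q] at e
    rw [sub_mul, map_sub]
    have e2 : Q * ((x * Q - Q * x) * y) = Q * (x * Q - Q * x) * y := by rw [mul_assoc]
    rw [e2] at e
    exact e
  obtain ⟨x, hx⟩ := hQ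
  apply hx
  have e1 := h3 (x * x)
  have e2 := h3 x
  -- with `z = x Q - Q x` commuting with `Q`, the relation for `x * x` gives `2 z z = 0`
  obtain ⟨z, hz⟩ : ∃ z, z = x * Q - Q * x := ⟨_, rfl⟩
  rw [← hz] at e2
  have e3 : x * x * Q - Q * (x * x) = x * z + z * x := by rw [hz]; noncomm_ring
  rw [e3] at e1
  have e4 : Q * x = x * Q - z := by rw [hz]; abel
  have e5 : Q * (x * z + z * x) - (x * z + z * x) * Q = -(z * z) - (z * z) := by
    calc Q * (x * z + z * x) - (x * z + z * x) * Q
        = (Q * x) * z + (Q * z) * x - x * (z * Q) - z * (x * Q) := by noncomm_ring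
      _ = (x * Q - z) * z + (z * Q) * x - x * (z * Q) - z * (x * Q) := by rw [e4, e2]
      _ = x * (Q * z) - z * z + z * (Q * x) - x * (z * Q) - z * (x * Q) := by noncomm_ring
      _ = x * (z * Q) - z * z + z * (x * Q - z) - x * (z * Q) - z * (x * Q) := by rw [e4, e2]
      _ = -(z * z) - (z * z) := by noncomm_ring
  rw [e1, sub_self] at e5
  have e6 : (2 : K) • (z * z) = 0 := by
    rw [two_smul]
    have : z * z + z * z = -(-(z * z) - z * z) := by abel
    rw [this, ← e5, neg_zero]
  have e7 : z * z = 0 := (smul_eq_zero.1 e6).resolve_left two_ne_zero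
  have e8 : z = 0 := by
    rcases mul_eq_zero.1 e7 with h | h <;> exact h
  rw [hz, sub_eq_zero] at e8
  exact e8.symm

end alg

section sg

/-- The special unitary element attached to a unitary element. -/
noncomputable def sg (C : Cub K D) (u : D) : D := (C.N u)⁻¹ • (u * u * u)

theorem N_star (hS : Setting k K D d s) (hdeg : finrank K D = 3 ^ 2) (C : Cub K D) {u : D}
    (hu : u * star u = 1) : C.N u * star (C.N u) = 1 := by
  rw [← (scub hS hdeg C).N, ← C.N_mul, hu, C.N_one]

theorem N_sg (C : Cub K D) {u : D} (hN : C.N u ≠ 0) : C.N (sg C u) = 1 := by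
  rw [sg, C.N_smul, C.N_mul, C.N_mul]
  field_simp

theorem sg_unitary (hS : Setting k K D d s) (hdeg : finrank K D = 3 ^ 2) (C : Cub K D) {u : D}
    (hu : u * star u = 1) : sg C u * star (sg C u) = 1 := by
  have h1 := N_star hS hdeg C hu
  rw [sg, hS.star_smul, star_inv₀, smul_mul_smul_comm, ← mul_inv, h1, inv_one, one_smul, star_mul,
    star_mul]
  calc u * u * u * (star u * (star u * star u))
      = u * (u * ((u * star u) * star u) * star u) := by simp only [mul_assoc]
    _ = 1 := by rw [hu, one_mul, hu, one_mul, hu]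

variable {B : Basis (Fin N) k D} {p : Pl k}

/-- continuity of the adjoint -/
theorem tn_adj [CharZero K] (C : Cub K D) {X : Type} {l : Filter X} {f : X → D} {a : D}
    (hf : Tn B p l f a) : Tn B p l (fun x => C.adj (f x)) (C.adj a) := by
  have e : ∀ z : D, C.adj z = z * z - (C.T z • (1 : D)) * z +
      (1 / 2 : K) • ((C.T z • (1 : D)) * (C.T z • (1 : D)) - C.T (z * z) • (1 : D)) := by
    intro z
    have h3 := congrArg C.T (C.adj_eq z)
    rw [map_add, map_sub, map_smul, map_smul, C.T_one, smul_eq_mul, smul_eq_mul] at h3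
    have h5 : C.T (C.adj z) = C.S z := rfl
    rw [h5] at h3
    rw [C.adj_eq z, smul_mul_assoc, one_mul, smul_mul_smul_comm, mul_one, ← sub_smul, smul_smul]
    congr 2
    linear_combination (-1 / 2 : K) * h3
  simp only [e]
  exact ((hf.mul hf).sub ((tn_T C hf).mul hf)).add
    (tn_smulK _ (((tn_T C hf).mul (tn_T C hf)).sub (tn_T C (hf.mul hf))))

/-- continuity of the norm -/
theorem tn_N [CharZero K] (C : Cub K D) {X : Type} {l : Filter X} {f : X → D} {a : D}
    (hf : Tn B p l f a) : Tn B p l (fun x => C.N (f x) • (1 : D)) (C.N a • (1 : D)) := by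
  simp only [← C.mul_adj]
  exact hf.mul (tn_adj C hf)

/-- **The first order term of the special unitary element.** -/
theorem tn_sg (hS : Setting k K D d s) (hdeg : finrank K D = 3 ^ 2) (C : Cub K D) {b : D}
    (hb : star b = -b) {lam : ℕ → k}
    (hlam : Tendsto (fun j => plAbv p (lam j)) atTop (𝓝 0)) :
    ∃ y : ℕ → D, (∀ j, sg C (cy (lam j • b)) = 1 + lam j • y j) ∧
      Tn B p atTop y (-((6 : K) • b) + (2 * C.T b) • (1 : D)) := by
  have hK := char0K hS
  have hcharD : CharZero D := charZero_of_injective_algebraMap (algebraMap K D).injective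
  have h0 : Tendsto (fun j => plAbv p (lam j - 0)) atTop (𝓝 0) := by
    simpa only [sub_zero] using hlam
  have hl1 : Tn B p atTop (fun j => lam j • (1 : D)) 0 := by
    have := Tn.smul (B := B) h0 (1 : D)
    rwa [zero_smul] at this
  have hlb : Tn B p atTop (fun j => lam j • b) 0 := by
    have := Tn.smul (B := B) h0 b
    rwa [zero_smul] at this
  have hsk : ∀ j, star (lam j • b) = -(lam j • b) := fun j => by
    rw [star_smul_k hS, hb, smul_neg]
  set u : ℕ → D := fun j => cy (lam j • b) with hu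
  have huu : ∀ j, u j * star (u j) = 1 := fun j => cy_mul_star (hsk j)
  have hN0 : ∀ j, C.N (u j) ≠ 0 := fun j h => by
    have := N_star hS hdeg C (huu j)
    rw [h, zero_mul] at this
    exact one_ne_zero this.symm
  have htu : Tn B p atTop u 1 := by
    have h1 := tn_cy hlb (by rw [star_zero, neg_zero])
    rwa [cy_zero] at h1
  set z : ℕ → D := fun j => -((2 : K) • (b * (1 + lam j • b)⁻¹)) with hz
  have htz : Tn B p atTop z (-((2 : K) • b)) := by
    have h2 := ((Tn.const (B := B) (p := p) (l := atTop) (1 : D)).add hlb).inv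
      (by rw [add_zero]; exact one_ne_zero)
    have h3 := (tn_smulK (2 : K) ((Tn.const (B := B) (p := p) (l := atTop) b).mul h2)).neg
    rwa [add_zero, inv_one, mul_one] at h3
  have hzu : ∀ j, u j = 1 + lam j • z j := by
    intro j
    have h1 : (1 : D) + lam j • b ≠ 0 := (one_pm_ne (hsk j)).1
    have h2 := cy_sub_one h1
    have h3 : u j = 1 + (cy (lam j • b) - 1) := by rw [hu]; abel
    rw [h3, h2, hz]
    simp only
    congr 1
    rw [smul_neg, two_smul, two_mul, smul_add, smul_mul_assoc]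
  -- the norm
  set n : ℕ → D := fun j => C.T (z j) • (1 : D) + lam j • (C.T (C.adj (z j)) • (1 : D)) +
    lam j • (lam j • (C.N (z j) • (1 : D))) with hn
  have hNu : ∀ j, C.N (u j) • (1 : D) = 1 + lam j • n j := by
    intro j
    have e : C.N (u j) = 1 + algebraMap k K (lam j) * C.T (z j) +
        algebraMap k K (lam j) ^ 2 * C.T (C.adj (z j)) + algebraMap k K (lam j) ^ 3 *
          C.N (z j) := by
      rw [hzu, ← algebraMap_smul K (lam j) (z j), C.N_add, C.N_one, C.adj_one, one_mul, one_mul,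
        C.adj_smul, C.N_smul, map_smul, map_smul, smul_eq_mul, smul_eq_mul]
    rw [e, hn]
    simp only [add_smul, one_smul, smul_add, ← algebraMap_smul K (lam j), smul_smul]
    rw [pow_two, pow_succ, pow_two]
    simp only [← mul_assoc, ← add_assoc]
  have htn : Tn B p atTop n (C.T (-((2 : K) • b)) • (1 : D)) := by
    have h1 := tn_T C htz
    have h2 := hl1.mul (tn_T C (tn_adj C htz))
    have h3 := hl1.mul (hl1.mul (tn_N C htz))
    have h4 := (h1.add h2).add h3
    simp only [smul_mul_assoc, one_mul, zero_mul, add_zero] at h4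
    exact h4
  refine ⟨fun j => (C.N (u j) • (1 : D))⁻¹ * (z j * (u j * u j + u j + 1) - n j), ?_, ?_⟩
  · intro j
    have hN1 : C.N (u j) • (1 : D) ≠ 0 := smul_ne_zero (hN0 j) one_ne_zero
    have e1 : u j * u j * u j - 1 = lam j • (z j * (u j * u j + u j + 1)) := by
      have e2 : lam j • z j = u j - 1 := by
        rw [eq_sub_iff_add_eq, add_comm]
        exact (hzu j).symm
      rw [← smul_mul_assoc, e2]
      noncomm_ring
    have e3 : sg C (u j) = (C.N (u j) • (1 : D))⁻¹ * (u j * u j * u j) := by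
      have e : (C.N (u j) • (1 : D))⁻¹ = (C.N (u j))⁻¹ • (1 : D) := by
        apply inv_eq_of_mul_eq_one_right
        rw [smul_mul_smul_comm, mul_inv_cancel₀ (hN0 j), one_smul, mul_one]
      rw [e, smul_mul_assoc, one_mul, sg]
    change sg C (u j) = _
    rw [e3]
    apply mul_left_cancel₀ hN1
    rw [mul_inv_cancel_left₀ hN1, mul_add, mul_one, mul_smul_comm, mul_inv_cancel_left₀ hN1,
      smul_sub, ← e1]
    have e4 := hNu j
    rw [e4]
    abel
  · have h1 := ((tn_N C htu).inv (by rw [C.N_one, one_smul]; exact one_ne_zero)).mul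
      ((htz.mul (((htu.mul htu).add htu).add (Tn.const 1))).sub htn)
    have e : (C.N (1 : D) • (1 : D))⁻¹ * (-((2 : K) • b) * (1 * 1 + 1 + 1) -
        C.T (-((2 : K) • b)) • (1 : D)) = -((6 : K) • b) + (2 * C.T b) • (1 : D) := by
      rw [C.N_one, one_smul, inv_one, one_mul, mul_one, map_neg, map_smul, smul_eq_mul, neg_smul,
        sub_neg_eq_add]
      congr 1
      rw [neg_mul]
      congr 1
      have h6 : (6 : K) = 2 + 2 + 2 := by norm_num
      rw [h6, add_smul, add_smul, mul_add, mul_add, mul_one]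
    rwa [e] at h1

end sg

/-- **The global pair.** -/
theorem exists_pair' (hS : Setting k K D d s) (hdeg : finrank K D = 3 ^ 2) (C : Cub K D)
    (B : Basis (Fin N) k D) {P1 : Set (HeightOneSpectrum (𝓞 k))} (hP1 : P1.Finite) {ε : ℝ}
    (hε : 0 < ε) :
    ∃ g0 w0 : D, g0 * star g0 = 1 ∧ w0 * star w0 = 1 ∧ C.N g0 = 1 ∧ C.N w0 = 1 ∧
      (∀ v ∈ P1, nm B (Sum.inl v) (g0 - 1) < ε ∧ nm B (Sum.inl v) (w0 - 1) < ε ∧
        nm B (Sum.inl v) (g0 * w0 * g0⁻¹ * w0⁻¹ - 1) < ε) ∧
      ∀ x0, x0 = g0 * w0 * g0⁻¹ * w0⁻¹ → x0 * star x0 = 1 ∧ C.N x0 = 1 ∧ C.T ((x0 - 1) * w0) = 0 ∧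
        x0 * w0 ≠ w0 * x0 ∧ C.T x0 + C.T (star x0) ≠ 6 := by
  classical
  have hK := char0K hS
  have hcharD : CharZero D := charZero_of_injective_algebraMap (algebraMap K D).injective
  have h := scub hS hdeg C
  obtain ⟨Q, hQ, hQc⟩ := exists_Q hS hdeg
  obtain ⟨P, hP, hPQ⟩ := exists_P hS C hQc
  obtain ⟨v0, -⟩ := H321.Rho.exists_notMem (k := k) ∅
  obtain ⟨lam, hlam0, hlam⟩ := exists_lam (k := k) (hP1.insert v0)
  set Z : D := P * Q - Q * P with hZ
  have hZs : star Z = -Z := by
    rw [hZ, star_sub, star_mul, star_mul, hP, hQ]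
    noncomm_ring
  -- the limits at one place
  have hseq : ∀ v ∈ insert v0 P1, ∀ b : D, star b = -b →
      Tn B (Sum.inl v) atTop (fun j => sg C (cy (lam j • b))) 1 := by
    intro v hv b hb
    obtain ⟨y, hy, hyl⟩ := tn_sg (B := B) hS hdeg C hb (hlam v hv)
    simp only [hy]
    have h0 : Tendsto (fun j => plAbv (Sum.inl v) (lam j - 0)) atTop (𝓝 0) := by
      simpa only [sub_zero] using hlam v hv
    have h1 := tn_smulk h0 hyl
    rw [zero_smul] at h1
    have h2 := (Tn.const (B := B) (p := Sum.inl v) (l := atTop) (1 : D)).add h1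
    rwa [add_zero] at h2
  have hv0 : v0 ∈ insert v0 P1 := Set.mem_insert _ _
  obtain ⟨y, hy, hyl⟩ := tn_sg (B := B) hS hdeg C hP (hlam v0 hv0)
  obtain ⟨y', hy', hyl'⟩ := tn_sg (B := B) hS hdeg C hQ (hlam v0 hv0)
  set g : ℕ → D := fun j => sg C (cy (lam j • P)) with hg
  set w : ℕ → D := fun j => sg C (cy (lam j • Q)) with hw
  have hsk : ∀ b : D, star b = -b → ∀ j, star (lam j • b) = -(lam j • b) := fun b hb j => by
    rw [star_smul_k hS, hb, smul_neg]
  have hgu : ∀ j, g j * star (g j) = 1 := fun j =>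
    sg_unitary hS hdeg C (cy_mul_star (hsk P hP j))
  have hwu : ∀ j, w j * star (w j) = 1 := fun j =>
    sg_unitary hS hdeg C (cy_mul_star (hsk Q hQ j))
  have hN0 : ∀ b : D, star b = -b → ∀ j, C.N (cy (lam j • b)) ≠ 0 := fun b hb j h0 => by
    have := N_star hS hdeg C (cy_mul_star (hsk b hb j))
    rw [h0, zero_mul] at this
    exact one_ne_zero this.symm
  have hgN : ∀ j, C.N (g j) = 1 := fun j => N_sg C (hN0 P hP j)
  have hwN : ∀ j, C.N (w j) = 1 := fun j => N_sg C (hN0 Q hQ j)
  have hg0 : ∀ j, g j ≠ 0 := fun j => left_ne_zero_of_mul_eq_one (hgu j)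
  have hw0 : ∀ j, w j ≠ 0 := fun j => left_ne_zero_of_mul_eq_one (hwu j)
  -- the commutator to second order
  set e : ℕ → D := fun j => (y j * y' j - y' j * y j) * ((g j)⁻¹ * (w j)⁻¹) with he
  have hxe : ∀ j, g j * w j * (g j)⁻¹ * (w j)⁻¹ = 1 + lam j • (lam j • e j) := by
    intro j
    have h1 : g j * w j = w j * g j + lam j • (lam j • (y j * y' j - y' j * y j)) := by
      have a1 : g j = 1 + lam j • y j := hy j
      have a2 : w j = 1 + lam j • y' j := hy' j
      rw [a1, a2]
      simp only [add_mul, mul_add, one_mul, mul_one, smul_mul_assoc, mul_smul_comm, smul_sub,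
        smul_add]
      abel
    have h2 : w j * g j * ((g j)⁻¹ * (w j)⁻¹) = 1 := by
      rw [mul_assoc, mul_inv_cancel_left₀ (hg0 j), mul_inv_cancel₀ (hw0 j)]
    calc g j * w j * (g j)⁻¹ * (w j)⁻¹ = g j * w j * ((g j)⁻¹ * (w j)⁻¹) := by
          rw [mul_assoc (g j * w j)]
      _ = 1 + lam j • (lam j • e j) := by
        rw [h1, add_mul, h2, smul_mul_assoc, smul_mul_assoc]
  set Yg : D := -((6 : K) • P) + (2 * C.T P) • (1 : D) with hYg
  set Yw : D := -((6 : K) • Q) + (2 * C.T Q) • (1 : D) with hYw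
  have hcomm : Yg * Yw - Yw * Yg = (36 : K) • Z := by
    rw [hYg, hYw, hZ]
    simp only [add_mul, mul_add, neg_mul, mul_neg, smul_mul_assoc, mul_smul_comm,
      one_mul, mul_one, smul_add, smul_neg, smul_smul, smul_sub]
    have h36 : (6 : K) * 6 = 36 := by norm_num
    rw [h36, mul_comm (2 * C.T Q) (2 * C.T P), mul_comm (2 * C.T P) (6 : K),
      mul_comm (2 * C.T Q) (6 : K)]
    abel
  have hel : Tn B (Sum.inl v0) atTop e ((36 : K) • Z) := by
    have h1 := ((hyl.mul hyl').sub (hyl'.mul hyl)).mul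
      (((hseq v0 hv0 P hP).inv one_ne_zero).mul ((hseq v0 hv0 Q hQ).inv one_ne_zero))
    rwa [inv_one, mul_one, mul_one, hcomm] at h1
  -- the two conditions in the limit
  have hc1 : C.T (((36 : K) • Z) * star ((36 : K) • Z)) • (1 : D) ≠ 0 := by
    rw [hS.star_smul, hZs, star_ofNat, smul_mul_smul_comm, mul_neg, smul_neg, map_neg, map_smul,
      smul_eq_mul]
    exact smul_ne_zero (neg_ne_zero.2 (mul_ne_zero (by norm_num) hPQ)) one_ne_zero
  have hZQ : Z * Q - Q * Z ≠ 0 := by
    intro h0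
    apply hPQ
    have e1 : (P * Q - Q * P) * Z = P * (Q * Z) - Q * (P * Z) := by noncomm_ring
    rw [← hZ] at e1
    rw [e1, map_sub, C.T_comm Q (P * Z), mul_assoc P Z Q, ← map_sub, ← mul_sub,
      (sub_eq_zero.1 h0), sub_self, mul_zero, map_zero]
  have hc2 : ((36 : K) • Z) * Yw - Yw * ((36 : K) • Z) ≠ 0 := by
    have e1 : ((36 : K) • Z) * Yw - Yw * ((36 : K) • Z) = -((216 : K) • (Z * Q - Q * Z)) := by
      rw [hYw]
      simp only [add_mul, mul_add, neg_mul, mul_neg, smul_mul_assoc, mul_smul_comm, one_mul,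
        mul_one, smul_add, smul_neg, smul_smul, smul_sub]
      have h36 : (36 : K) * 6 = 216 := by norm_num
      have h63 : (6 : K) * 36 = 216 := by norm_num
      rw [h36, h63, mul_comm (2 * C.T Q) (36 : K)]
      abel
    rw [e1]
    exact neg_ne_zero.2 (smul_ne_zero (by norm_num) hZQ)
  have f1 := (tn_T C (hel.mul (tn_star' hS hel))).ev_ne hc1
  have f2 := ((hel.mul hyl').sub (hyl'.mul hel)).ev_ne hc2
  have f3 : ∀ᶠ j in atTop, ∀ v ∈ P1, nm B (Sum.inl v) (g j - 1) < ε ∧
      nm B (Sum.inl v) (w j - 1) < ε ∧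
        nm B (Sum.inl v) (g j * w j * (g j)⁻¹ * (w j)⁻¹ - 1) < ε := by
    rw [Filter.eventually_all_finite hP1]
    intro v hv
    have b1 := hseq v (Set.mem_insert_of_mem _ hv) P hP
    have b2 := hseq v (Set.mem_insert_of_mem _ hv) Q hQ
    have b3 := ((b1.mul b2).mul (b1.inv one_ne_zero)).mul (b2.inv one_ne_zero)
    rw [inv_one, mul_one, mul_one, mul_one] at b3
    exact (b1.ev_lt hε).and ((b2.ev_lt hε).and (b3.ev_lt hε))
  obtain ⟨j, h1, h2, h3⟩ := (f1.and (f2.and f3)).exists
  refine ⟨g j, w j, hgu j, hwu j, hgN j, hwN j, h3, ?_⟩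
  rintro x0 rfl
  have b1 : (g j)⁻¹ = star (g j) := inv_eq_of_mul_eq_one_right (hgu j)
  have b2 : (w j)⁻¹ = star (w j) := inv_eq_of_mul_eq_one_right (hwu j)
  have b3 : star (g j) * g j = 1 := by rw [← b1, inv_mul_cancel₀ (hg0 j)]
  have b4 : star (w j) * w j = 1 := by rw [← b2, inv_mul_cancel₀ (hw0 j)]
  have hxx : g j * w j * (g j)⁻¹ * (w j)⁻¹ * star (g j * w j * (g j)⁻¹ * (w j)⁻¹) = 1 := by
    rw [b1, b2]
    simp only [star_mul, star_star]
    calc g j * w j * star (g j) * star (w j) * (w j * (g j * (star (w j) * star (g j))))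
        = g j * (w j * (star (g j) * ((star (w j) * w j) * g j) * star (w j)) * star (g j)) := by
          simp only [mul_assoc]
      _ = 1 := by rw [b4, one_mul, b3, one_mul, hwu j, one_mul, hgu j]
  refine ⟨hxx, ?_, ?_, ?_, ?_⟩
  · have c1 : C.N (g j)⁻¹ = 1 := by
      have c2 := C.N_mul (g j) (g j)⁻¹
      rw [mul_inv_cancel₀ (hg0 j), C.N_one, hgN j, one_mul] at c2
      exact c2.symm
    have c2 : C.N (w j)⁻¹ = 1 := by
      have c2 := C.N_mul (w j) (w j)⁻¹
      rw [mul_inv_cancel₀ (hw0 j), C.N_one, hwN j, one_mul] at c2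
      exact c2.symm
    rw [C.N_mul, C.N_mul, C.N_mul, c1, c2, hgN j, hwN j, one_mul, one_mul, one_mul]
  · have c1 : (g j * w j * (g j)⁻¹ * (w j)⁻¹ - 1) * w j = g j * (w j * (g j)⁻¹) - w j := by
      rw [sub_mul, one_mul, inv_mul_cancel_right₀ (hw0 j), mul_assoc]
    rw [c1, map_sub, C.T_comm, inv_mul_cancel_right₀ (hg0 j), sub_self]
  · rw [hxe j]
    intro h0
    apply h2
    have a2 : w j = 1 + lam j • y' j := hy' j
    rw [a2] at h0
    have e1 : (1 + lam j • (lam j • e j)) * (1 + lam j • y' j) -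
        (1 + lam j • y' j) * (1 + lam j • (lam j • e j)) =
        lam j • (lam j • (lam j • (e j * y' j - y' j * e j))) := by
      simp only [add_mul, mul_add, one_mul, mul_one, smul_mul_assoc, mul_smul_comm, smul_sub,
        smul_add]
      abel
    rw [h0, sub_self] at e1
    have e2 := e1.symm
    simp only [smul_eq_zero, hlam0 j, false_or] at e2
    exact e2
  · rw [hxe j]
    intro h0
    apply h1
    -- `x0 star x0 = 1`
    have hx : (1 + lam j • (lam j • e j)) * star (1 + lam j • (lam j • e j)) = 1 := by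
      rw [← hxe j]
      exact hxx
    have e1 : lam j • (lam j • e j) * star (lam j • (lam j • e j)) =
        2 - (1 + lam j • (lam j • e j)) - star (1 + lam j • (lam j • e j)) := by
      rw [star_add, star_one] at hx ⊢
      have e3 : (1 + lam j • (lam j • e j)) * (1 + star (lam j • (lam j • e j))) =
          1 + lam j • (lam j • e j) + star (lam j • (lam j • e j)) +
            lam j • (lam j • e j) * star (lam j • (lam j • e j)) := by noncomm_ring
      rw [e3] at hx
      have e4 : (2 : D) = 1 + 1 := one_add_one_eq_two.symm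
      rw [e4]
      have e5 : lam j • (lam j • e j) * star (lam j • (lam j • e j)) =
          1 - (1 + lam j • (lam j • e j) + star (lam j • (lam j • e j))) :=
        eq_sub_of_add_eq' hx
      rw [e5]
      abel
    have e6 : C.T (lam j • (lam j • e j) * star (lam j • (lam j • e j))) = 0 := by
      have h22 : (2 : D) = (2 : K) • (1 : D) := by
        rw [ofNat_smul_eq_nsmul, nsmul_eq_mul, mul_one]
        rfl
      rw [e1, h22, map_sub, map_sub, map_smul, C.T_one, smul_eq_mul]
      linear_combination -h0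
    have e7 : lam j • (lam j • e j) * star (lam j • (lam j • e j)) =
        lam j • (lam j • (lam j • (lam j • (e j * star (e j))))) := by
      rw [star_smul_k hS, star_smul_k hS]
      simp only [smul_mul_assoc, mul_smul_comm]
    rw [e7, T_smul_k, T_smul_k, T_smul_k, T_smul_k] at e6
    have hl : algebraMap k K (lam j) ≠ 0 := (_root_.map_ne_zero _).2 (hlam0 j)
    have e8 : C.T (e j * star (e j)) = 0 := by
      simpa only [mul_eq_zero, hl, false_or] using e6
    rw [e8, zero_smul]

theorem exists_pair (hS : Setting k K D d s) (hdeg : finrank K D = 3 ^ 2) (C : Cub K D)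
    (B : Basis (Fin N) k D) {P1 : Set (HeightOneSpectrum (𝓞 k))} (hP1 : P1.Finite) {ε : ℝ}
    (hε : 0 < ε) :
    ∃ g0 w0 : D, g0 * star g0 = 1 ∧ w0 * star w0 = 1 ∧ C.N g0 = 1 ∧ C.N w0 = 1 ∧
      (∀ v ∈ P1, nm B (Sum.inl v) (g0 - 1) < ε ∧ nm B (Sum.inl v) (w0 - 1) < ε) ∧
      ∀ x0, x0 = g0 * w0 * g0⁻¹ * w0⁻¹ →
        x0 * w0 ≠ w0 * x0 ∧ C.T x0 + C.T (star x0) ≠ 6 := by
  obtain ⟨g0, w0, h1, h2, h3, h4, h5, h6⟩ := exists_pair' hS hdeg C B hP1 hε
  exact ⟨g0, w0, h1, h2, h3, h4, fun v hv => ⟨(h5 v hv).1, (h5 v hv).2.1⟩,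
    fun x0 hx0 => ⟨(h6 x0 hx0).2.2.2.1, (h6 x0 hx0).2.2.2.2⟩⟩

end Vale.Agent.P011.H321.Pair
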