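import Vale.Agent.P011.H321.M8g
import Vale.Agent.P011.H308.M8g

/-!
# Part I over number fields
-/

set_option linter.unusedSectionVars false

open Module NumberField IsDedekindDomain QuadraticMap TensorProduct Filter Topology

namespace Vale.Agent.P011.H321.PartIF

open Vale.Agent.P011.Arith Vale.Agent.P011.Even Vale.Agent.P011.H511 Vale.Agent.P011.H775
  Vale.Agent.P011.H948 Vale.Agent.P011.H321.DatS Vale.Agent.P011.H321.M8a
  Vale.Agent.P011.H321.PartI Vale.Agent.P011.Two Vale.Agent.P011.One Vale.Agent.P011.W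
open Vale.Agent.P011.H182 (na)

variable {k K D : Type} [Field k] [NumberField k] [Field K] [StarRing K]
  [DivisionRing D] [StarRing D] [Algebra k K] [Algebra k D] [Algebra K D] [IsScalarTower k K D]
  {d : kˣ} {s : K} {N : ℕ}

/-- The statement about the parameter quadric. -/
theorem rhoEnd (hS : Setting k K D d s) (hdeg : finrank K D = 3 ^ 2) (C : Cub K D)
    (B : Basis (Fin N) k D) {Td : Set (HeightOneSpectrum (𝓞 k))} (hTf : Td.Finite)
    (hT : Td.Nonempty) (gs ys rs : D) (hg : star gs = gs) (hy : star ys = ys)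
    (hr : star rs = rs) (hTr : C.T rs = 0) (hr0 : rs ≠ 0) (hSg : C.S gs ≠ 0)
    (hTy : C.T (ys * rs) ≠ 0) :
    M8g.RhoEnd C B d s gs ys rs
      (fun v : Td => plAbv (Sum.inl (v : HeightOneSpectrum (𝓞 k)))) := by
  classical
  have hfin : FiniteDimensional k D := finite_kD hS
  have : Finite Td := hTf
  have : Nonempty Td := hT.to_subtype
  have h1 : H308.Bs k K :=
    { hfix := fun c hc => (hS.fix c).1 hc
      hfix' := fun c => (hS.fix _).2 ⟨c, rfl⟩
      hK := hS.rank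
      h2 := two_ne_zero
      h3 := three_ne_zero }
  have hL : H308.Lim C gs ys rs := ⟨hg, hy, hr, hTr, hr0, hSg, hTy⟩
  obtain ⟨η, hη, h⟩ := H308.rho_end h1 (scub hS hdeg C) B s d.ne_zero hL
    (fun v : Td => plAbv (Sum.inl (v : HeightOneSpectrum (𝓞 k)))) (by
      intro δ hδ
      obtain ⟨lam, hlam0, hlam⟩ := exists_lam (k := k) hTf
      have h2 : ∀ᶠ j in atTop, ∀ v ∈ Td, plAbv (Sum.inl v) (lam j) < δ := by
        rw [Filter.eventually_all_finite hTf]
        intro v hv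
        exact (hlam v hv).eventually_lt_const hδ
      obtain ⟨j, hj⟩ := h2.exists
      exact ⟨lam j, hlam0 j, fun v => hj v v.2⟩)
  refine ⟨η, hη, fun lam g y r hlam hi F _ _ _ _ φ σ _ _ M h1 h2 h3 h4 h5 h6 h7 h8 h9 h10 => ?_⟩
  exact h lam g y r hlam hi F φ σ M ⟨h2, h4, h5, h6, h7, h8, h9, h10⟩

section

variable [NumberField K]

/-- **Part I over number fields.** -/
theorem partI (hS : Setting k K D d s) (hdeg : finrank K D = 3 ^ 2)
    (C : Cub K D) (B : Basis (Fin N) k D) {P1 : Set (HeightOneSpectrum (𝓞 k))}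
    (hP1 : P1.Finite) (hne : P1.Nonempty)
    (hTd : {v : HeightOneSpectrum (𝓞 k) | (Sum.inl v : Pl k) ∈ Tdiv k K D} ⊆ P1)
    {x0 w0 : D} (hx0 : x0 * star x0 = 1)
    (hw0 : w0 * star w0 = 1) (hT0 : C.T ((x0 - 1) * w0) = 0) (hN1 : x0 * w0 ≠ w0 * x0)
    (hN3 : C.T x0 + C.T (star x0) ≠ 6) :
    ∃ ε : ℝ, 0 < ε ∧ ∀ x : D, x * star x = 1 →
      (∀ v ∈ P1, nm B (Sum.inl v) (x - x0) < ε) →
      (∀ φ : k →+* ℝ, nm B (Sum.inr φ) (x - x0) < ε) →
      ∃ w : D, w * star w = 1 ∧ C.T ((x - 1) * w) = 0 :=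
  M8g.partI_of_rho hS hdeg C B hP1 hne hTd hx0 hw0 hT0 hN1 hN3
    (fun h gs ys rs => rhoEnd hS hdeg C B (hP1.subset hTd) h gs ys rs)

end

end Vale.Agent.P011.H321.PartIF
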