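import Vale.Agent.P011.H321.PartIof
import Vale.Agent.P011.One.TForm

/-!
# Unitary elements whose chart is close to infinity

With `m = (x0 - 1) w0`, `T m = 0`, and `m`, `star m` independent over `K`, there are unitary `u`
close to `w0` whose chart data satisfy `lam g` close to `kap m + star (kap m)` and `lam y` close to
`s⁻¹ (kap m - star (kap m))`, with `lam` small.
-/

set_option linter.unusedSectionVars false

open Module NumberField IsDedekindDomain Filter Topology

namespace Vale.Agent.P011.H321.M8a

open Vale.Agent.P011.Arith Vale.Agent.P011.Even Vale.Agent.P011.H511 Vale.Agent.P011.H775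
  Vale.Agent.P011.H948 Vale.Agent.P011.Two Vale.Agent.P011.One Vale.Agent.P011.H321.PartI

variable {k K D : Type} [Field k] [NumberField k] [Field K] [StarRing K]
  [DivisionRing D] [StarRing D] [Algebra k K] [Algebra k D] [Algebra K D] [IsScalarTower k K D]
  {d : kˣ} {s : K} {N : ℕ}

section alg

/-- The trace form is non-degenerate. -/
theorem eq_zero_of_T (hS : Setting k K D d s) (C : Cub K D) {a : D}
    (h : ∀ e, C.T (a * e) = 0) : a = 0 := by
  have := char0K hS
  by_contra ha
  have h1 := h a⁻¹
  rw [mul_inv_cancel₀ ha, C.T_one] at h1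
  norm_num at h1

theorem exists_T_pair (hS : Setting k K D d s) (C : Cub K D) {m m' : D} (hm' : m' ≠ 0)
    (hm : ∀ α : K, m ≠ α • m') (c : K) : ∃ e, C.T (m * e) = c ∧ C.T (m' * e) = 0 := by
  have h1 : ∃ e1, C.T (m' * e1) ≠ 0 := by
    by_contra hcon
    push Not at hcon
    exact hm' (eq_zero_of_T hS C hcon)
  obtain ⟨e1, he1⟩ := h1
  have h2 : ∃ e0, C.T (m' * e0) = 0 ∧ C.T (m * e0) ≠ 0 := by
    by_contra hcon
    push Not at hcon
    set α : K := C.T (m * e1) / C.T (m' * e1) with hα
    apply hm α
    rw [← sub_eq_zero]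
    apply eq_zero_of_T hS C
    intro e
    have h3 := hcon (e - (C.T (m' * e) / C.T (m' * e1)) • e1) (by
      rw [mul_sub, mul_smul_comm, map_sub, map_smul, smul_eq_mul, div_mul_cancel₀ _ he1, sub_self])
    rw [mul_sub, mul_smul_comm, map_sub, map_smul, smul_eq_mul] at h3
    rw [sub_mul, smul_mul_assoc, map_sub, map_smul, smul_eq_mul, hα]
    field_simp at h3 ⊢
    linear_combination h3
  obtain ⟨e0, h3, h4⟩ := h2
  refine ⟨(c / C.T (m * e0)) • e0, ?_, ?_⟩
  · rw [mul_smul_comm, map_smul, smul_eq_mul, div_mul_cancel₀ _ h4]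
  · rw [mul_smul_comm, map_smul, h3, smul_zero]

/-- A skew element with prescribed trace against `m`. -/
theorem exists_skew (hS : Setting k K D d s) (hdeg : finrank K D = 3 ^ 2) (C : Cub K D) {m : D}
    (hind : ∀ a b : K, a • m + b • star m = 0 → a = 0 ∧ b = 0) (c : K) :
    ∃ b, star b = -b ∧ C.T (m * b) = c := by
  have hs0 : star m ≠ 0 := by
    intro h0
    have := (hind 0 1 (by rw [h0, zero_smul, smul_zero, add_zero])).2
    exact one_ne_zero this
  obtain ⟨e, he, he'⟩ := exists_T_pair hS C hs0 (m := m) (fun α h => by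
    have := (hind 1 (-α) (by rw [one_smul, neg_smul, ← h, add_neg_cancel])).1
    exact one_ne_zero this) c
  refine ⟨e - star e, by rw [star_sub, star_star, neg_sub], ?_⟩
  have h := scub hS hdeg C
  have h1 : C.T (m * star e) = 0 := by
    have h2 : m * star e = star (e * star m) := by rw [star_mul, star_star]
    rw [h2, h.T, C.T_comm, he', star_zero]
  rw [mul_sub, map_sub, he, h1, sub_zero]

/-- One of the two standard scalars gives a limit direction with non-zero second coefficient. -/
theorem exists_kap (hS : Setting k K D d s) (hdeg : finrank K D = 3 ^ 2) (C : Cub K D)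
    {x0 w0 : D} (hx0 : x0 * star x0 = 1) (hw0 : w0 * star w0 = 1)
    (hT0 : C.T ((x0 - 1) * w0) = 0) (hN3 : C.T x0 + C.T (star x0) ≠ 6) :
    ∃ κ : K, κ ≠ 0 ∧ C.S (κ • ((x0 - 1) * w0) + star (κ • ((x0 - 1) * w0))) ≠ 0 := by
  have h := scub hS hdeg C
  have hK := char0K hS
  set m : D := (x0 - 1) * w0 with hm
  have hmm : C.T (m * star m) ≠ 0 := by
    have e1 : m * star m = 2 - x0 - star x0 := by
      rw [hm, star_mul, star_sub, star_one]
      calc (x0 - 1) * w0 * (star w0 * (star x0 - 1))
          = (x0 - 1) * (w0 * star w0) * (star x0 - 1) := by simp only [mul_assoc]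
        _ = x0 * star x0 - x0 - star x0 + 1 := by rw [hw0]; noncomm_ring
        _ = _ := by
          rw [hx0, ← one_add_one_eq_two]
          abel
    have h2 : (2 : D) = (2 : K) • (1 : D) := by
      rw [ofNat_smul_eq_nsmul, nsmul_eq_mul, mul_one]
      rfl
    rw [e1, h2, map_sub, map_sub, map_smul, C.T_one, smul_eq_mul]
    intro h0
    apply hN3
    linear_combination -h0
  have hTm : C.T m = 0 := hT0
  have hTms : C.T (star m) = 0 := by rw [h.T, hTm, star_zero]
  have hS' : ∀ κ : K, C.S (κ • m + star (κ • m)) = -(κ ^ 2 * C.T (m * m) +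
      2 * (κ * star κ) * C.T (m * star m) + (star κ) ^ 2 * C.T (star m * star m)) / 2 := by
    intro κ
    have e1 : C.T (κ • m + star (κ • m)) = 0 := by
      rw [hS.star_smul, map_add, map_smul, map_smul, hTm, hTms, smul_zero, smul_zero, add_zero]
    have e2 : ∀ z : D, C.T z = 0 → C.S z = -(C.T (z * z)) / 2 := by
      intro z hz
      have h3 := C.adj_eq z
      have h4 := congrArg C.T h3
      rw [hz, zero_smul, sub_zero, map_add, map_smul, C.T_one, smul_eq_mul] at h4
      have h5 : C.T (C.adj z) = C.S z := rfl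
      rw [h5] at h4
      linear_combination (-1 / 2 : K) * h4
    rw [e2 _ e1, hS.star_smul]
    have e3 : (κ • m + star κ • star m) * (κ • m + star κ • star m) =
        κ ^ 2 • (m * m) + (κ * star κ) • (m * star m) + (κ * star κ) • (star m * m) +
          (star κ) ^ 2 • (star m * star m) := by
      simp only [add_mul, mul_add, smul_mul_assoc, mul_smul_comm, smul_add, smul_smul, pow_two,
        mul_comm (star κ) κ]
      abel
    rw [e3, map_add, map_add, map_add, map_smul, map_smul, map_smul, map_smul,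
      C.T_comm (star m) m]
    simp only [smul_eq_mul]
    ring
  have hs0 := s_ne_zero hS
  by_contra hcon
  push Not at hcon
  have h1 := hcon 1 one_ne_zero
  have h2 := hcon s hs0
  rw [hS', star_one] at h1
  rw [hS', hS.star_s] at h2
  apply hmm
  have hs2 : s ^ 2 ≠ 0 := pow_ne_zero 2 hs0
  apply mul_left_cancel₀ hs2
  rw [mul_zero]
  linear_combination (-1 / 2 : K) * s ^ 2 * h1 + (1 / 2 : K) * h2

end alg

section seq

/-- A sequence of non-zero scalars tending to zero at finitely many places. -/
theorem exists_lam {P1 : Set (HeightOneSpectrum (𝓞 k))} (hP1 : P1.Finite) :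
    ∃ lam : ℕ → k, (∀ j, lam j ≠ 0) ∧
      ∀ v ∈ P1, Tendsto (fun j => plAbv (Sum.inl v) (lam j)) atTop (𝓝 0) := by
  classical
  set M : ℕ := ∏ v ∈ hP1.toFinset, Ideal.absNorm v.asIdeal with hM
  have hM0 : M ≠ 0 := by
    rw [hM]
    exact Finset.prod_ne_zero_iff.mpr fun v _ => by
      rw [Ne, Ideal.absNorm_eq_zero_iff]
      exact v.ne_bot
  refine ⟨fun j => (M : k) ^ j, fun j => pow_ne_zero _ (Nat.cast_ne_zero.mpr hM0), ?_⟩
  intro v hv
  have h1 : plAbv (Sum.inl v) (M : k) < 1 := by
    rw [plAbv_lt_one]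
    have h2 : (M : 𝓞 k) ∈ v.asIdeal := by
      have h3 : Ideal.absNorm v.asIdeal ∣ M :=
        Finset.dvd_prod_of_mem _ (hP1.mem_toFinset.mpr hv)
      obtain ⟨c, hc⟩ := h3
      rw [hc, Nat.cast_mul]
      exact Ideal.mul_mem_right _ _ (Ideal.absNorm_mem v.asIdeal)
    have h3 : v.valuation k (algebraMap (𝓞 k) k (M : 𝓞 k)) < 1 := by
      rw [v.valuation_of_algebraMap, v.intValuation_lt_one_iff_mem]
      exact h2
    rwa [map_natCast] at h3
  simp only [map_pow]
  exact tendsto_pow_atTop_nhds_zero_of_lt_one (AbsoluteValue.nonneg _ _) h1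

end seq

section cont

variable {B : Basis (Fin N) k D} {p : Pl k} {X : Type} {l : Filter X}

/-- `x ↦ T x • 1` as a `k`-linear map. -/
noncomputable def LT (C : Cub K D) : D →ₗ[k] D where
  toFun x := C.T x • (1 : D)
  map_add' x y := by rw [map_add, add_smul]
  map_smul' c x := by
    rw [← algebraMap_smul K c x, map_smul, smul_eq_mul, mul_smul, algebraMap_smul,
      RingHom.id_apply]

theorem LT_apply (C : Cub K D) (x : D) : LT (k := k) C x = C.T x • (1 : D) := rfl

theorem tn_T (C : Cub K D) {f : X → D} {a : D} (hf : Tn B p l f a) :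
    Tn B p l (fun x => C.T (f x) • (1 : D)) (C.T a • (1 : D)) := hf.linear (LT C)

/-- multiplication by a scalar of `K` -/
theorem tn_smulK (c : K) {f : X → D} {a : D} (hf : Tn B p l f a) :
    Tn B p l (fun x => c • f x) (c • a) := by
  have h := (Tn.const (B := B) (p := p) (l := l) (c • (1 : D))).mul hf
  simpa only [smul_mul_assoc, one_mul] using h

theorem tn_star' (hS : Setting k K D d s) {f : X → D} {a : D} (hf : Tn B p l f a) :
    Tn B p l (fun x => star (f x)) (star a) :=
  hf.linear
    { toFun := fun x => star x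
      map_add' := fun x y => star_add x y
      map_smul' := fun c x => by rw [star_smul_k hS, RingHom.id_apply] }

theorem tn_smulk {f : X → D} {a : D} {g : X → k} {c : k} (hg : Tendsto (fun x => plAbv p (g x - c)) l (𝓝 0))
    (hf : Tn B p l f a) : Tn B p l (fun x => g x • f x) (c • a) := by
  have h := (Tn.smul hg (1 : D) : Tn B p l (fun x => g x • (1 : D)) (c • (1 : D))).mul hf
  simpa only [smul_mul_assoc, one_mul] using h

/-- The normalised element of the chart. -/
noncomputable def Zf (C : Cub K D) (x u : D) : D := (C.T ((x - 1) * u))⁻¹ • ((x - 1) * u)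

theorem Zf_eq (C : Cub K D) (x u : D) :
    Zf C x u = (C.T ((x - 1) * u) • (1 : D))⁻¹ * ((x - 1) * u) := by
  by_cases h : C.T ((x - 1) * u) = 0
  · rw [Zf, h, inv_zero, zero_smul, zero_smul, inv_zero, zero_mul]
  · have e : (C.T ((x - 1) * u) • (1 : D))⁻¹ = (C.T ((x - 1) * u))⁻¹ • (1 : D) := by
      apply inv_eq_of_mul_eq_one_right
      rw [smul_mul_smul_comm, mul_inv_cancel₀ h, one_smul, mul_one]
    rw [e, smul_mul_assoc, one_mul, Zf]

theorem tn_Zf (C : Cub K D) {f h : X → D} {x u : D} (hf : Tn B p l f x) (hh : Tn B p l h u)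
    (hT : C.T ((x - 1) * u) ≠ 0) : Tn B p l (fun t => Zf C (f t) (h t)) (Zf C x u) := by
  simp only [Zf_eq]
  have h1 : Tn B p l (fun t => (f t - 1) * h t) ((x - 1) * u) := (hf.sub (Tn.const 1)).mul hh
  exact ((tn_T C h1).inv (smul_ne_zero hT one_ne_zero)).mul h1

/-- the first chart element times `lam` -/
noncomputable def Gf (C : Cub K D) (lam : k) (x u : D) : D :=
  lam • Zf C x u + star (lam • Zf C x u) - lam • (1 : D)

/-- the second chart element times `lam` -/
noncomputable def Yf (C : Cub K D) (s : K) (lam : k) (x u : D) : D :=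
  s⁻¹ • (lam • Zf C x u - star (lam • Zf C x u))

theorem Chart.eqs (hS : Setting k K D d s) {C : Cub K D} {x u g y : D} (h : Chart C s x u g y)
    (lam : k) : lam • g = Gf C lam x u ∧ lam • y = Yf C s lam x u := by
  have hK := char0K hS
  have hs0 := s_ne_zero hS
  have e1 : (2 : K) • Zf C x u = 1 + g + s • y := h.eq
  have e2 : (2 : K) • star (Zf C x u) = 1 + g - s • y := by
    have := congrArg star e1
    rw [hS.star_smul, star_ofNat, star_add, star_add, star_one, h.hg, hS.star_smul, hS.star_s,
      h.hy, neg_smul, ← sub_eq_add_neg] at this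
    exact this
  have e3 : Zf C x u + star (Zf C x u) - 1 = g := by
    have h2 : (2 : K) • (Zf C x u + star (Zf C x u) - 1) = (2 : K) • g := by
      rw [smul_sub, smul_add, e1, e2]
      simp only [two_smul]
      abel
    exact (smul_right_injective D (two_ne_zero : (2 : K) ≠ 0)) h2
  have e4 : s⁻¹ • (Zf C x u - star (Zf C x u)) = y := by
    have h2 : (2 : K) • (Zf C x u - star (Zf C x u)) = (2 : K) • (s • y) := by
      rw [smul_sub, e1, e2]
      simp only [two_smul]
      abel
    have h3 := (smul_right_injective D (two_ne_zero : (2 : K) ≠ 0)) h2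
    change Zf C x u - star (Zf C x u) = s • y at h3
    rw [h3, smul_smul, inv_mul_cancel₀ hs0, one_smul]
  constructor
  · rw [Gf, star_smul_k hS]
    conv_lhs => rw [← e3]
    rw [smul_sub, smul_add]
  · rw [Yf, star_smul_k hS, ← smul_sub, smul_comm s⁻¹ lam, e4]

theorem tn_Gf (hS : Setting k K D d s) (C : Cub K D) {lam : k} {f h : X → D} {x u : D}
    (hf : Tn B p l f x) (hh : Tn B p l h u) (hT : C.T ((x - 1) * u) ≠ 0) :
    Tn B p l (fun t => Gf C lam (f t) (h t)) (Gf C lam x u) := by
  have h1 : Tn B p l (fun t => lam • Zf C (f t) (h t)) (lam • Zf C x u) := by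
    have := tn_smulK (algebraMap k K lam) (tn_Zf C hf hh hT)
    simpa only [algebraMap_smul] using this
  exact (h1.add (tn_star' hS h1)).sub (Tn.const _)

theorem tn_Yf (hS : Setting k K D d s) (C : Cub K D) {lam : k} {f h : X → D} {x u : D}
    (hf : Tn B p l f x) (hh : Tn B p l h u) (hT : C.T ((x - 1) * u) ≠ 0) :
    Tn B p l (fun t => Yf C s lam (f t) (h t)) (Yf C s lam x u) := by
  have h1 : Tn B p l (fun t => lam • Zf C (f t) (h t)) (lam • Zf C x u) := by
    have := tn_smulK (algebraMap k K lam) (tn_Zf C hf hh hT)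
    simpa only [algebraMap_smul] using this
  exact tn_smulK s⁻¹ (h1.sub (tn_star' hS h1))

end cont

end Vale.Agent.P011.H321.M8a
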