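import Vale.Agent.P011.H321.RhoB
import Vale.Agent.P011.H775.M3

/-!
The choice of a point of the parameter quadric near given local data.
-/

namespace Vale.Agent.P011.H321.Rho

open IsDedekindDomain HeightOneSpectrum NumberField WithZero QuadraticMap Module
open Vale.Agent.P011.H775


section e2

variable {k F : Type} [Field k] [CharZero k] [Field F] [Algebra k F]

theorem exists_three (h3 : finrank k F = 3) : ∃ σ : Fin 3 → (F →ₐ[k] AlgebraicClosure k),
    ∀ x : F, algebraMap k (AlgebraicClosure k) (Algebra.trace k F x) = σ 0 x + σ 1 x + σ 2 x := by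
  have : FiniteDimensional k F := FiniteDimensional.of_finrank_pos (by rw [h3]; norm_num)
  have hcard : Fintype.card (F →ₐ[k] AlgebraicClosure k) = 3 := by
    rw [AlgHom.card, h3]
  let e := (Fintype.equivFinOfCardEq hcard).symm
  refine ⟨e, fun x => ?_⟩
  rw [trace_eq_sum_embeddings (AlgebraicClosure k), ← e.sum_comp, Fin.sum_univ_three]

theorem e2p_self (t : F) : e2p k t t = 2 * e2 k t := by
  rw [e2p, e2, pow_two]
  field_simp

theorem e2_sh (h3 : finrank k F = 3) {a : F} (ha : Algebra.trace k F a = 0) :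
    e2 k (sh k a) = 0 := by
  obtain ⟨σ, hσ⟩ := exists_three h3
  apply (algebraMap k (AlgebraicClosure k)).injective
  have h1 : σ 0 a + σ 1 a + σ 2 a = 0 := by rw [← hσ, ha, map_zero]
  have h2 : σ 2 a = -(σ 0 a + σ 1 a) := by linear_combination h1
  simp only [e2, sh, ha, map_zero, zero_mul, sub_zero, map_div₀, map_sub, map_pow, hσ, map_add,
    map_mul, AlgHom.commutes, map_ofNat, h2]
  have h20 : (2 : AlgebraicClosure k) ≠ 0 := two_ne_zero
  field_simp
  ring

theorem e2p_sh (h3 : finrank k F = 3) {a b : F} (ha : Algebra.trace k F a = 0)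
    (hb : Algebra.trace k F b = 0) : e2p k (sh k a) (sh k b) = D0 k a b := by
  obtain ⟨σ, hσ⟩ := exists_three h3
  apply (algebraMap k (AlgebraicClosure k)).injective
  have h1 : σ 0 a + σ 1 a + σ 2 a = 0 := by rw [← hσ, ha, map_zero]
  have h2 : σ 2 a = -(σ 0 a + σ 1 a) := by linear_combination h1
  have h1' : σ 0 b + σ 1 b + σ 2 b = 0 := by rw [← hσ, hb, map_zero]
  have h2' : σ 2 b = -(σ 0 b + σ 1 b) := by linear_combination h1'
  simp only [e2p, e2, D0, sh, ha, hb, map_zero, zero_mul, sub_zero, map_div₀, map_sub, map_pow,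
    hσ, map_add, map_mul, AlgHom.commutes, map_ofNat, h2, h2']
  have h20 : (2 : AlgebraicClosure k) ≠ 0 := two_ne_zero
  have h30 : (3 : AlgebraicClosure k) ≠ 0 := three_ne_zero
  field_simp
  ring

/-- A vector orthogonal to both points at infinity. -/
theorem exists_orth (h3 : finrank k F = 3) {a b : F} (ha : Algebra.trace k F a = 0)
    (hb : Algebra.trace k F b = 0) (h0 : D0 k a b ≠ 0) :
    ∃ c : F, e2p k (sh k a) c = 0 ∧ e2p k (sh k b) c = 0 ∧ e2 k c ≠ 0 := by
  obtain ⟨σ, hσ⟩ := exists_three h3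
  have h1 : σ 0 a + σ 1 a + σ 2 a = 0 := by rw [← hσ, ha, map_zero]
  have h2 : σ 2 a = -(σ 0 a + σ 1 a) := by linear_combination h1
  have h1' : σ 0 b + σ 1 b + σ 2 b = 0 := by rw [← hσ, hb, map_zero]
  have h2' : σ 2 b = -(σ 0 b + σ 1 b) := by linear_combination h1'
  have h20 : (2 : AlgebraicClosure k) ≠ 0 := two_ne_zero
  have h30 : (3 : AlgebraicClosure k) ≠ 0 := three_ne_zero
  have hab : Algebra.trace k F (a + b) = 0 := by rw [map_add, ha, hb, add_zero]
  refine ⟨sh k (a + b) - sh k a - sh k b, ?_, ?_, fun h => h0 ?_⟩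
  · apply (algebraMap k (AlgebraicClosure k)).injective
    simp only [e2p, e2, sh, ha, hb, hab, map_zero, zero_mul, sub_zero, map_div₀, map_sub, map_pow,
      hσ, map_add, map_mul, AlgHom.commutes, map_ofNat, h2, h2']
    field_simp
    ring
  · apply (algebraMap k (AlgebraicClosure k)).injective
    simp only [e2p, e2, sh, ha, hb, hab, map_zero, zero_mul, sub_zero, map_div₀, map_sub, map_pow,
      hσ, map_add, map_mul, AlgHom.commutes, map_ofNat, h2, h2']
    field_simp
    ring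
  · have h4 : e2 k (sh k (a + b) - sh k a - sh k b) = - D0 k a b := by
      apply (algebraMap k (AlgebraicClosure k)).injective
      simp only [e2, D0, sh, ha, hb, hab, map_zero, zero_mul, sub_zero, map_div₀, map_sub,
        map_pow, map_neg, hσ, map_add, map_mul, AlgHom.commutes, map_ofNat, h2, h2']
      field_simp
      ring
    rw [h4, neg_eq_zero] at h
    exact h

theorem sh_ne_zero_of_D0 (h3 : finrank k F = 3) {a b : F} (ha : Algebra.trace k F a = 0)
    (hb : Algebra.trace k F b = 0) (h0 : D0 k a b ≠ 0) : sh k b ≠ 0 := by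
  intro h
  apply h0
  rw [← e2p_sh h3 ha hb, h, e2p]
  simp

end e2

section main

variable {k F : Type} [Field k] [NumberField k] [Field F] [Algebra k F]

theorem polar_inf (Q : QuadraticForm k (F × k)) {c₁ : k} (hQ : ∀ t, Q (t, 0) = c₁ * e2 k t)
    (t u : F) : polar Q (t, 0) (u, 0) = c₁ * e2p k t u := by
  rw [polar, Prod.mk_add_mk, add_zero, hQ, hQ, hQ, e2, e2, e2, e2p]
  simp only [map_add, add_mul, mul_add, pow_two]
  rw [mul_comm u t]
  field_simp
  ring

/-- **The choice of the first point of the conic.**  `Q` is a quadratic form on `F × k` whose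
restriction to `x₀ = 0` is `c₁ e₂`; there is a zero `ρ` of `Q` near given approximate zeros at
finitely many primes, with `al ρ₁² + be ρ₂² ≠ 0` and not orthogonal to the point at infinity. -/
theorem exists_rho (h3 : finrank k F = 3) (Q : QuadraticForm k (F × k)) {c₁ : k} (hc₁ : c₁ ≠ 0)
    (hQ : ∀ t, Q (t, 0) = c₁ * e2 k t) {a b : F} (ha : Algebra.trace k F a = 0)
    (hb : Algebra.trace k F b = 0) (h0 : D0 k a b ≠ 0) {al : F} (hal : al ≠ 0) (be : F)
    {ι : Type} [Fintype ι] (B : Basis ι k (F × k)) (T : Finset (HeightOneSpectrum (𝓞 k)))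
    (z y : HeightOneSpectrum (𝓞 k) → F × k) (hP : ∀ v ∈ T, polar Q (z v) (y v) ≠ 0)
    (hN : ∀ v ∈ T, v.valuation k (Q (z v) * Q (y v)) < v.valuation k (polar Q (z v) (y v)) ^ 2)
    (γ : HeightOneSpectrum (𝓞 k) → ℤᵐ⁰) (hγ : ∀ v ∈ T, γ v ≠ 0) :
    ∃ ρ : F × k, Q ρ = 0 ∧ (∀ v ∈ T, ∃ s : k,
      v.valuation k s ≤ v.valuation k (Q (z v) / polar Q (z v) (y v)) ∧
      ∀ i, v.valuation k (B.repr (ρ - z v - s • y v) i) < γ v) ∧
      al * ρ.1 ^ 2 + be * algebraMap k F ρ.2 ^ 2 ≠ 0 ∧ polar Q ρ (sh k a, 0) ≠ 0 := by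
  classical
  have hfd : FiniteDimensional k F := FiniteDimensional.of_finrank_pos (by rw [h3]; norm_num)
  have hp : Q (sh k a, 0) = 0 := by rw [hQ, e2_sh h3 ha, mul_zero]
  have hq : Q (sh k b, 0) = 0 := by rw [hQ, e2_sh h3 hb, mul_zero]
  have hpq : polar Q (sh k a, 0) (sh k b, 0) ≠ 0 := by
    rw [polar_inf Q hQ, e2p_sh h3 ha hb]
    exact mul_ne_zero hc₁ h0
  obtain ⟨c, hc1, -, hc3⟩ := exists_orth h3 ha hb h0
  have hp2 : ∃ y, polar Q (sh k a, 0) y = 0 ∧ Q y ≠ 0 :=
    ⟨(c, 0), by rw [polar_inf Q hQ, hc1, mul_zero], by rw [hQ]; exact mul_ne_zero hc₁ hc3⟩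
  -- the polynomial to be avoided
  obtain ⟨m, hm⟩ : ∃ m : F →ₗ[k] k, m (al * sh k b ^ 2) ≠ 0 := by
    have h1 : al * sh k b ^ 2 ≠ 0 := mul_ne_zero hal (pow_ne_zero 2 (sh_ne_zero_of_D0 h3 ha hb h0))
    by_contra hcon
    push Not at hcon
    exact h1 ((Module.forall_dual_apply_eq_zero_iff k _).mp hcon)
  set X : ι → MvPolynomial ι k := MvPolynomial.X with hX
  let g : MvPolynomial ι k := ∑ i, ∑ j, MvPolynomial.C
    (m (al * ((B i).1 * (B j).1) + be * algebraMap k F ((B i).2 * (B j).2))) * (X i * X j)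
  let h : MvPolynomial ι k := ∑ i, MvPolynomial.C (polar Q (B i) (sh k a, 0)) * X i
  have hg : ∀ ρ : F × k, MvPolynomial.eval (B.repr ρ) g =
      m (al * ρ.1 ^ 2 + be * algebraMap k F ρ.2 ^ 2) := by
    intro ρ
    have e1 : ρ.1 = ∑ i, B.repr ρ i • (B i).1 := by
      conv_lhs => rw [← B.sum_repr ρ]
      rw [Prod.fst_sum]
      rfl
    have e2' : ρ.2 = ∑ i, B.repr ρ i • (B i).2 := by
      conv_lhs => rw [← B.sum_repr ρ]
      rw [Prod.snd_sum]
      rfl
    have e3 : al * ρ.1 ^ 2 + be * algebraMap k F ρ.2 ^ 2 = ∑ i, ∑ j,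
        (B.repr ρ i * B.repr ρ j) •
          (al * ((B i).1 * (B j).1) + be * algebraMap k F ((B i).2 * (B j).2)) := by
      conv_lhs => rw [e1, e2', map_sum, pow_two, pow_two, Finset.sum_mul_sum, Finset.sum_mul_sum,
        Finset.mul_sum, Finset.mul_sum, ← Finset.sum_add_distrib]
      refine Finset.sum_congr rfl fun i _ => ?_
      rw [Finset.mul_sum, Finset.mul_sum, ← Finset.sum_add_distrib]
      refine Finset.sum_congr rfl fun j _ => ?_
      simp only [Algebra.smul_def, map_mul, Algebra.algebraMap_self, RingHom.id_apply]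
      ring
    rw [e3, map_sum, map_sum]
    refine Finset.sum_congr rfl fun i _ => ?_
    rw [map_sum, map_sum]
    refine Finset.sum_congr rfl fun j _ => ?_
    rw [map_smul, smul_eq_mul, (MvPolynomial.eval (B.repr ρ)).map_mul,
      (MvPolynomial.eval (B.repr ρ)).map_mul, MvPolynomial.eval_C, hX, MvPolynomial.eval_X,
      MvPolynomial.eval_X]
    ring
  have hh : ∀ ρ : F × k, MvPolynomial.eval (B.repr ρ) h = polar Q ρ (sh k a, 0) := by
    intro ρ
    have e1 : polar Q ρ (sh k a, 0) = Q.polarBilin.flip (sh k a, 0) ρ := rfl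
    have e4 : ∀ i, polar Q (B i) (sh k a, 0) = Q.polarBilin.flip (sh k a, 0) (B i) :=
      fun i => rfl
    rw [e1]
    conv_rhs => rw [← B.sum_repr ρ]
    rw [map_sum, map_sum]
    refine Finset.sum_congr rfl fun i _ => ?_
    rw [map_smul, smul_eq_mul, map_mul, MvPolynomial.eval_C, hX, MvPolynomial.eval_X, e4]
    ring
  obtain ⟨ρ, hρ, hρ1, hρ2⟩ := exists_zero_near Q B hp ⟨_, hpq⟩ hp2 T z y hP hN γ hγ (g * h)
    hq ⟨(sh k a, 0), by rw [QuadraticMap.polar_comm]; exact hpq⟩ (by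
      rw [map_mul, hg, hh]
      refine mul_ne_zero ?_ (by rw [QuadraticMap.polar_comm]; exact hpq)
      simpa using hm)
  rw [map_mul, hg, hh, mul_ne_zero_iff] at hρ2
  refine ⟨ρ, hρ, hρ1, fun h5 => hρ2.1 (by rw [h5, map_zero]), hρ2.2⟩

end main

end Vale.Agent.P011.H321.Rho
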