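import Vale.Agent.P011.H321.WaR
import Vale.Agent.P011.H321.NdV0
import Vale.Agent.P011.H511.ExR

/-!
# The isotropic element `r` near local data
-/

set_option linter.unusedSectionVars false

open Module NumberField IsDedekindDomain QuadraticMap

namespace Vale.Agent.P011.H321.WaR

open Vale.Agent.P011.Arith Vale.Agent.P011.Even Vale.Agent.P011.H511 Vale.Agent.P011.H775
  Vale.Agent.P011.H948

variable {k K D : Type} [Field k] [NumberField k] [Field K] [StarRing K]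
  [DivisionRing D] [StarRing D] [Algebra k K] [Algebra k D] [Algebra K D] [IsScalarTower k K D]
  {d : kˣ} {s : K} {N : ℕ}

/-- The form `qV` is non-degenerate. -/
theorem qV_nondeg (hS : Setting k K D d s) (hdeg : finrank K D = 3 ^ 2) (C : Cub K D) {g : D}
    (hg : star g = g) (hgc : ∀ c : K, g ≠ c • (1 : D)) (r : V0 hS C g) (hr : r ≠ 0) :
    ∃ r', polar (qV hS C g) r r' ≠ 0 := by
  obtain ⟨r', h1, h2, h3, h4, h5⟩ := NdV0.nondeg hS hdeg C hg hgc r.2.1
    (fun h0 => hr (Subtype.ext h0)) r.2.2.1 r.2.2.2.1 r.2.2.2.2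
  refine ⟨⟨r', h1, h2, h3, h4⟩, fun h0 => h5 ?_⟩
  have h6 := qV_polar_eq hS hdeg C hg r ⟨r', h1, h2, h3, h4⟩
  rw [h0, map_zero] at h6
  exact h6.symm

/-- **The isotropic element `r` near local data**: the output of the existence theorem moved by
weak approximation on the quadric. -/
theorem exists_r_near (hS : Setting k K D d s) (hdeg : finrank K D = 3 ^ 2) (C : Cub K D)
    (B : Basis (Fin N) k D) {g : D} (hg : star g = g) (hgc : ∀ c : K, g ≠ c • (1 : D))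
    (hr : ∀ φ : k →+* ℝ, RealOK C φ g) {T : Set (HeightOneSpectrum (𝓞 k))} (hT : T.Finite)
    (z y : HeightOneSpectrum (𝓞 k) → V0 hS C g)
    (hP : ∀ v ∈ T, polar (qV hS C g) (z v) (y v) ≠ 0)
    (hN : ∀ v ∈ T, v.valuation k (qV hS C g (z v) * qV hS C g (y v)) <
      v.valuation k (polar (qV hS C g) (z v) (y v)) ^ 2)
    (ε : HeightOneSpectrum (𝓞 k) → ℝ) (hε : ∀ v ∈ T, 0 < ε v) :
    ∃ r : V0 hS C g, r ≠ 0 ∧ qV hS C g r = 0 ∧ ∀ v ∈ T, ∃ t : k,
      v.valuation k t ≤ v.valuation k (qV hS C g (z v) / polar (qV hS C g) (z v) (y v)) ∧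
      nm B (Sum.inl v) ((r : D) - z v - t • (y v : D)) < ε v := by
  have h3 : FiniteDimensional k D := finite_kD hS
  obtain ⟨r, hr0, h1⟩ := exists_r hS hdeg C hg hr
  have hr' : qV hS C g ⟨r, h1.1, h1.2.1, h1.2.2.1, h1.2.2.2.1⟩ = 0 := by
    apply (algebraMap k K).injective
    rw [qV_apply hS hdeg C hg]
    exact h1.2.2.2.2
  obtain ⟨ρ, hρ0, hρ, h⟩ := exists_zero_nm B (qV hS C g) (V0 hS C g).subtype
    (qV_nondeg hS hdeg C hg hgc) ((by norm_num : 3 ≤ 6).trans (finrank_V0 hS hdeg C hg))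
    (p := ⟨r, h1.1, h1.2.1, h1.2.2.1, h1.2.2.2.1⟩) (fun h0 => hr0 (congrArg Subtype.val h0)) hr'
    hT z y hP hN ε hε
  refine ⟨ρ, hρ0, hρ, fun v hv => ?_⟩
  obtain ⟨t, ht, h'⟩ := h v hv
  refine ⟨t, ht, ?_⟩
  rwa [map_sub, map_sub, map_smul] at h'

end Vale.Agent.P011.H321.WaR
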