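import Vale.Agent.P011.H321.DatS
import Vale.Agent.P011.H321.WaR2
import Vale.Agent.P011.H321.RhoC
import Vale.Agent.P011.H182.WAU

/-!
# Assembly of Part I: a `k`-point of `X_x`
-/

set_option linter.unusedSectionVars false

open Module NumberField IsDedekindDomain QuadraticMap

namespace Vale.Agent.P011.H321.PartI

open Vale.Agent.P011.Arith Vale.Agent.P011.Even Vale.Agent.P011.H511 Vale.Agent.P011.H775
  Vale.Agent.P011.H948 Vale.Agent.P011.H321.DatS

variable {k K D : Type} [Field k] [NumberField k] [Field K] [StarRing K]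
  [DivisionRing D] [StarRing D] [Algebra k K] [Algebra k D] [Algebra K D] [IsScalarTower k K D]
  {d : kˣ} {s : K} {N : ℕ}

/-- `(g, y)` are the chart data of `(x, u)`. -/
structure Chart (C : Cub K D) (s : K) (x u g y : D) : Prop where
  hg : star g = g
  hy : star y = y
  Tg : C.T g = -1
  Ty : C.T y = 0
  eq : (2 : K) • ((C.T ((x - 1) * u))⁻¹ • ((x - 1) * u)) = 1 + g + s • y

/-- `M` is the chart attached to `g, y, r`. -/
structure Adm [FiniteDimensional K D] [Algebra.IsCentral K D] {F : Type} [Field F]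
    [Algebra k F] [FiniteDimensional k F] [Algebra.IsSeparable k F] {C : Cub K D}
    {φ : F →ₐ[k] D} (d : kˣ) (s : K) (g y r : D) (σ : F) (M : Dat C φ) : Prop where
  hF : finrank k F = 3
  hσ : φ σ = r * (pp g)⁻¹
  tr : Algebra.trace k F σ = 0
  a : M.a = σ
  b : M.b = bb k σ
  p : M.p = pp g
  g : M.g = g
  y : M.y = y
  δ : M.δ = s
  d : M.d = (d : k)

/-- The two input points: `rho` is a good point of the parameter quadric of `M`. -/
structure Rho [FiniteDimensional K D] [Algebra.IsCentral K D] {F : Type} [Field F]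
    [Algebra k F] [FiniteDimensional k F] [Algebra.IsSeparable k F] {C : Cub K D}
    {φ : F →ₐ[k] D} (M : Dat C φ) (z : F × k) : Prop where
  Q : M.Q z = 0
  pol : polar M.Q z (sh k M.a, 0) ≠ 0
  A : M.A z ≠ 0

/-- The statement at the finite places where `D` ramifies. -/
def M8 (hS : Setting k K D d s) (C : Cub K D) (B : Basis (Fin N) k D)
    (Td P1 : Set (HeightOneSpectrum (𝓞 k)))
    (G : ∀ (F : Type) [Field F] [NumberField F] [Algebra k F],
      HeightOneSpectrum (𝓞 k) → F → k → Prop) (x0 : D) : Prop :=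
  ∃ u1 : D, u1 * star u1 = 1 ∧ ∃ ε : ℝ, 0 < ε ∧ ∀ x u : D, x * star x = 1 → u * star u = 1 →
    (∀ v ∈ P1, nm B (Sum.inl v) (x - x0) < ε) → (∀ v ∈ P1, nm B (Sum.inl v) (u - u1) < ε) →
    C.T ((x - 1) * u) ≠ 0 ∧ ∀ g y : D, Chart C s x u g y →
      (∀ c : K, g ≠ c • (1 : D)) ∧ 3 * C.S g ≠ 1 ∧ (Td.Nonempty →
      ∃ z1 y1 : V0 hS C g, (∀ v ∈ Td, polar (qV hS C g) z1 y1 ≠ 0 ∧
        v.valuation k (qV hS C g z1 * qV hS C g y1) <
          v.valuation k (polar (qV hS C g) z1 y1) ^ 2) ∧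
      ∃ ε' : ℝ, 0 < ε' ∧ ∀ r : V0 hS C g, qV hS C g r = 0 → (∀ v ∈ Td, ∃ t : k,
        v.valuation k t ≤ v.valuation k (qV hS C g z1 / polar (qV hS C g) z1 y1) ∧
        nm B (Sum.inl v) ((r : D) - z1 - t • (y1 : D)) < ε') →
      ∀ (F : Type) [Field F] [NumberField F] [Algebra k F] (φ : F →ₐ[k] D) (σ : F)
        [FiniteDimensional K D] [Algebra.IsCentral K D] (M : Dat C φ),
        Adm d s g y (r : D) σ M → ∃ z : F × k, Rho M z ∧ ∀ v ∈ Td, G F v (M.A z) (M.G z))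

/-- The statement at the real places. -/
def M4 (C : Cub K D) (B : Basis (Fin N) k D) (s : K) (x0 : D) : Prop :=
  ∃ u0 : D, u0 * star u0 = 1 ∧ ∃ ε : ℝ, 0 < ε ∧ ∀ x u : D, x * star x = 1 → u * star u = 1 →
    (∀ φ : k →+* ℝ, nm B (Sum.inr φ) (x - x0) < ε) →
    (∀ φ : k →+* ℝ, nm B (Sum.inr φ) (u - u0) < ε) → C.T ((x - 1) * u) ≠ 0 →
    ∀ g y : D, Chart C s x u g y → (∀ c : K, g ≠ c • (1 : D)) → ∀ φ : k →+* ℝ, RealOK C φ g

/-- The Skolem step. -/
def M10 (C : Cub K D) (d : kˣ) (s : K) (Td : Set (HeightOneSpectrum (𝓞 k)))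
    (G : ∀ (F : Type) [Field F] [NumberField F] [Algebra k F],
      HeightOneSpectrum (𝓞 k) → F → k → Prop) : Prop :=
  ∀ (F : Type) [Field F] [NumberField F] [Algebra k F] (φ : F →ₐ[k] D)
    [FiniteDimensional K D] [Algebra.IsCentral K D] (M : Dat C φ), finrank k F = 3 →
    M.δ = s → M.d = (d : k) → ∀ z : F × k, Rho M z → (∀ v ∈ Td, G F v (M.A z) (M.G z)) →
    ∃ z : F × k, z ≠ 0 ∧ M.Q z = 0 ∧ ∃ e : F,
      Algebra.norm k e + Algebra.trace k F (e * M.A z) + M.G z = 0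

/-- **Part I from its pieces.** -/
theorem partI_of (hS : Setting k K D d s) (hdeg : finrank K D = 3 ^ 2) (C : Cub K D)
    (B : Basis (Fin N) k D) {Td P1 : Set (HeightOneSpectrum (𝓞 k))} (hP1 : P1.Finite)
    (hTd : Td ⊆ P1)
    {G : ∀ (F : Type) [Field F] [NumberField F] [Algebra k F],
      HeightOneSpectrum (𝓞 k) → F → k → Prop} {x0 : D}
    (h8 : M8 hS C B Td P1 G x0) (h4 : M4 C B s x0) (h10 : M10 C d s Td G) :
    ∃ ε : ℝ, 0 < ε ∧ ∀ x : D, x * star x = 1 →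
      (∀ v ∈ P1, nm B (Sum.inl v) (x - x0) < ε) →
      (∀ φ : k →+* ℝ, nm B (Sum.inr φ) (x - x0) < ε) →
      ∃ w : D, w * star w = 1 ∧ C.T ((x - 1) * w) = 0 := by
  classical
  obtain ⟨u1, hu1, ε1, hε1, h8⟩ := h8
  obtain ⟨u0, hu0, ε0, hε0, h4⟩ := h4
  refine ⟨min ε1 ε0, lt_min hε1 hε0, ?_⟩
  intro x hx hxP hxR
  -- the element `u`
  obtain ⟨u, hu, huP⟩ := H182.wa_unitary (B := B) hS
    (P := (Sum.inl '' P1) ∪ Set.range (Sum.inr : (k →+* ℝ) → Pl k))
    ((hP1.image _).union (Set.finite_range _))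
    (u := fun p => Sum.elim (fun _ => u1) (fun _ => u0) p)
    (by
      rintro p -
      cases p with
      | inl v => exact hu1
      | inr φ => exact hu0)
    (ε := fun _ => min ε1 ε0) (fun _ => lt_min hε1 hε0)
  have huP1 : ∀ v ∈ P1, nm B (Sum.inl v) (u - u1) < ε1 := fun v hv =>
    (huP (Sum.inl v) (Or.inl ⟨v, hv, rfl⟩)).trans_le (min_le_left _ _)
  have huR : ∀ φ : k →+* ℝ, nm B (Sum.inr φ) (u - u0) < ε0 := fun φ =>
    (huP (Sum.inr φ) (Or.inr ⟨φ, rfl⟩)).trans_le (min_le_right _ _)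
  obtain ⟨hT, h8⟩ := h8 x u hx hu (fun v hv => (hxP v hv).trans_le (min_le_left _ _)) huP1
  obtain ⟨g, y, hg, hy, hTg, hTy, h2, hM⟩ := exists_dat_sigma hS hdeg C hu hT
  have hch : Chart C s x u g y := ⟨hg, hy, hTg, hTy, h2⟩
  obtain ⟨hgc, hSg, h8⟩ := h8 g y hch
  have hreal := h4 x u hx hu (fun φ => (hxR φ).trans_le (min_le_right _ _)) huR hT g y hch hgc
  by_cases hne : Td.Nonempty
  · obtain ⟨z1, y1, h1, ε', hε', h8⟩ := h8 hne
    obtain ⟨r, hr0, hr, hrT⟩ := WaR.exists_r_near hS hdeg C B hg hgc hreal (hP1.subset hTd)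
      (fun _ => z1) (fun _ => y1) (fun v hv => (h1 v hv).1) (fun v hv => (h1 v hv).2)
      (fun _ => ε') (fun _ _ => hε')
    have hr4 : C.T (g * pp g * pp g * C.adj (r : D)) = 0 := by
      rw [← qV_apply hS hdeg C hg, hr, map_zero]
    obtain ⟨F, _, _, _, φ, σ, _, _, M, hF, hσ, htr, ha, hb, hp, hg', hy', hδ, hd, hw⟩ :=
      hM r hgc hSg r.2.1 (fun h0 => hr0 (Subtype.ext h0)) r.2.2.1 r.2.2.2.1 r.2.2.2.2 hr4
    obtain ⟨z, hz, hzT⟩ := h8 r hr hrT F φ σ M ⟨hF, hσ, htr, ha, hb, hp, hg', hy', hδ, hd⟩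
    obtain ⟨z', hz0, hQ, e, he⟩ := h10 F φ M hF hδ hd z hz hzT
    exact hw z' hz0 hQ e he
  · obtain ⟨r, hr0, hr⟩ := exists_r hS hdeg C hg hreal
    obtain ⟨F, _, _, _, φ, σ, _, _, M, hF, hσ, htr, ha, hb, hp, hg', hy', hδ, hd, hw⟩ :=
      hM r hgc hSg hr.1 hr0 hr.2.1 hr.2.2.1 hr.2.2.2.1 (by rw [hr.2.2.2.2, map_zero])
    -- any good point
    have hc₁ : M.c₁ ≠ 0 := by
      rw [Dat.c₁]
      refine mul_ne_zero (mul_ne_zero M.d0 M.D00) ?_
      intro h1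
      have h2 := M.H.rk_eq M.star_N_h
      rw [h1, map_zero] at h2
      have h3 : M.h ≠ 0 := by
        intro h4
        apply M.prh0
        change pr C φ (C.adj M.h) = 0
        rw [h4, C.adj_zero, map_zero]
      exact C.N_ne_zero h3 h2.symm
    have hfd : FiniteDimensional k F := FiniteDimensional.of_finrank_pos (by rw [hF]; norm_num)
    obtain ⟨ρ, hρ, -, hρA, hρp⟩ := Rho.exists_rho hF M.Q hc₁
      (fun t => by rw [M.Q_apply]; simp) M.ha M.hb M.D00 M.al_ne_zero M.be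
      (finBasis k (F × k)) ∅ (fun _ => 0) (fun _ => 0) (by simp) (by simp) (fun _ => 1) (by simp)
    obtain ⟨z', hz0, hQ, e, he⟩ := h10 F φ M hF hδ hd ρ
      ⟨hρ, hρp, by rw [Dat.A, map_pow]; exact hρA⟩
      (fun v hv => absurd ⟨v, hv⟩ hne)
    exact hw z' hz0 hQ e he

end Vale.Agent.P011.H321.PartI
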