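import Vale.Agent.P011.H321.NdV0

/-!
# The chart data with the twist taken from the isotropic element

The data of `exists_dat_of_chart` with `a = σ`, `b = σ ^ 2 - trace (σ ^ 2) / 3`, where
`φ σ = r (pp g)⁻¹`.
-/

set_option linter.unusedSectionVars false

open Module Polynomial Matrix

namespace Vale.Agent.P011.H321.DatS

open Vale.Agent.P011.H948 Vale.Agent.P011.H775 Vale.Agent.P011.H321.NdV0

variable {k K D : Type} [Field k] [NumberField k] [Field K] [StarRing K]
    [DivisionRing D] [StarRing D] [Algebra k K] [Algebra k D] [Algebra K D] [IsScalarTower k K D]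

/-- The element `r p⁻¹` has trace zero. -/
theorem T_mul_inv_pp {d : kˣ} {s : K} (hS : Even.Setting k K D d s)
    (hdeg : finrank K D = 3 ^ 2) (C : Cub K D) {g : D} (hg : star g = g)
    (hgc : ∀ c : K, g ≠ c • (1 : D)) {r : D} (hr : star r = r) (h1 : C.T r = 0)
    (h2 : C.T (g * r) = 0) (h3 : C.T (g * g * r) = 0) : C.T (r * (pp g)⁻¹) = 0 := by
  obtain ⟨E, _, _, _, φ, σ, _, _, hσ, H, hsp⟩ := exists_cfd hS hdeg C hg hgc
  have hr' := (inV_iff H hσ hsp hr).2 ⟨h1, h2, h3⟩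
  have e : φ (3 + σ⁻¹)⁻¹ = (pp g)⁻¹ := by
    rw [map_inv₀, map_add, map_inv₀, hσ, map_ofNat, pp]
  rw [C.T_comm, ← e, H.T_mul_pr hr'.sy, hr'.pr0, mul_zero, map_zero, map_zero]

section tc

variable {F Ω : Type} [Field F] [Algebra k F] [Field Ω] [Algebra K Ω] {C : Cub K D}
  {φ : F →ₐ[k] D} (S : DSpl C φ Ω)

/-- The second vector of the twist. -/
noncomputable def bb (k : Type) {F : Type} [Field k] [Field F] [Algebra k F] (σ : F) : F :=
  σ ^ 2 - algebraMap k F (Algebra.trace k F (σ ^ 2) / 3)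

theorem trace_bb (hF : finrank k F = 3) (σ : F) : Algebra.trace k F (bb k σ) = 0 := by
  rw [bb, map_sub, Algebra.trace_algebraMap, hF, nsmul_eq_mul]
  push_cast
  field_simp
  ring

include S in
theorem D0_ne_zero (hF : finrank k F = 3) {σ : F} (hσ : Algebra.trace k F σ = 0)
    (hsp : ∀ x : F, ∃ a b c : k, x = algebraMap k F a + algebraMap k F b * σ +
        algebraMap k F c * σ ^ 2) : D0 k σ (bb k σ) ≠ 0 := by
  intro h0
  have h1 := S.tc_sq (k := k) three_ne_zero hσ (trace_bb hF σ)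
  rw [h0, map_zero, map_zero] at h1
  have h2 : S.tc σ (bb k σ) = 0 := pow_eq_zero_iff two_ne_zero |>.1 h1
  have h3 : (3 : Ω) ≠ 0 := by
    have h := (_root_.map_ne_zero ((algebraMap K Ω).comp (algebraMap k K))).2
      (three_ne_zero : (3 : k) ≠ 0)
    rwa [map_ofNat] at h
  have hne : ∀ i j, i ≠ j → S.σ i σ ≠ S.σ j σ := by
    intro i j hij h
    apply hij
    apply S.σinj
    ext x
    obtain ⟨a, b, c, rfl⟩ := hsp x
    simp only [map_add, map_mul, map_pow, S.base, h]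
  have ht := S.trace_eq σ
  rw [hσ, map_zero, map_zero] at ht
  have e2 : S.σ 2 σ = -(S.σ 0 σ + S.σ 1 σ) := by linear_combination -ht
  have hb : ∀ i, S.σ i (bb k σ) = S.σ i σ ^ 2 -
      (S.σ 0 σ ^ 2 + S.σ 1 σ ^ 2 + S.σ 2 σ ^ 2) / 3 := by
    intro i
    rw [bb, map_sub, map_pow, S.base, map_div₀, map_div₀, S.trace_eq, map_ofNat, map_ofNat,
      map_pow, map_pow, map_pow]
  have e3 : S.tc σ (bb k σ) = (S.σ 1 σ - S.σ 0 σ) * (S.σ 0 σ - S.σ 2 σ) *
      (S.σ 1 σ - S.σ 2 σ) / 3 := by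
    rw [DSpl.tc, hb, hb, e2]
    field_simp
    ring
  rw [e3] at h2
  have h4 := hne 1 0 (by decide)
  have h5 := hne 0 2 (by decide)
  have h6 := hne 1 2 (by decide)
  exact (div_ne_zero (mul_ne_zero (mul_ne_zero (sub_ne_zero.2 h4) (sub_ne_zero.2 h5))
    (sub_ne_zero.2 h6)) h3) h2

end tc

/-- **The chart attached to a unitary element and an isotropic element**, with the twist given by
the isotropic element. -/
theorem exists_dat_sigma {d : kˣ} {s : K} (hS : Even.Setting k K D d s)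
    (hdeg : finrank K D = 3 ^ 2) (C : Cub K D) {x u : D} (hu : u * star u = 1)
    (hT : C.T ((x - 1) * u) ≠ 0) :
    ∃ g y : D, star g = g ∧ star y = y ∧ C.T g = -1 ∧ C.T y = 0 ∧
      (2 : K) • ((C.T ((x - 1) * u))⁻¹ • ((x - 1) * u)) = 1 + g + s • y ∧
      ∀ r : D, (∀ c : K, g ≠ c • (1 : D)) → 3 * C.S g ≠ 1 → star r = r → r ≠ 0 → C.T r = 0 →
        C.T (g * r) = 0 → C.T (g * g * r) = 0 → C.T (g * pp g * pp g * C.adj r) = 0 →
        ∃ (F : Type) (_ : Field F) (_ : NumberField F) (_ : Algebra k F) (φ : F →ₐ[k] D)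
          (σ : F) (_ : FiniteDimensional K D) (_ : Algebra.IsCentral K D) (M : Dat C φ),
          finrank k F = 3 ∧ φ σ = r * (pp g)⁻¹ ∧ Algebra.trace k F σ = 0 ∧
          M.a = σ ∧ M.b = bb k σ ∧
          M.p = pp g ∧ M.g = g ∧ M.y = y ∧ M.δ = s ∧ M.d = (d : k) ∧
          ∀ z : F × k, z ≠ 0 → M.Q z = 0 → ∀ e : F,
            Algebra.norm k e + Algebra.trace k F (e * M.A z) + M.G z = 0 →
            ∃ w : D, w * star w = 1 ∧ C.T ((x - 1) * w) = 0 := by
  have := hS.fin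
  have := hS.cen
  have hk0 : CharZero K := charZero_of_injective_algebraMap (algebraMap k K).injective
  have h20 : (2 : K) ≠ 0 := by norm_num
  have h30 : (3 : K) ≠ 0 := by norm_num
  have hC := sCub_of C hdeg hS.star_smul
  have hs0 : s ≠ 0 := by
    intro h0
    have h := hS.sq
    rw [h0, zero_pow (by norm_num)] at h
    exact (_root_.map_ne_zero (algebraMap k K)).2 d.ne_zero h.symm
  obtain ⟨g, y, hg, hy, hTg, hTy, h2, hw⟩ := hC.exists_chart h20 hs0 hS.star_s hS.sq hu hT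
  refine ⟨g, y, hg, hy, hTg, hTy, h2, ?_⟩
  intro r hgc hSg hr hr0 e1 e2 e3 e4
  have hfix : ∀ c : K, star c = c → ∃ c' : k, algebraMap k K c' = c := fun c hc =>
    (hS.fix c).1 hc
  have hkfix : ∀ c : k, star (algebraMap k K c) = algebraMap k K c := fun c =>
    (hS.fix _).2 ⟨c, rfl⟩
  obtain ⟨F, _, _, _, φ, σ, hF, hσ, hsp, hsy, ho, -⟩ := hC.exists_E h20 h30 hfix hkfix hg hTg hgc
    hr hr0 e1 e2 e3 e4
  have hg0 : g ≠ 0 := fun h0 => hgc 0 (by rw [h0, zero_smul])
  have hNF : NumberField F := NumberField.of_module_finite k F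
  have hp0 : pp g ≠ 0 := hC.pp_ne_zero h30 hgc
  have hps : star (pp g) = pp g := hC.pp_symm hg
  have H : Cfd C φ (pp g) :=
    { hD := hdeg
      hss := fun c => by
        rw [Algebra.algebraMap_eq_smul_one, hS.star_smul, star_one,
          ← Algebra.algebraMap_eq_smul_one]
      hfix := fun c hc => (hS.fix c).1 hc
      hfix' := hkfix
      hF := hF
      hK := hS.rank
      h2 := by norm_num
      hp := hps
      hp0 := hp0
      hφ := hsy }
  have hne : C.T (C.adj (pp g * g)) ≠ 0 := by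
    rw [S_three_add hg0 hTg]
    intro h0
    apply hSg
    linear_combination (1 / 3 : K) * h0
  have htr : Algebra.trace k F σ = 0 := by
    have h5 := T_mul_inv_pp hS hdeg C hg hgc hr e1 e2 e3
    rw [← hσ, H.T_φ] at h5
    exact (_root_.map_eq_zero (algebraMap k K)).1 h5
  obtain ⟨M₀, hMp, hMg, hMy, hMδ, hMd⟩ := H.exists_dat hS.star_s hS.sq d.ne_zero
    (by norm_num) hg hy ho hne
  obtain ⟨Ω, _, _, ⟨S⟩⟩ := H.exists_dspl
  let M : Dat C φ :=
    { M₀ with
      a := σ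
      b := bb k σ
      ha := htr
      hb := trace_bb hF σ
      D00 := D0_ne_zero S hF htr hsp }
  refine ⟨F, inferInstance, hNF, inferInstance, φ, σ, hS.fin, hS.cen, M, hF, hσ, htr, rfl, rfl,
    hMp, hMg, hMy, hMδ, hMd, ?_⟩
  intro z hz hQ e he
  obtain ⟨hq, hc⟩ := M.main hQ he
  have hz2 := M.x₀_ne_zero hz hc
  refine hw (algebraMap k K z.2) (M.xi z e) (hkfix _) (M.star_xi z e)
    (Or.inl ((_root_.map_ne_zero _).2 hz2)) ?_ ?_
  · rw [← hMg, ← hMy, ← hMd]
    exact hc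
  · rw [← hMg, ← hMy, ← hMd]
    exact hq

end Vale.Agent.P011.H321.DatS
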