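import Vale.Agent.P011.H321.M8a

/-!
# Unitary elements whose chart is close to infinity: existence
-/

set_option linter.unusedSectionVars false

open Module NumberField IsDedekindDomain Filter Topology

namespace Vale.Agent.P011.H321.M8a

open Vale.Agent.P011.Arith Vale.Agent.P011.Even Vale.Agent.P011.H511 Vale.Agent.P011.H775
  Vale.Agent.P011.H948 Vale.Agent.P011.Two Vale.Agent.P011.One Vale.Agent.P011.H321.PartI

variable {k K D : Type} [Field k] [NumberField k] [Field K] [StarRing K]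
  [DivisionRing D] [StarRing D] [Algebra k K] [Algebra k D] [Algebra K D] [IsScalarTower k K D]
  {d : kˣ} {s : K} {N : ℕ}

/-- One positive bound for finitely many conditions which are monotone in the bound. -/
theorem exists_bound {ι : Type} {S : Set ι} (hS : S.Finite) {P : ι → ℝ → Prop}
    (h : ∀ i ∈ S, ∃ θ, 0 < θ ∧ ∀ ε, 0 < ε → ε ≤ θ → P i ε) : ∃ ε : ℝ, 0 < ε ∧ ∀ i ∈ S, P i ε := by
  have h1 : ∀ᶠ ε in 𝓝[>] (0 : ℝ), ∀ i ∈ S, P i ε := by
    rw [Filter.eventually_all_finite hS]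
    intro i hi
    obtain ⟨θ, hθ, h⟩ := h i hi
    filter_upwards [Ioc_mem_nhdsGT hθ] with ε hε
    exact h ε hε.1 hε.2
  obtain ⟨ε, h2, h3⟩ := (h1.and self_mem_nhdsWithin).exists
  exact ⟨ε, h3, h2⟩

theorem cy_sub_one {x : D} (h : 1 + x ≠ 0) : cy x - 1 = -(2 * (x * (1 + x)⁻¹)) := by
  have e : (1 : D) = (1 + x) * (1 + x)⁻¹ := (mul_inv_cancel₀ h).symm
  have : cy x - 1 = (1 - x) * (1 + x)⁻¹ - (1 + x) * (1 + x)⁻¹ := by rw [← e, cy]
  rw [this, ← sub_mul, ← mul_assoc, ← neg_mul]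
  congr 1
  rw [two_mul]
  abel

/-- **The unitary element `u1`.** -/
theorem exists_u1 (hS : Setting k K D d s) (hdeg : finrank K D = 3 ^ 2) (C : Cub K D)
    (B : Basis (Fin N) k D) {x0 w0 : D} (hw0 : w0 * star w0 = 1)
    (hT0 : C.T ((x0 - 1) * w0) = 0)
    (hind : ∀ a b : K, a • ((x0 - 1) * w0) + b • star ((x0 - 1) * w0) = 0 → a = 0 ∧ b = 0)
    {κ : K} (hκ : κ ≠ 0) {P1 : Set (HeightOneSpectrum (𝓞 k))} (hP1 : P1.Finite)
    {η : ℝ} (hη : 0 < η) :
    ∃ (u1 : D) (lam : k) (ε : ℝ), u1 * star u1 = 1 ∧ lam ≠ 0 ∧ 0 < ε ∧ ∀ v ∈ P1,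
      plAbv (Sum.inl v) lam < η ∧ nm B (Sum.inl v) (u1 - w0) < η ∧ ∀ x u : D,
      nm B (Sum.inl v) (x - x0) < ε → nm B (Sum.inl v) (u - u1) < ε →
      C.T ((x - 1) * u) ≠ 0 ∧
      nm B (Sum.inl v) (Gf C lam x u - (κ • ((x0 - 1) * w0) + star (κ • ((x0 - 1) * w0)))) < η ∧
      nm B (Sum.inl v) (Yf C s lam x u -
        s⁻¹ • (κ • ((x0 - 1) * w0) - star (κ • ((x0 - 1) * w0)))) < η := by
  classical
  have hK := char0K hS
  have hcharD : CharZero D := charZero_of_injective_algebraMap (algebraMap K D).injective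
  set m : D := (x0 - 1) * w0 with hm
  obtain ⟨b, hb, hTb⟩ := exists_skew hS hdeg C hind (-(1 / (2 * κ)))
  obtain ⟨lam, hlam0, hlam⟩ := exists_lam hP1
  have hlb : ∀ j, star (lam j • b) = -(lam j • b) := fun j => by
    rw [star_smul_k hS, hb, smul_neg]
  set u : ℕ → D := fun j => w0 * cy (lam j • b) with hu
  have huu : ∀ j, u j * star (u j) = 1 := fun j => by
    rw [hu]
    simp only [star_mul]
    calc w0 * cy (lam j • b) * (star (cy (lam j • b)) * star w0)
        = w0 * (cy (lam j • b) * star (cy (lam j • b))) * star w0 := by simp only [mul_assoc]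
      _ = 1 := by rw [cy_mul_star (hlb j), mul_one, hw0]
  -- the limits at one place
  have hlim : ∀ v ∈ P1, Tn B (Sum.inl v) atTop (fun j => lam j • b) 0 ∧
      Tn B (Sum.inl v) atTop (fun j => lam j • (1 : D)) 0 := by
    intro v hv
    have h0 : Tendsto (fun j => plAbv (Sum.inl v) (lam j - 0)) atTop (𝓝 0) := by
      simpa only [sub_zero] using hlam v hv
    constructor
    · have := Tn.smul (B := B) h0 b
      rwa [zero_smul] at this
    · have := Tn.smul (B := B) h0 (1 : D)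
      rwa [zero_smul] at this
  have hlimu : ∀ v ∈ P1, Tn B (Sum.inl v) atTop u w0 := by
    intro v hv
    have h1 := tn_cy (hlim v hv).1 (by rw [star_zero, neg_zero])
    have h2 := (Tn.const (B := B) (p := Sum.inl v) (l := atTop) w0).mul h1
    rwa [cy_zero, mul_one] at h2
  set t : ℕ → K := fun j => C.T (m * (b * (1 + lam j • b)⁻¹)) with ht
  have hTu : ∀ j, C.T ((x0 - 1) * u j) = -(2 * (algebraMap k K (lam j) * t j)) := by
    intro j
    have h1 : (1 : D) + lam j • b ≠ 0 := (one_pm_ne (hlb j)).1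
    have e1 : (x0 - 1) * u j = m + m * (cy (lam j • b) - 1) := by
      rw [hu, hm]
      simp only
      noncomm_ring
    have e2 : m * (cy (lam j • b) - 1) =
        -((2 : K) • (lam j • (m * (b * (1 + lam j • b)⁻¹)))) := by
      rw [cy_sub_one h1, mul_neg]
      congr 1
      rw [two_smul, two_mul, mul_add, smul_mul_assoc, mul_smul_comm]
    rw [e1, e2, map_add, hT0, zero_add, map_neg, map_smul, T_smul_k, smul_eq_mul]
  have htlim : ∀ v ∈ P1, Tn B (Sum.inl v) atTop (fun j => t j • (1 : D)) (C.T (m * b) • (1 : D)) := by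
    intro v hv
    have h1 : Tn B (Sum.inl v) atTop (fun j => m * (b * (1 + lam j • b)⁻¹)) (m * b) := by
      have h2 := ((Tn.const (B := B) (p := Sum.inl v) (l := atTop) (1 : D)).add
        (hlim v hv).1).inv (by rw [add_zero]; exact one_ne_zero)
      have h3 := (Tn.const (B := B) (p := Sum.inl v) (l := atTop) m).mul
        ((Tn.const (B := B) (p := Sum.inl v) (l := atTop) b).mul h2)
      rwa [add_zero, inv_one, mul_one] at h3
    exact tn_T C h1
  have hTb0 : C.T (m * b) ≠ 0 := by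
    rw [hTb]
    exact neg_ne_zero.2 (one_div_ne_zero (mul_ne_zero two_ne_zero hκ))
  -- the normalised element
  have hZ : ∀ j, lam j • Zf C x0 (u j) = ((-(2 : K)) • (t j • (1 : D)))⁻¹ * ((x0 - 1) * u j) := by
    intro j
    have hl : algebraMap k K (lam j) ≠ 0 := (_root_.map_ne_zero _).2 (hlam0 j)
    by_cases h0 : t j = 0
    · rw [Zf, hTu, h0]
      simp
    · have e : ((-(2 : K)) • (t j • (1 : D)))⁻¹ = (-(2 * t j))⁻¹ • (1 : D) := by
        apply inv_eq_of_mul_eq_one_right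
        rw [smul_smul, smul_mul_smul_comm, mul_one]
        have : -(2 : K) * t j * (-(2 * t j))⁻¹ = 1 := by
          have h2 : (2 : K) * t j ≠ 0 := mul_ne_zero two_ne_zero h0
          field_simp
        rw [this, one_smul]
      rw [e, smul_mul_assoc, one_mul, Zf, hTu, ← algebraMap_smul K (lam j), smul_smul]
      congr 1
      field_simp
  have hZlim : ∀ v ∈ P1, Tn B (Sum.inl v) atTop (fun j => lam j • Zf C x0 (u j)) (κ • m) := by
    intro v hv
    simp only [hZ]
    have h1 := tn_smulK (-(2 : K)) (htlim v hv)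
    have hne : (-(2 : K)) • (C.T (m * b) • (1 : D)) ≠ 0 :=
      smul_ne_zero (neg_ne_zero.2 two_ne_zero) (smul_ne_zero hTb0 one_ne_zero)
    have h2 := (h1.inv hne).mul
      ((Tn.const (B := B) (p := Sum.inl v) (l := atTop) (x0 - 1)).mul (hlimu v hv))
    have e : ((-(2 : K)) • (C.T (m * b) • (1 : D)))⁻¹ * ((x0 - 1) * w0) = κ • m := by
      have e' : ((-(2 : K)) • (C.T (m * b) • (1 : D)))⁻¹ = κ • (1 : D) := by
        apply inv_eq_of_mul_eq_one_right
        rw [smul_smul, smul_mul_smul_comm, mul_one, hTb]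
        have : -(2 : K) * -(1 / (2 * κ)) * κ = 1 := by field_simp
        rw [this, one_smul]
      rw [e', smul_mul_assoc, one_mul, hm]
    rwa [e] at h2
  have hG : ∀ v ∈ P1, Tn B (Sum.inl v) atTop (fun j => Gf C (lam j) x0 (u j))
      (κ • m + star (κ • m)) := by
    intro v hv
    have h := ((hZlim v hv).add (tn_star' hS (hZlim v hv))).sub (hlim v hv).2
    rwa [sub_zero] at h
  have hY : ∀ v ∈ P1, Tn B (Sum.inl v) atTop (fun j => Yf C s (lam j) x0 (u j))
      (s⁻¹ • (κ • m - star (κ • m))) := by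
    intro v hv
    exact tn_smulK s⁻¹ ((hZlim v hv).sub (tn_star' hS (hZlim v hv)))
  -- choice of the index
  have hev : ∀ᶠ j in atTop, ∀ v ∈ P1, plAbv (Sum.inl v) (lam j) < η ∧
      nm B (Sum.inl v) (u j - w0) < η ∧ t j ≠ 0 ∧
      nm B (Sum.inl v) (Gf C (lam j) x0 (u j) - (κ • m + star (κ • m))) < η ∧
      nm B (Sum.inl v) (Yf C s (lam j) x0 (u j) - s⁻¹ • (κ • m - star (κ • m))) < η := by
    rw [Filter.eventually_all_finite hP1]
    intro v hv
    have h1 := (hlam v hv).eventually_lt_const hη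
    have h2 := (hlimu v hv).ev_lt hη
    have h3 := (htlim v hv).ev_ne (b := 0) (smul_ne_zero hTb0 one_ne_zero)
    have h4 := (hG v hv).ev_lt hη
    have h5 := (hY v hv).ev_lt hη
    filter_upwards [h1, h2, h3, h4, h5] with j a1 a2 a3 a4 a5
    refine ⟨a1, a2, fun h0 => a3 (by rw [h0, zero_smul]), a4, a5⟩
  obtain ⟨j, hj⟩ := hev.exists
  -- the neighbourhood
  obtain ⟨ε, hε, hεv⟩ := exists_bound hP1 (P := fun v ε => ∀ x u' : D,
      nm B (Sum.inl v) (x - x0) < ε → nm B (Sum.inl v) (u' - u j) < ε →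
      C.T ((x - 1) * u') ≠ 0 ∧
      nm B (Sum.inl v) (Gf C (lam j) x u' - (κ • m + star (κ • m))) < η ∧
      nm B (Sum.inl v) (Yf C s (lam j) x u' - s⁻¹ • (κ • m - star (κ • m))) < η) (by
    intro v hv
    obtain ⟨b1, b2, b3, b4, b5⟩ := hj v hv
    have hT : C.T ((x0 - 1) * u j) ≠ 0 := by
      rw [hTu]
      exact neg_ne_zero.2 (mul_ne_zero two_ne_zero (mul_ne_zero
        ((_root_.map_ne_zero _).2 (hlam0 j)) b3))
    have f1 := nb_fst B (Sum.inl v) (x0, u j)
    have f2 := nb_snd B (Sum.inl v) (x0, u j)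
    have f3 : Tn B (Sum.inl v) (nb B (Sum.inl v) (x0, u j)) (fun y => (y.1 - 1) * y.2)
        ((x0 - 1) * u j) := (f1.sub (Tn.const 1)).mul f2
    have f4 := (tn_T C f3).ev_ne (b := 0) (smul_ne_zero hT one_ne_zero)
    have f5 := ((tn_Gf hS C (lam := lam j) f1 f2 hT).sub
      (Tn.const (κ • m + star (κ • m)))).ev_small b4
    have f6 := ((tn_Yf hS C (lam := lam j) f1 f2 hT).sub
      (Tn.const (s⁻¹ • (κ • m - star (κ • m))))).ev_small b5
    obtain ⟨θ, hθ, h⟩ := ev_nb B (Sum.inl v) (f4.and (f5.and f6))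
    refine ⟨θ / 2, by positivity, fun ε hε hεθ x u' hx hu' => ?_⟩
    have h7 := h (x, u') (by
      rw [nm2]
      change nm B (Sum.inl v) (x - x0) + nm B (Sum.inl v) (u' - u j) < θ
      linarith)
    exact ⟨fun h0 => h7.1 (by simp only [h0, zero_smul]), h7.2.1, h7.2.2⟩)
  exact ⟨u j, lam j, ε, huu j, hlam0 j, hε, fun v hv =>
    ⟨(hj v hv).1, (hj v hv).2.1, hεv v hv⟩⟩

/-- The limit direction is not central. -/
theorem gstar_noncentral (hS : Setting k K D d s) (hdeg : finrank K D = 3 ^ 2) (C : Cub K D)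
    {m : D} (hTm : C.T m = 0)
    (hind : ∀ a b : K, a • m + b • star m = 0 → a = 0 ∧ b = 0) {κ : K} (hκ : κ ≠ 0) (c : K) :
    κ • m + star (κ • m) ≠ c • (1 : D) := by
  have hK := char0K hS
  have h := scub hS hdeg C
  intro h0
  have h1 := congrArg C.T h0
  rw [map_add, h.T, map_smul, hTm, smul_zero, star_zero, add_zero, map_smul, C.T_one,
    smul_eq_mul] at h1
  have hc : c = 0 := by
    have := h1.symm
    rcases mul_eq_zero.1 this with h | h
    · exact h
    · norm_num at h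
  rw [hc, zero_smul, hS.star_smul] at h0
  exact hκ (hind κ (star κ) h0).1

/-- **Consequences of being close to the limit direction.** -/
theorem good_of_near (hS : Setting k K D d s) (C : Cub K D) (B : Basis (Fin N) k D)
    (p : Pl k) {gs : D} (hgs : ∀ c : K, gs ≠ c • (1 : D)) (hSg : C.S gs ≠ 0) {η' : ℝ}
    (hη' : 0 < η') : ∃ η : ℝ, 0 < η ∧ ∀ (lam : k) (g : D), lam ≠ 0 → plAbv p lam < η →
      nm B p (lam • g - gs) < η →
      (∀ c : K, g ≠ c • (1 : D)) ∧ 3 * C.S g ≠ 1 ∧ nm B p (pp g - 3) < η' := by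
  have hK := char0K hS
  have := hS.cen
  have hgs0 : gs ≠ 0 := fun h0 => hgs 0 (by rw [h0, zero_smul])
  -- an element which does not commute with the limit
  obtain ⟨a, ha⟩ : ∃ a, gs * a - a * gs ≠ 0 := by
    by_contra hcon
    push Not at hcon
    have h1 : gs ∈ Subalgebra.center K D := by
      rw [Subalgebra.mem_center_iff]
      intro a
      exact (sub_eq_zero.1 (hcon a)).symm
    rw [Algebra.IsCentral.center_eq_bot K D, Algebra.mem_bot] at h1
    obtain ⟨c, hc⟩ := h1
    exact hgs c (by rw [← hc, Algebra.algebraMap_eq_smul_one])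
  set l := nb B p ((0 : D), gs) with hl
  have f1 : Tn B p l (fun y => y.1) 0 := nb_fst B p _
  have f2 : Tn B p l (fun y => y.2) gs := nb_snd B p _
  have f3 : ∀ᶠ y in l, y.2 * a - a * y.2 ≠ 0 :=
    ((f2.mul (Tn.const a)).sub ((Tn.const a).mul f2)).ev_ne ha
  -- the second coefficient
  have hS2 : ∀ z : D, C.S z • (1 : D) =
      (1 / 2 : K) • ((C.T z • (1 : D)) * (C.T z • (1 : D)) - C.T (z * z) • (1 : D)) := by
    intro z
    have h3 := congrArg C.T (C.adj_eq z)
    rw [map_add, map_sub, map_smul, map_smul, C.T_one, smul_eq_mul, smul_eq_mul] at h3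
    have h5 : C.T (C.adj z) = C.S z := rfl
    rw [h5] at h3
    rw [smul_mul_smul_comm, mul_one, ← sub_smul, smul_smul]
    congr 1
    linear_combination (-1 / 2 : K) * h3
  have f4 : Tn B p l (fun y => C.S y.2 • (1 : D)) (C.S gs • (1 : D)) := by
    simp only [hS2]
    exact tn_smulK _ (((tn_T C f2).mul (tn_T C f2)).sub (tn_T C (f2.mul f2)))
  have f5 : ∀ᶠ y in l, (3 : K) • (C.S y.2 • (1 : D)) - y.1 * y.1 ≠ 0 := by
    refine ((tn_smulK (3 : K) f4).sub (f1.mul f1)).ev_ne ?_
    rw [mul_zero, sub_zero]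
    exact smul_ne_zero (by norm_num) (smul_ne_zero hSg one_ne_zero)
  have f6 : ∀ᶠ y in l, nm B p (y.1 * y.2⁻¹) < η' := by
    refine (f1.mul (f2.inv hgs0)).ev_small ?_
    rw [zero_mul, nm_zero]
    exact hη'
  obtain ⟨θ, hθ, h⟩ := ev_nb B p (f3.and (f5.and f6))
  have hB1 := nm_nonneg B p (1 : D)
  refine ⟨min (θ / 2) (θ / (2 * (nm B p 1 + 1))), by positivity, ?_⟩
  intro lam g hlam0 hlam hg
  obtain ⟨h3, h5, h6⟩ := h (lam • (1 : D), lam • g) (by
    rw [nm2]
    change nm B p (lam • (1 : D) - 0) + nm B p (lam • g - gs) < θ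
    rw [sub_zero, nm_smul]
    have e1 := hlam.trans_le (min_le_right _ _)
    have e2 := hg.trans_le (min_le_left _ _)
    have e3 : plAbv p lam * nm B p 1 ≤ θ / 2 := by
      calc plAbv p lam * nm B p 1 ≤ θ / (2 * (nm B p 1 + 1)) * nm B p 1 :=
            mul_le_mul_of_nonneg_right e1.le hB1
        _ ≤ θ / 2 := by
          rw [div_mul_eq_mul_div, div_le_div_iff₀ (by positivity) (by norm_num)]
          nlinarith
    linarith)
  have hg0 : g ≠ 0 := by
    rintro rfl
    apply h3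
    simp
  refine ⟨?_, ?_, ?_⟩
  · intro c hc
    apply h3
    simp only [hc]
    rw [smul_mul_assoc, mul_smul_comm, smul_mul_assoc, mul_smul_comm, one_mul, mul_one, sub_self]
  · intro h0
    apply h5
    simp only
    rw [← algebraMap_smul K lam g, C.S_smul, ← algebraMap_smul K lam (1 : D),
      smul_mul_smul_comm, mul_one, smul_smul, ← sub_smul]
    have : 3 * (algebraMap k K lam ^ 2 * C.S g) - algebraMap k K lam * algebraMap k K lam = 0 := by
      linear_combination (algebraMap k K lam ^ 2) * h0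
    rw [this, zero_smul]
  · have e : pp g - 3 = lam • (1 : D) * (lam • g)⁻¹ := by
      have hl0 : lam • g ≠ 0 := smul_ne_zero hlam0 hg0
      apply mul_right_cancel₀ hl0
      rw [inv_mul_cancel_right₀ hl0, pp, add_sub_cancel_left, mul_smul_comm, inv_mul_cancel₀ hg0]
    rw [e]
    exact h6

end Vale.Agent.P011.H321.M8a
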