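import Vale.Agent.P011.H279.TKc
import Vale.Agent.P011.H321.M8b
import Vale.Agent.P011.H321.NdV0

/-!
# Elements of `V₀(g)` for `g` close to a limit direction

(Number field form of `H279/M8bF.lean`.)
-/

set_option linter.unusedSectionVars false

open Module Filter Topology

namespace Vale.Agent.P011.H321.M8r

open Vale.Agent.P011.H775 Vale.Agent.P011.H948 Vale.Agent.P011.Even Vale.Agent.P011.H511
open Vale.Agent.P011.H279.TnA
open Vale.Agent.P011.H182 (na na_zero na_nonneg na_smul na_add_le na_neg na_pos)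

section proj

variable {K D : Type} [Field K] [DivisionRing D] [Algebra K D]

/-- The discriminant of the trace form on `1, X, X ^ 2`. -/
def Dl (C : Cub K D) (X : D) : K :=
  3 * (C.T (X * X) * C.T (X * X * X * X) - C.T (X * X * X) * C.T (X * X * X)) -
    C.T X * (C.T X * C.T (X * X * X * X) - C.T (X * X) * C.T (X * X * X)) +
    C.T (X * X) * (C.T X * C.T (X * X * X) - C.T (X * X) * C.T (X * X))

/-- The first numerator. -/
def n0 (C : Cub K D) (X R : D) : K :=
  C.T R * (C.T (X * X) * C.T (X * X * X * X) - C.T (X * X * X) * C.T (X * X * X)) -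
    C.T X * (C.T (X * R) * C.T (X * X * X * X) - C.T (X * X * R) * C.T (X * X * X)) +
    C.T (X * X) * (C.T (X * R) * C.T (X * X * X) - C.T (X * X * R) * C.T (X * X))

/-- The second numerator. -/
def n1 (C : Cub K D) (X R : D) : K :=
  3 * (C.T (X * R) * C.T (X * X * X * X) - C.T (X * X * R) * C.T (X * X * X)) -
    C.T R * (C.T X * C.T (X * X * X * X) - C.T (X * X) * C.T (X * X * X)) +
    C.T (X * X) * (C.T X * C.T (X * X * R) - C.T (X * X) * C.T (X * R))

/-- The third numerator. -/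
def n2 (C : Cub K D) (X R : D) : K :=
  3 * (C.T (X * X) * C.T (X * X * R) - C.T (X * X * X) * C.T (X * R)) -
    C.T X * (C.T X * C.T (X * X * R) - C.T (X * X) * C.T (X * R)) +
    C.T R * (C.T X * C.T (X * X * X) - C.T (X * X) * C.T (X * X))

/-- The projection to the orthogonal complement of `1, X, X ^ 2`. -/
def prj (C : Cub K D) (X R : D) : D :=
  R - (n0 C X R / Dl C X) • (1 : D) - (n1 C X R / Dl C X) • X - (n2 C X R / Dl C X) • (X * X)

theorem prj_of_orth (C : Cub K D) {X R : D} (h1 : C.T R = 0) (h2 : C.T (X * R) = 0)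
    (h3 : C.T (X * X * R) = 0) : prj C X R = R := by
  rw [prj, n0, n1, n2, h1, h2, h3]
  simp

theorem T_prj (C : Cub K D) {X : D} (R : D) (hX : Dl C X ≠ 0) :
    C.T (prj C X R) = 0 ∧ C.T (X * prj C X R) = 0 ∧ C.T (X * X * prj C X R) = 0 := by
  have e1 : C.T (1 : D) = 3 := C.T_one
  refine ⟨?_, ?_, ?_⟩
  · rw [prj, map_sub, map_sub, map_sub, map_smul, map_smul, map_smul, e1]
    simp only [smul_eq_mul]
    rw [n0, n1, n2]
    field_simp
    rw [Dl]
    ring
  · rw [prj, mul_sub, mul_sub, mul_sub, mul_smul_comm, mul_smul_comm, mul_smul_comm, mul_one,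
      map_sub, map_sub, map_sub, map_smul, map_smul, map_smul, ← mul_assoc]
    simp only [smul_eq_mul]
    rw [n0, n1, n2]
    field_simp
    rw [Dl]
    ring
  · rw [prj, mul_sub, mul_sub, mul_sub, mul_smul_comm, mul_smul_comm, mul_smul_comm, mul_one,
      map_sub, map_sub, map_sub, map_smul, map_smul, map_smul, ← mul_assoc]
    simp only [smul_eq_mul]
    rw [n0, n1, n2]
    field_simp
    rw [Dl]
    ring

end proj

variable {k K D : Type} [Field k] [NumberField k] [Field K] [StarRing K]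
  [DivisionRing D] [StarRing D] [Algebra k K] [Algebra k D] [Algebra K D] [IsScalarTower k K D]
  {d : kˣ} {s : K} {N : ℕ}

/-- The discriminant does not vanish. -/
theorem Dl_ne_zero (hS : Setting k K D d s) (hdeg : finrank K D = 3 ^ 2)
    (C : Cub K D) {g : D} (hg : star g = g) (hgc : ∀ c : K, g ≠ c • (1 : D)) : Dl C g ≠ 0 := by
  obtain ⟨E, _, _, _, φ, σ, _, _, hσ, H, hsp⟩ := H321.NdV0.exists_cfd hS hdeg C hg hgc
  have hE : finrank k E = 3 := H.hF
  have hspan : ⊤ ≤ Submodule.span k (Set.range ![(1 : E), σ, σ ^ 2]) := by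
    intro x _
    obtain ⟨a, b, c, rfl⟩ := hsp x
    have h1 : ∀ i : Fin 3, (![(1 : E), σ, σ ^ 2]) i ∈
        Submodule.span k (Set.range ![(1 : E), σ, σ ^ 2]) := fun i =>
      Submodule.subset_span (Set.mem_range_self i)
    have e0 : algebraMap k E a + algebraMap k E b * σ + algebraMap k E c * σ ^ 2 =
        a • (1 : E) + b • σ + c • σ ^ 2 := by
      rw [Algebra.smul_def, Algebra.smul_def, Algebra.smul_def, mul_one]
    rw [e0]
    exact add_mem (add_mem (Submodule.smul_mem _ _ (h1 0)) (Submodule.smul_mem _ _ (h1 1)))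
      (Submodule.smul_mem _ _ (h1 2))
  let b : Basis (Fin 3) k E := basisOfTopLeSpanOfCardEqFinrank ![(1 : E), σ, σ ^ 2] hspan
    (by rw [hE, Fintype.card_fin])
  have hb : ∀ i, b i = (![(1 : E), σ, σ ^ 2]) i := fun i => by
    simp only [b, coe_basisOfTopLeSpanOfCardEqFinrank]
  have h1 := Algebra.discr_not_zero_of_basis k b
  rw [Algebra.discr_def, Matrix.det_fin_three] at h1
  have htr : ∀ i j, algebraMap k K (Algebra.traceMatrix k b i j) =
      C.T (φ ((![(1 : E), σ, σ ^ 2]) i) * φ ((![(1 : E), σ, σ ^ 2]) j)) := by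
    intro i j
    rw [Algebra.traceMatrix_apply, Algebra.traceForm_apply, hb, hb, ← map_mul, H.T_φ]
  intro h0
  apply h1
  apply (algebraMap k K).injective
  simp only [map_sub, map_add, map_mul, htr, map_zero]
  have e1 : C.T (1 : D) = 3 := C.T_one
  simp only [Matrix.cons_val_zero, Matrix.cons_val_one, Matrix.cons_val, map_one, map_pow, hσ,
    mul_one, one_mul, e1]
  have e2 : g ^ 2 = g * g := pow_two g
  have e3 : g * (g * g) = g * g * g := (mul_assoc g g g).symm
  have e4 : g * g * (g * g) = g * g * g * g := by simp only [mul_assoc]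
  rw [e2, e3, e4]
  rw [Dl] at h0
  linear_combination h0

theorem star_T (hS : Setting k K D d s) (hdeg : finrank K D = 3 ^ 2) (C : Cub K D) {X R : D}
    (hX : star X = X) (hR : star R = R) : star (prj C X R) = prj C X R := by
  have h := scub hS hdeg C
  have hXX : star (X * X) = X * X := by rw [star_mul, hX]
  have a1 : star (C.T X) = C.T X := by rw [← h.T, hX]
  have a2 : star (C.T (X * X)) = C.T (X * X) := by rw [← h.T, hXX]
  have a3 : star (C.T (X * X * X)) = C.T (X * X * X) := h.T_mul_symm hXX hX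
  have a4 : star (C.T (X * X * X * X)) = C.T (X * X * X * X) := by
    rw [mul_assoc (X * X)]
    exact h.T_mul_symm hXX hXX
  have b0 : star (C.T R) = C.T R := by rw [← h.T, hR]
  have b1 : star (C.T (X * R)) = C.T (X * R) := h.T_mul_symm hX hR
  have b2 : star (C.T (X * X * R)) = C.T (X * X * R) := h.T_mul_symm hXX hR
  have c : star (Dl C X) = Dl C X := by
    simp only [Dl, star_add, star_sub, star_mul', a1, a2, a3, a4, star_ofNat]
  have c0 : star (n0 C X R) = n0 C X R := by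
    simp only [n0, star_add, star_sub, star_mul', a1, a2, a3, a4, b0, b1, b2]
  have c1 : star (n1 C X R) = n1 C X R := by
    simp only [n1, star_add, star_sub, star_mul', a1, a2, a3, a4, b0, b1, b2, star_ofNat]
  have c2 : star (n2 C X R) = n2 C X R := by
    simp only [n2, star_add, star_sub, star_mul', a1, a2, a3, b0, b1, b2, star_ofNat]
  rw [prj, star_sub, star_sub, star_sub, hS.star_smul, hS.star_smul, hS.star_smul, star_div₀,
    star_div₀, star_div₀, c, c0, c1, c2, star_one, hX, hXX, hR]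

section cont

variable {B : Basis (Fin N) k D} {q : AbsoluteValue k ℝ} {Y : Type} {l : Filter Y}

theorem tk_Dl (C : Cub K D) {f : Y → D} {X : D} (hf : Tn B q l f X) :
    TK B q l (fun y => Dl C (f y)) (Dl C X) := by
  have t1 := hf.T C
  have t2 := (hf.mul hf).T C
  have t3 := ((hf.mul hf).mul hf).T C
  have t4 := (((hf.mul hf).mul hf).mul hf).T C
  exact ((((TK.const 3).mul ((t2.mul t4).sub (t3.mul t3))).sub
    (t1.mul ((t1.mul t4).sub (t2.mul t3)))).add (t2.mul ((t1.mul t3).sub (t2.mul t2))))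

theorem tn_prj (C : Cub K D) {f : Y → D} {X : D} (hf : Tn B q l f X) (hX : Dl C X ≠ 0) (R : D) :
    Tn B q l (fun y => prj C (f y) R) (prj C X R) := by
  have t1 := hf.T C
  have t2 := (hf.mul hf).T C
  have t3 := ((hf.mul hf).mul hf).T C
  have t4 := (((hf.mul hf).mul hf).mul hf).T C
  have hR : Tn B q l (fun _ => R) R := Tn.const R
  have u0 : TK B q l (fun _ => C.T R) (C.T R) := TK.const _
  have u1 := (hf.mul hR).T C
  have u2 := ((hf.mul hf).mul hR).T C
  have m0 : TK B q l (fun y => n0 C (f y) R) (n0 C X R) :=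
    ((u0.mul ((t2.mul t4).sub (t3.mul t3))).sub (t1.mul ((u1.mul t4).sub (u2.mul t3)))).add
      (t2.mul ((u1.mul t3).sub (u2.mul t2)))
  have m1 : TK B q l (fun y => n1 C (f y) R) (n1 C X R) :=
    (((TK.const 3).mul ((u1.mul t4).sub (u2.mul t3))).sub
      (u0.mul ((t1.mul t4).sub (t2.mul t3)))).add (t2.mul ((t1.mul u2).sub (t2.mul u1)))
  have m2 : TK B q l (fun y => n2 C (f y) R) (n2 C X R) :=
    (((TK.const 3).mul ((t2.mul u2).sub (t3.mul u1))).sub
      (t1.mul ((t1.mul u2).sub (t2.mul u1)))).add (u0.mul ((t1.mul t3).sub (t2.mul t2)))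
  have hD := tk_Dl C hf
  exact ((hR.sub ((m0.div hD hX).smul (Tn.const 1))).sub ((m1.div hD hX).smul hf)).sub
    ((m2.div hD hX).smul (hf.mul hf))

end cont

/-- A second vector with non-zero polar form. -/
theorem exists_yr (hS : Setting k K D d s) (hdeg : finrank K D = 3 ^ 2)
    (C : Cub K D) {gs rs : D} (hg : star gs = gs) (hgc : ∀ c : K, gs ≠ c • (1 : D))
    (hr : star rs = rs ∧ C.T rs = 0 ∧ C.T (gs * rs) = 0 ∧ C.T (gs * gs * rs) = 0)
    (hr0 : rs ≠ 0) : ∃ yr : D, (star yr = yr ∧ C.T yr = 0 ∧ C.T (gs * yr) = 0 ∧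
      C.T (gs * gs * yr) = 0) ∧ C.T (gs * C.cr rs yr) ≠ 0 := by
  obtain ⟨E, _, _, _, φ, σ, _, _, hσ, H, hsp⟩ := H321.NdV0.exists_cfd hS hdeg C hg hgc
  have hσ0 : σ ≠ 0 := by
    rintro rfl
    exact hgc 0 (by rw [← hσ, map_zero, zero_smul])
  obtain ⟨r', hr', h⟩ := H321.NdV0.nondeg_of_cfd H hσ0 ((H321.NdV0.inV_iff H hσ hsp hr.1).2 hr.2) hr0
  have hr's : star r' = r' := by
    have : 1 * star r' = r' * 1 := hr'.sy
    rwa [one_mul, mul_one] at this
  refine ⟨r', ⟨hr's, (H321.NdV0.inV_iff H hσ hsp hr's).1 hr'⟩, ?_⟩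
  rw [← hσ]
  exact h

/-- **The continuity of the isotropic part**, any field with `2 ≠ 0`, `3 ≠ 0`, any absolute
value. -/
theorem r_raw (hS : Setting k K D d s) (hdeg : finrank K D = 3 ^ 2)
    (C : Cub K D) (B : Basis (Fin N) k D) (q : AbsoluteValue k ℝ) {gs rs yr : D}
    (hg : star gs = gs) (hgc : ∀ c : K, gs ≠ c • (1 : D))
    (hr : star rs = rs ∧ C.T rs = 0 ∧ C.T (gs * rs) = 0 ∧ C.T (gs * gs * rs) = 0)
    (hy : star yr = yr ∧ C.T yr = 0 ∧ C.T (gs * yr) = 0 ∧ C.T (gs * gs * yr) = 0)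
    (h0 : C.T (gs * C.adj rs) = 0) (hP : C.T (gs * C.cr rs yr) ≠ 0) {η' : ℝ} (hη' : 0 < η') :
    ∃ η : ℝ, 0 < η ∧ ∀ (lam : k) (g : D), lam ≠ 0 → q lam < η → star g = g →
      na B q (lam • g - gs) < η → ∀ z1 y1 : D, z1 = prj C (lam • g) rs →
      y1 = prj C (lam • g) yr →
      (star z1 = z1 ∧ C.T z1 = 0 ∧ C.T (g * z1) = 0 ∧ C.T (g * g * z1) = 0) ∧
      (star y1 = y1 ∧ C.T y1 = 0 ∧ C.T (g * y1) = 0 ∧ C.T (g * g * y1) = 0) ∧
      ∀ Q1 Q2 P : k, algebraMap k K Q1 = C.T (g * pp g * pp g * C.adj z1) →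
        algebraMap k K Q2 = C.T (g * pp g * pp g * C.adj y1) →
        algebraMap k K P = C.T (g * pp g * pp g * C.cr z1 y1) →
        P ≠ 0 ∧ q (Q1 * Q2) < q P ^ 2 ∧ ∀ r : D, (∃ t : k, q t ≤ q (Q1 / P) ∧
          na B q (r - z1 - t • y1) < η) → na B q (r - rs) < η' := by
  have hK := char0K hS
  have h20 : (2 : K) ≠ 0 := two_ne_zero
  have h30 : (3 : K) ≠ 0 := three_ne_zero
  have hgs0 : gs ≠ 0 := fun h0 => hgc 0 (by rw [h0, zero_smul])
  have hD := Dl_ne_zero hS hdeg C hg hgc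
  have hn1 : 0 < na B q (1 : D) := na_pos B q one_ne_zero
  have h3D : (3 : D) = (3 : K) • (1 : D) := by
    rw [ofNat_smul_eq_nsmul, nsmul_eq_mul, mul_one]
    rfl
  set l := nb B q ((0 : D), gs) with hl
  have f1 : Tn B q l (fun y => y.1) 0 := nb_fst B q _
  have f2 : Tn B q l (fun y => y.2) gs := nb_snd B q _
  have fP : Tn B q l (fun y => 3 + y.1 * y.2⁻¹) (3 : D) := by
    have := (Tn.const (B := B) (q := q) (l := l) (3 : D)).add (f1.mul (f2.inv hgs0))
    rwa [zero_mul, add_zero] at this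
  have fG : Tn B q l (fun y => y.2 * (3 + y.1 * y.2⁻¹) * (3 + y.1 * y.2⁻¹)) (gs * 3 * 3) :=
    (f2.mul fP).mul fP
  have fz : Tn B q l (fun y => prj C y.2 rs) rs := by
    have := tn_prj C f2 hD rs
    rwa [prj_of_orth C hr.2.1 hr.2.2.1 hr.2.2.2] at this
  have fy : Tn B q l (fun y => prj C y.2 yr) yr := by
    have := tn_prj C f2 hD yr
    rwa [prj_of_orth C hy.2.1 hy.2.2.1 hy.2.2.2] at this
  have e9 : ∀ z : D, C.T (gs * 3 * 3 * z) = 9 * C.T (gs * z) := by
    intro z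
    rw [h3D, mul_smul_comm, mul_one, mul_smul_comm, mul_one, smul_mul_assoc, smul_mul_assoc,
      map_smul, map_smul, smul_eq_mul, smul_eq_mul]
    ring
  have F1 : TK B q l (fun y => C.T (y.2 * (3 + y.1 * y.2⁻¹) * (3 + y.1 * y.2⁻¹) *
      C.adj (prj C y.2 rs))) 0 := by
    have := (fG.mul (fz.adj C h20)).T C
    rwa [e9, h0, mul_zero] at this
  obtain ⟨c2, F2⟩ : ∃ c, TK B q l (fun y => C.T (y.2 * (3 + y.1 * y.2⁻¹) *
      (3 + y.1 * y.2⁻¹) * C.adj (prj C y.2 yr))) c := ⟨_, (fG.mul (fy.adj C h20)).T C⟩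
  obtain ⟨c3, hc3, F3⟩ : ∃ c, c ≠ 0 ∧ TK B q l (fun y => C.T (y.2 * (3 + y.1 * y.2⁻¹) *
      (3 + y.1 * y.2⁻¹) * C.cr (prj C y.2 rs) (prj C y.2 yr))) c := by
    refine ⟨9 * C.T (gs * C.cr rs yr), mul_ne_zero ?_ hP, ?_⟩
    · have : (9 : K) = 3 * 3 := by norm_num
      rw [this]
      exact mul_ne_zero h30 h30
    · have := (fG.mul (fz.cr C h20 fy)).T C
      rwa [e9] at this
  -- the constants
  have hmc : 0 < na B q (c3 • (1 : D)) := na_pos B q (smul_ne_zero hc3 one_ne_zero)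
  obtain ⟨m, hm⟩ : ∃ m, m = na B q (c3 • (1 : D)) / 2 := ⟨_, rfl⟩
  have hm0 : 0 < m := by rw [hm]; positivity
  obtain ⟨M, hM⟩ : ∃ M, M = na B q (c2 • (1 : D)) + 1 := ⟨_, rfl⟩
  have hM0 : 0 < M := by rw [hM]; have := na_nonneg B q (c2 • (1 : D)); positivity
  obtain ⟨M1, hM1⟩ : ∃ M1, M1 = na B q yr + 1 := ⟨_, rfl⟩
  have hM10 : 0 < M1 := by rw [hM1]; have := na_nonneg B q yr; positivity
  have hθ1 : 0 < m ^ 2 / M := by positivity
  have hθ2 : 0 < m * (η' / 3) / M1 := by positivity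
  have g1 : ∀ᶠ y in l, na B q (C.T (y.2 * (3 + y.1 * y.2⁻¹) * (3 + y.1 * y.2⁻¹) *
      C.adj (prj C y.2 rs)) • (1 : D)) < min (m ^ 2 / M) (m * (η' / 3) / M1) :=
    Tn.ev_small F1 (by rw [zero_smul, na_zero]; exact lt_min hθ1 hθ2)
  have g2 : ∀ᶠ y in l, na B q (C.T (y.2 * (3 + y.1 * y.2⁻¹) * (3 + y.1 * y.2⁻¹) *
      C.adj (prj C y.2 yr)) • (1 : D)) < M := Tn.ev_small F2 (by rw [hM]; linarith)
  have g3 : ∀ᶠ y in l, m < na B q (C.T (y.2 * (3 + y.1 * y.2⁻¹) * (3 + y.1 * y.2⁻¹) *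
      C.cr (prj C y.2 rs) (prj C y.2 yr)) • (1 : D)) := by
    filter_upwards [Tn.ev_lt F3 hm0] with y hy
    have h5 := na_add_le B q (c3 • (1 : D) - C.T (y.2 * (3 + y.1 * y.2⁻¹) *
      (3 + y.1 * y.2⁻¹) * C.cr (prj C y.2 rs) (prj C y.2 yr)) • (1 : D))
      (C.T (y.2 * (3 + y.1 * y.2⁻¹) *
      (3 + y.1 * y.2⁻¹) * C.cr (prj C y.2 rs) (prj C y.2 yr)) • (1 : D))
    rw [sub_add_cancel, ← na_neg B q (c3 • (1 : D) - _), neg_sub] at h5
    linarith
  have g4 : ∀ᶠ y in l, na B q (prj C y.2 yr) < M1 := Tn.ev_small fy (by rw [hM1]; linarith)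
  have g5 : ∀ᶠ y in l, na B q (prj C y.2 rs - rs) < η' / 3 := fz.ev_lt (by positivity)
  have g6 : ∀ᶠ y in l, Dl C y.2 ≠ 0 := (tk_Dl C f2).ev_ne hD
  obtain ⟨θ, hθ, hev⟩ := ev_nb B q (g1.and (g2.and (g3.and (g4.and (g5.and g6)))))
  have hB1 := na_nonneg B q (1 : D)
  refine ⟨min (min (θ / 2) (θ / (2 * (na B q 1 + 1)))) (η' / 3), by positivity, ?_⟩
  intro lam g hlam0 hlam hgs hgn z1 y1 hz1 hy1
  obtain ⟨a1, a2, a3, a4, a5, a6⟩ := hev (lam • (1 : D), lam • g) (by
    rw [na2]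
    change na B q (lam • (1 : D) - 0) + na B q (lam • g - gs) < θ
    rw [sub_zero, na_smul]
    have e1 := hlam.trans_le ((min_le_left _ _).trans (min_le_right _ _))
    have e2 := hgn.trans_le ((min_le_left _ _).trans (min_le_left _ _))
    have e3 : q lam * na B q 1 ≤ θ / 2 := by
      calc q lam * na B q 1 ≤ θ / (2 * (na B q 1 + 1)) * na B q 1 :=
            mul_le_mul_of_nonneg_right e1.le hB1
        _ ≤ θ / 2 := by
          rw [div_mul_eq_mul_div, div_le_div_iff₀ (by positivity) (by norm_num)]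
          nlinarith
    linarith)
  simp only [← hz1, ← hy1] at a1 a2 a3 a4 a5 a6
  have hl0 : algebraMap k K lam ≠ 0 := (_root_.map_ne_zero _).2 hlam0
  have hlg : star (lam • g) = lam • g := by rw [star_smul_k hS, hgs]
  have hg0 : g ≠ 0 := by
    rintro rfl
    rw [smul_zero] at a6
    apply a6
    rw [Dl]
    simp
  -- membership
  have hmem : ∀ R : D, star R = R → (star (prj C (lam • g) R) = prj C (lam • g) R ∧
      C.T (prj C (lam • g) R) = 0 ∧ C.T (g * prj C (lam • g) R) = 0 ∧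
      C.T (g * g * prj C (lam • g) R) = 0) := by
    intro R hR
    obtain ⟨b1, b2, b3⟩ := T_prj C R a6
    refine ⟨star_T hS hdeg C hlg hR, b1, ?_, ?_⟩
    · rw [smul_mul_assoc, T_smul_k] at b2
      exact (mul_eq_zero.1 b2).resolve_left hl0
    · rw [smul_mul_smul_comm, smul_mul_assoc, T_smul_k, map_mul] at b3
      exact (mul_eq_zero.1 b3).resolve_left (mul_ne_zero hl0 hl0)
  refine ⟨by rw [hz1]; exact hmem rs hr.1, by rw [hy1]; exact hmem yr hy.1, ?_⟩
  intro Q1 Q2 P hQ1 hQ2 hPP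
  have hpp : 3 + lam • (1 : D) * (lam • g)⁻¹ = pp g := by
    have hl1 : lam • g ≠ 0 := smul_ne_zero hlam0 hg0
    rw [pp]
    congr 1
    apply mul_right_cancel₀ hl1
    rw [inv_mul_cancel_right₀ hl1, mul_smul_comm, inv_mul_cancel₀ hg0]
  have hF : ∀ z : D, C.T (lam • g * (3 + lam • (1 : D) * (lam • g)⁻¹) *
      (3 + lam • (1 : D) * (lam • g)⁻¹) * z) = algebraMap k K lam * C.T (g * pp g * pp g * z) := by
    intro z
    rw [hpp, smul_mul_assoc, smul_mul_assoc, smul_mul_assoc, T_smul_k]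
  rw [hF, ← hQ1, ← map_mul, na_k, map_mul] at a1
  rw [hF, ← hQ2, ← map_mul, na_k, map_mul] at a2
  rw [hF, ← hPP, ← map_mul, na_k, map_mul] at a3
  obtain ⟨n, hn⟩ : ∃ n, n = na B q (1 : D) := ⟨_, rfl⟩
  rw [← hn] at a1 a2 a3 hn1
  have hql : 0 < q lam := q.pos hlam0
  have hqP : 0 < q P := by
    rcases (AbsoluteValue.nonneg q P).lt_or_eq with h | h
    · exact h
    · rw [← h, mul_zero, zero_mul] at a3
      exact absurd (hm0.trans a3) (lt_irrefl _)
  have hq1 := AbsoluteValue.nonneg q Q1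
  have hq2 := AbsoluteValue.nonneg q Q2
  refine ⟨fun h => by rw [h, map_zero] at hqP; exact lt_irrefl _ hqP, ?_, ?_⟩
  · rw [map_mul]
    have b1 := a1.trans_le (min_le_left _ _)
    rw [lt_div_iff₀ hM0] at b1
    have hln : 0 < q lam * n := by positivity
    have e1 : q lam * q Q1 * n * (q lam * q Q2 * n) ≤ q lam * q Q1 * n * M :=
      mul_le_mul_of_nonneg_left a2.le (by positivity)
    have e2 : m ^ 2 < (q lam * q P * n) ^ 2 := pow_lt_pow_left₀ a3 hm0.le two_ne_zero
    have e3 : (q lam * n) ^ 2 * (q Q1 * q Q2) < (q lam * n) ^ 2 * q P ^ 2 := by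
      calc (q lam * n) ^ 2 * (q Q1 * q Q2) = q lam * q Q1 * n * (q lam * q Q2 * n) := by ring
        _ ≤ q lam * q Q1 * n * M := e1
        _ < m ^ 2 := b1
        _ < (q lam * q P * n) ^ 2 := e2
        _ = _ := by ring
    exact lt_of_mul_lt_mul_left e3 (by positivity)
  · rintro r ⟨t, ht, hrt⟩
    have b1 := a1.trans_le (min_le_right _ _)
    rw [lt_div_iff₀ hM10] at b1
    have e1 : q t * na B q y1 ≤ η' / 3 := by
      rw [map_div₀] at ht
      have e2 : q t * q P ≤ q Q1 := by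
        rw [le_div_iff₀ hqP] at ht
        exact ht
      have hy0 := na_nonneg B q y1
      have ht0 := AbsoluteValue.nonneg q t
      have e3 : q t * m ≤ q lam * q Q1 * n := by
        calc q t * m ≤ q t * (q lam * q P * n) := mul_le_mul_of_nonneg_left a3.le ht0
          _ = (q t * q P) * (q lam * n) := by ring
          _ ≤ q Q1 * (q lam * n) := mul_le_mul_of_nonneg_right e2 (by positivity)
          _ = _ := by ring
      have e4 : q t * na B q y1 * m ≤ η' / 3 * m := by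
        calc q t * na B q y1 * m = (q t * m) * na B q y1 := by ring
          _ ≤ (q lam * q Q1 * n) * na B q y1 := mul_le_mul_of_nonneg_right e3 hy0
          _ ≤ (q lam * q Q1 * n) * M1 := mul_le_mul_of_nonneg_left a4.le (by positivity)
          _ ≤ m * (η' / 3) := b1.le
          _ = _ := by ring
      exact le_of_mul_le_mul_right e4 hm0
    have e5 : r - rs = (r - z1 - t • y1) + (z1 - rs) + t • y1 := by abel
    rw [e5]
    have h6 := na_add_le B q (r - z1 - t • y1 + (z1 - rs)) (t • y1)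
    have h7 := na_add_le B q (r - z1 - t • y1) (z1 - rs)
    rw [na_smul] at h6
    have h8 := hrt.trans_le (min_le_right _ _)
    linarith

end Vale.Agent.P011.H321.M8r
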