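import Vale.Agent.P011.H519.HenselAdic
import Vale.Agent.P011.Arith.SUnit

/-!
# A root of a cubic polynomial with a dominating second coefficient, number fields

(The part of `H948/Root.lean` over number fields.)
-/

open Polynomial NumberField IsDedekindDomain HeightOneSpectrum

namespace Vale.Agent.P011.H321.RootA

/-- The change of variables. -/
theorem root_of_z {L : Type*} [Field L] {c₀ c₁ c₂ c₃ : L} (h3 : c₃ ≠ 0) (h2 : c₂ ≠ 0)
    (h : ∃ z : L, (c₁ * c₃ / c₂ ^ 2 - c₀ * c₃ ^ 2 / c₂ ^ 3) + (1 + c₁ * c₃ / c₂ ^ 2) * z +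
      (z ^ 2 + z ^ 2) + z ^ 3 = 0) :
    ∃ μ : L, c₃ * μ ^ 3 + c₂ * μ ^ 2 + c₁ * μ + c₀ = 0 := by
  obtain ⟨z, hz⟩ := h
  refine ⟨-(c₂ / c₃) * (1 + z), ?_⟩
  have e : c₃ * (-(c₂ / c₃) * (1 + z)) ^ 3 + c₂ * (-(c₂ / c₃) * (1 + z)) ^ 2 +
      c₁ * (-(c₂ / c₃) * (1 + z)) + c₀ = -(c₂ ^ 3 / c₃ ^ 2) *
      ((c₁ * c₃ / c₂ ^ 2 - c₀ * c₃ ^ 2 / c₂ ^ 3) + (1 + c₁ * c₃ / c₂ ^ 2) * z +
      (z ^ 2 + z ^ 2) + z ^ 3) := by
    field_simp
    ring
  rw [e, hz, mul_zero]

section adic

variable {k : Type} [Field k] [NumberField k]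

/-- **The root lemma** at a finite place of a number field. -/
theorem exists_root_adic (v : HeightOneSpectrum (𝓞 k)) {c₃ c₂ c₁ c₀ : k} (h3 : c₃ ≠ 0)
    (h1 : v.valuation k (c₁ * c₃) < v.valuation k c₂ ^ 2)
    (h0 : v.valuation k (c₀ * c₃ ^ 2) < v.valuation k c₂ ^ 3) :
    ∃ μ : v.adicCompletion k, algebraMap k (v.adicCompletion k) c₃ * μ ^ 3 +
      algebraMap k (v.adicCompletion k) c₂ * μ ^ 2 +
      algebraMap k (v.adicCompletion k) c₁ * μ + algebraMap k (v.adicCompletion k) c₀ = 0 := by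
  have h2 : c₂ ≠ 0 := by
    rintro rfl
    rw [map_zero, zero_pow two_ne_zero] at h1
    exact absurd h1 (not_lt.2 zero_le)
  have hv2 : v.valuation k c₂ ≠ 0 := (Valuation.ne_zero_iff _).2 h2
  have e1 : v.valuation k (c₁ * c₃ / c₂ ^ 2) < 1 := by
    rw [map_div₀, map_pow, div_lt_one₀ (zero_lt_iff.2 (pow_ne_zero 2 hv2))]
    exact h1
  have e0 : v.valuation k (c₀ * c₃ ^ 2 / c₂ ^ 3) < 1 := by
    rw [map_div₀, map_pow (v.valuation k) c₂, div_lt_one₀ (zero_lt_iff.2 (pow_ne_zero 3 hv2))]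
    exact h0
  have e01 : v.valuation k (c₁ * c₃ / c₂ ^ 2 - c₀ * c₃ ^ 2 / c₂ ^ 3) < 1 :=
    (Valuation.map_sub _ _ _).trans_lt (max_lt e1 e0)
  have e11 : v.valuation k (1 + c₁ * c₃ / c₂ ^ 2) = 1 := Valuation.map_one_add_of_lt _ e1
  have hval : ∀ x : k, Valued.v (algebraMap k (v.adicCompletion k) x) = v.valuation k x :=
    fun x => valuedAdicCompletion_eq_valuation' v x
  obtain ⟨π, hπ⟩ := H519.exists_unif k v
  have hc := H519.isAdicComplete hπ
  have hint : ∀ x : v.adicCompletionIntegers k, x ∈ Ideal.span {π} ↔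
      Valued.v (x : v.adicCompletion k) < 1 := by
    intro x
    have h2 := H519.mem_span_pow hπ 1 x
    rw [pow_one] at h2
    rw [h2, ← WithZero.exp_zero]
    constructor
    · intro h
      refine h.trans_lt ?_
      rw [WithZero.exp_lt_exp]; norm_num
    · intro h
      by_cases hx : (Valued.v (x : v.adicCompletion k) : WithZero (Multiplicative ℤ)) = 0
      · rw [hx]; exact zero_le
      · rw [← WithZero.exp_log hx, WithZero.exp_lt_exp] at h
        rw [← WithZero.exp_log hx, WithZero.exp_le_exp]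
        push_cast
        omega
  let a₀ : v.adicCompletionIntegers k :=
    ⟨algebraMap k _ (c₁ * c₃ / c₂ ^ 2 - c₀ * c₃ ^ 2 / c₂ ^ 3), by
      rw [mem_adicCompletionIntegers, hval]; exact e01.le⟩
  let a₁ : v.adicCompletionIntegers k := ⟨algebraMap k _ (1 + c₁ * c₃ / c₂ ^ 2), by
      rw [mem_adicCompletionIntegers, hval]; exact e11.le⟩
  let f : (v.adicCompletionIntegers k)[X] := X ^ 3 + ((X ^ 2 + X ^ 2) + C a₁ * X + C a₀)
  have hm : f.Monic := by
    apply monic_X_pow_add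
    compute_degree!
  obtain ⟨y, hy, -⟩ := HenselianRing.is_henselian (R := v.adicCompletionIntegers k)
    (I := Ideal.span {π}) f hm 0 (by
      rw [hint]
      simp only [f, eval_add, eval_pow, eval_X, eval_mul, eval_C, mul_zero, ne_eq,
        OfNat.ofNat_ne_zero, not_false_eq_true, zero_pow, zero_add]
      change Valued.v (algebraMap k (v.adicCompletion k) _) < 1
      rw [hval]
      exact e01) (by
      apply IsUnit.map
      have e : f.derivative.eval 0 = a₁ := by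
        simp [f]
      rw [e, adicCompletionIntegers.isUnit_iff_valued_eq_one]
      change Valued.v (algebraMap k (v.adicCompletion k) _) = 1
      rw [hval]
      exact e11)
  apply root_of_z ((_root_.map_ne_zero _).2 h3) ((_root_.map_ne_zero _).2 h2)
  refine ⟨(y : v.adicCompletion k), ?_⟩
  have h4 := congrArg (fun x : v.adicCompletionIntegers k => (x : v.adicCompletion k)) hy
  simp only [f, eval_add, eval_pow, eval_X, eval_mul, eval_C] at h4
  have ea₀ : ((a₀ : v.adicCompletionIntegers k) : v.adicCompletion k) =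
      algebraMap k _ (c₁ * c₃ / c₂ ^ 2 - c₀ * c₃ ^ 2 / c₂ ^ 3) := rfl
  have ea₁ : ((a₁ : v.adicCompletionIntegers k) : v.adicCompletion k) =
      algebraMap k _ (1 + c₁ * c₃ / c₂ ^ 2) := rfl
  push_cast at h4
  rw [ea₀, ea₁] at h4
  simp only [map_sub, map_add, map_div₀, map_mul, map_pow, map_one] at h4
  linear_combination h4

/-- The root lemma at a finite place of a number field, with the real absolute value. -/
theorem exists_root_plAbv (v : HeightOneSpectrum (𝓞 k)) {c₃ c₂ c₁ c₀ : k} (h3 : c₃ ≠ 0)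
    (h1 : Arith.plAbv (Sum.inl v) (c₁ * c₃) < Arith.plAbv (Sum.inl v) c₂ ^ 2)
    (h0 : Arith.plAbv (Sum.inl v) (c₀ * c₃ ^ 2) < Arith.plAbv (Sum.inl v) c₂ ^ 3) :
    ∃ μ : v.adicCompletion k, algebraMap k (v.adicCompletion k) c₃ * μ ^ 3 +
      algebraMap k (v.adicCompletion k) c₂ * μ ^ 2 +
      algebraMap k (v.adicCompletion k) c₁ * μ + algebraMap k (v.adicCompletion k) c₀ = 0 := by
  apply exists_root_adic v h3
  · rw [← map_pow, ← Arith.plAbv_lt, map_pow]
    exact h1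
  · rw [← map_pow, ← Arith.plAbv_lt, map_pow]
    exact h0

end adic

end Vale.Agent.P011.H321.RootA
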