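import Vale.Agent.P011.H321.Pair
import Vale.Agent.P011.H775.Final2
import Vale.Agent.P011.H511.Star
import Vale.Agent.P011.H321.M8r
import Vale.Agent.P011.H321.RootA

/-!
# The local statement of Part I over number fields
-/

set_option linter.unusedSectionVars false

open Module NumberField IsDedekindDomain QuadraticMap TensorProduct

namespace Vale.Agent.P011.H321.M8g

open Vale.Agent.P011.Arith Vale.Agent.P011.Even Vale.Agent.P011.H511 Vale.Agent.P011.H775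
  Vale.Agent.P011.H948 Vale.Agent.P011.H321.DatS Vale.Agent.P011.H321.M8a
  Vale.Agent.P011.H321.PartI Vale.Agent.P011.Two Vale.Agent.P011.One Vale.Agent.P011.W
open Vale.Agent.P011.H182 (na)

section rho

variable {k K D : Type} [Field k] [Field K] [StarRing K]
  [DivisionRing D] [StarRing D] [Algebra k K] [Algebra k D] [Algebra K D] [IsScalarTower k K D]
  {N : ℕ}

/-- The statement about the parameter quadric near the limit direction. -/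
def RhoEnd (C : Cub K D) (B : Basis (Fin N) k D) (d : kˣ) (s : K) (gs ys rs : D) {ι : Type}
    (A : ι → AbsoluteValue k ℝ) : Prop :=
  ∃ η : ℝ, 0 < η ∧ ∀ (lam : k) (g y r : D), lam ≠ 0 → (∀ i, A i lam < η ∧
    na B (A i) (lam • g - gs) < η ∧ na B (A i) (lam • y - ys) < η ∧ na B (A i) (r - rs) < η) →
    ∀ (F : Type) [Field F] [Algebra k F] [FiniteDimensional k F] [Algebra.IsSeparable k F]
      (φ : F →ₐ[k] D) (σ : F) [FiniteDimensional K D] [Algebra.IsCentral K D] (M : Dat C φ),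
      finrank k F = 3 → φ σ = r * (pp g)⁻¹ → Algebra.trace k F σ = 0 → M.a = σ →
      M.b = σ ^ 2 - algebraMap k F (Algebra.trace k F (σ ^ 2) / 3) → M.p = pp g → M.g = g →
      M.y = y → M.δ = s → M.d = (d : k) →
      ∃ z : F × k, M.Q z = 0 ∧ polar M.Q z (sh k M.a, 0) ≠ 0 ∧ M.A z ≠ 0 ∧
        ∀ i, ∃ c3 c2 c1 c0 : k, c3 ≠ 0 ∧ A i (c1 * c3) < A i c2 ^ 2 ∧
          A i (c0 * c3 ^ 2) < A i c2 ^ 3 ∧
          ∀ (L : Type) [Field L] [Algebra k L] (μ : L),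
            algebraMap k L c3 * μ ^ 3 + algebraMap k L c2 * μ ^ 2 + algebraMap k L c1 * μ +
              algebraMap k L c0 = 0 →
            ∃ f : L ⊗[k] F, Algebra.norm L f +
              Algebra.trace L (L ⊗[k] F) ((1 ⊗ₜ[k] (M.A z)) * f) + algebraMap k L (M.G z) = 0

end rho

variable {k K D : Type} [Field k] [NumberField k] [Field K] [NumberField K] [StarRing K]
  [DivisionRing D] [StarRing D] [Algebra k K] [Algebra k D] [Algebra K D] [IsScalarTower k K D]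
  {d : kˣ} {s : K} {N : ℕ}

/-- **The local statement `M8`**, from the statement about the parameter quadric. -/
theorem m8_of (hS : Setting k K D d s) (hdeg : finrank K D = 3 ^ 2)
    (C : Cub K D) (B : Basis (Fin N) k D) {Td P1 : Set (HeightOneSpectrum (𝓞 k))}
    (hP1 : P1.Finite) (hne : P1.Nonempty) (hTd : Td ⊆ P1) {x0 w0 : D} (hx0 : x0 * star x0 = 1)
    (hw0 : w0 * star w0 = 1) (hT0 : C.T ((x0 - 1) * w0) = 0) (hN1 : x0 * w0 ≠ w0 * x0)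
    (hN3 : C.T x0 + C.T (star x0) ≠ 6)
    (hrho : Td.Nonempty → ∀ gs ys rs : D, star gs = gs → star ys = ys → star rs = rs →
      C.T rs = 0 → rs ≠ 0 → C.S gs ≠ 0 → C.T (ys * rs) ≠ 0 →
      RhoEnd C B d s gs ys rs (fun v : Td => plAbv (Sum.inl (v : HeightOneSpectrum (𝓞 k))))) :
    PartI.M8 hS C B Td P1 (fun F _ _ _ => GD F) x0 := by
  classical
  have hK := char0K hS
  have hs0 := s_ne_zero hS
  obtain ⟨κ, hκ, hstar⟩ := exists_star hS hdeg C hx0 hw0 hT0 hN1 hN3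
  obtain ⟨gs, hgs⟩ : ∃ gs, gs = κ • ((x0 - 1) * w0) + star (κ • ((x0 - 1) * w0)) := ⟨_, rfl⟩
  obtain ⟨ys, hys⟩ : ∃ ys, ys = s⁻¹ • (κ • ((x0 - 1) * w0) - star (κ • ((x0 - 1) * w0))) :=
    ⟨_, rfl⟩
  obtain ⟨hgc, hSg, rs, hrs, hr0, e1, e2, e3, e4, e5⟩ := hstar _ gs ys rfl hgs hys
  have hg : star gs = gs := by
    rw [hgs, star_add, star_star, add_comm]
  have hy : star ys = ys := by
    rw [hys, hS.star_smul, star_inv₀, hS.star_s, star_sub, star_star, inv_neg, neg_smul,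
      ← smul_neg, neg_sub]
  obtain ⟨yr, hyr, hP⟩ := M8r.exists_yr hS hdeg C hg hgc ⟨hrs, e1, e2, e3⟩ hr0
  obtain ⟨ηr, hηr, hrho'⟩ : ∃ η : ℝ, 0 < η ∧ (Td.Nonempty → ∀ (lam : k) (g y r : D), lam ≠ 0 →
      (∀ i : Td, plAbv (Sum.inl (i : HeightOneSpectrum (𝓞 k))) lam < η ∧
        nm B (Sum.inl (i : HeightOneSpectrum (𝓞 k))) (lam • g - gs) < η ∧
        nm B (Sum.inl (i : HeightOneSpectrum (𝓞 k))) (lam • y - ys) < η ∧
        nm B (Sum.inl (i : HeightOneSpectrum (𝓞 k))) (r - rs) < η) →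
      ∀ (F : Type) [Field F] [NumberField F] [Algebra k F]
        (φ : F →ₐ[k] D) (σ : F) [FiniteDimensional K D] [Algebra.IsCentral K D] (M : Dat C φ),
        Adm d s g y r σ M → ∃ z : F × k, Rho M z ∧ ∀ v ∈ Td, GD F v (M.A z) (M.G z)) := by
    by_cases hT : Td.Nonempty
    · obtain ⟨η, hη, h⟩ := hrho hT gs ys rs hg hy hrs e1 hr0 hSg e5
      refine ⟨η, hη, fun _ lam g y r hlam hi F _ _ _ φ σ _ _ M hM => ?_⟩
      obtain ⟨z, hQ, hpol, hA, hv⟩ := h lam g y r hlam hi F φ σ M hM.hF hM.hσ hM.tr hM.a hM.b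
        hM.p hM.g hM.y hM.δ hM.d
      refine ⟨z, ⟨hQ, hpol, hA⟩, fun v hvT => ?_⟩
      obtain ⟨c3, c2, c1, c0, h0, h1, h2, hL⟩ := hv ⟨v, hvT⟩
      obtain ⟨μ, hμ⟩ := RootA.exists_root_plAbv v h0 h1 h2
      exact Or.inl (Or.inr (hL (v.adicCompletion k) μ hμ))
    · exact ⟨1, one_pos, fun h => absurd h hT⟩
  -- the radius
  obtain ⟨η, hη, hηv⟩ := exists_bound hP1 (P := fun v η =>
      (∀ (lam : k) (g : D), lam ≠ 0 → plAbv (Sum.inl v) lam < η →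
        nm B (Sum.inl v) (lam • g - gs) < η →
        (∀ c : K, g ≠ c • (1 : D)) ∧ 3 * C.S g ≠ 1) ∧
      (∀ (lam : k) (g : D), lam ≠ 0 → plAbv (Sum.inl v) lam < η → star g = g →
      nm B (Sum.inl v) (lam • g - gs) < η → ∀ z1 y1 : D, z1 = M8r.prj C (lam • g) rs →
      y1 = M8r.prj C (lam • g) yr →
      (star z1 = z1 ∧ C.T z1 = 0 ∧ C.T (g * z1) = 0 ∧ C.T (g * g * z1) = 0) ∧
      (star y1 = y1 ∧ C.T y1 = 0 ∧ C.T (g * y1) = 0 ∧ C.T (g * g * y1) = 0) ∧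
      ∀ Q1 Q2 P : k, algebraMap k K Q1 = C.T (g * pp g * pp g * C.adj z1) →
        algebraMap k K Q2 = C.T (g * pp g * pp g * C.adj y1) →
        algebraMap k K P = C.T (g * pp g * pp g * C.cr z1 y1) →
        P ≠ 0 ∧ plAbv (Sum.inl v) (Q1 * Q2) < plAbv (Sum.inl v) P ^ 2 ∧
        ∀ r : D, (∃ t : k, plAbv (Sum.inl v) t ≤ plAbv (Sum.inl v) (Q1 / P) ∧
          nm B (Sum.inl v) (r - z1 - t • y1) < η) → nm B (Sum.inl v) (r - rs) < ηr) ∧
      η ≤ ηr) (by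
    intro v hv
    obtain ⟨η1, h1, h1'⟩ := good_of_near hS C B (Sum.inl v) hgc hSg one_pos
    obtain ⟨η2, h2, h2'⟩ := M8r.r_raw hS hdeg C B (plAbv (Sum.inl v)) hg hgc
      ⟨hrs, e1, e2, e3⟩ hyr e4 hP hηr
    refine ⟨min (min η1 η2) ηr, lt_min (lt_min h1 h2) hηr, fun ε hε hle => ⟨?_, ?_, ?_⟩⟩
    · intro lam g hl hl1 hg1
      have h5 := h1' lam g hl (hl1.trans_le (hle.trans ((min_le_left _ _).trans
        (min_le_left _ _)))) (hg1.trans_le (hle.trans ((min_le_left _ _).trans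
        (min_le_left _ _))))
      exact ⟨h5.1, h5.2.1⟩
    · intro lam g hl hl1 hgg hg1 z1 y1 hz1 hy1
      have hle2 : ε ≤ η2 := hle.trans ((min_le_left _ _).trans (min_le_right _ _))
      obtain ⟨a1, a2, a3⟩ := h2' lam g hl (hl1.trans_le hle2) hgg (hg1.trans_le hle2) z1 y1
        hz1 hy1
      refine ⟨a1, a2, fun Q1 Q2 P b1 b2 b3 => ?_⟩
      obtain ⟨c1, c2, c3⟩ := a3 Q1 Q2 P b1 b2 b3
      exact ⟨c1, c2, fun r ⟨t, ht, hr⟩ => c3 r ⟨t, ht, lt_of_lt_of_le hr hle2⟩⟩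
    · exact hle.trans (min_le_right _ _))
  obtain ⟨u1, lam, ε, hu1, hlam, hε, hu⟩ := exists_u1 hS hdeg C B hw0 hT0
    (indep_of_N1 hS hdeg hx0 hw0 hN1) hκ hP1 hη
  rw [← hgs, ← hys] at hu
  refine ⟨u1, hu1, ε, hε, fun x u _ _ hx hu' => ?_⟩
  obtain ⟨v0, hv0⟩ := hne
  have hnear : ∀ v ∈ P1, plAbv (Sum.inl v) lam < η ∧ C.T ((x - 1) * u) ≠ 0 ∧
      nm B (Sum.inl v) (Gf C lam x u - gs) < η ∧
      nm B (Sum.inl v) (Yf C s lam x u - ys) < η := fun v hv =>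
    ⟨(hu v hv).1, (hu v hv).2.2 x u (hx v hv) (hu' v hv)⟩
  refine ⟨(hnear v0 hv0).2.1, fun g y hch => ?_⟩
  obtain ⟨hgf, hyf⟩ := M8a.Chart.eqs hS hch lam
  have hnear' : ∀ v ∈ P1, plAbv (Sum.inl v) lam < η ∧ nm B (Sum.inl v) (lam • g - gs) < η ∧
      nm B (Sum.inl v) (lam • y - ys) < η := by
    intro v hv
    rw [hgf, hyf]
    exact ⟨(hnear v hv).1, (hnear v hv).2.2⟩
  obtain ⟨hgc', hSg'⟩ := (hηv v0 hv0).1 lam g hlam (hnear' v0 hv0).1 (hnear' v0 hv0).2.1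
  refine ⟨hgc', hSg', fun hT => ?_⟩
  have hgg := hch.hg
  have hmem := (hηv v0 hv0).2.1 lam g hlam (hnear' v0 hv0).1 hgg (hnear' v0 hv0).2.1
    (M8r.prj C (lam • g) rs) (M8r.prj C (lam • g) yr) rfl rfl
  let z1 : V0 hS C g := ⟨M8r.prj C (lam • g) rs, hmem.1⟩
  let y1 : V0 hS C g := ⟨M8r.prj C (lam • g) yr, hmem.2.1⟩
  have hmain : ∀ v ∈ Td, polar (qV hS C g) z1 y1 ≠ 0 ∧
      plAbv (Sum.inl v) (qV hS C g z1 * qV hS C g y1) <
      plAbv (Sum.inl v) (polar (qV hS C g) z1 y1) ^ 2 ∧ ∀ r : D, (∃ t : k,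
        plAbv (Sum.inl v) t ≤ plAbv (Sum.inl v) (qV hS C g z1 / polar (qV hS C g) z1 y1) ∧
          nm B (Sum.inl v) (r - (z1 : D) - t • (y1 : D)) < η) →
            nm B (Sum.inl v) (r - rs) < ηr := by
    intro v hv
    have hv1 := hTd hv
    exact ((hηv v hv1).2.1 lam g hlam (hnear' v hv1).1 hgg (hnear' v hv1).2.1
      (M8r.prj C (lam • g) rs) (M8r.prj C (lam • g) yr) rfl rfl).2.2 _ _ _
      (qV_apply hS hdeg C hgg z1) (qV_apply hS hdeg C hgg y1) (qV_polar_eq hS hdeg C hgg z1 y1)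
  refine ⟨z1, y1, fun v hv => ⟨(hmain v hv).1, ?_⟩, η, hη, ?_⟩
  · rw [← map_pow, ← plAbv_lt, map_pow]
    exact (hmain v hv).2.1
  intro r _ hr F _ _ _ φ σ _ _ M hM
  refine hrho' hT lam g y (r : D) hlam (fun i => ?_) F φ σ M hM
  have hi1 := hTd i.2
  have hle := (hηv i hi1).2.2
  obtain ⟨t, ht, hr'⟩ := hr i i.2
  refine ⟨(hnear' i hi1).1.trans_le hle, (hnear' i hi1).2.1.trans_le hle,
    (hnear' i hi1).2.2.trans_le hle, (hmain i i.2).2.2 r ⟨t, ?_, hr'⟩⟩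
  by_contra hcon
  rw [not_le, plAbv_lt] at hcon
  exact absurd ht (not_le.2 hcon)

/-- **Part I over number fields**, from the statement about the parameter quadric. -/
theorem partI_of_rho (hS : Setting k K D d s) (hdeg : finrank K D = 3 ^ 2)
    (C : Cub K D) (B : Basis (Fin N) k D) {P1 : Set (HeightOneSpectrum (𝓞 k))}
    (hP1 : P1.Finite) (hne : P1.Nonempty)
    (hTd : {v : HeightOneSpectrum (𝓞 k) | (Sum.inl v : Pl k) ∈ Tdiv k K D} ⊆ P1)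
    {x0 w0 : D} (hx0 : x0 * star x0 = 1)
    (hw0 : w0 * star w0 = 1) (hT0 : C.T ((x0 - 1) * w0) = 0) (hN1 : x0 * w0 ≠ w0 * x0)
    (hN3 : C.T x0 + C.T (star x0) ≠ 6)
    (hrho : {v : HeightOneSpectrum (𝓞 k) | (Sum.inl v : Pl k) ∈ Tdiv k K D}.Nonempty →
      ∀ gs ys rs : D, star gs = gs → star ys = ys → star rs = rs →
      C.T rs = 0 → rs ≠ 0 → C.S gs ≠ 0 → C.T (ys * rs) ≠ 0 →
      RhoEnd C B d s gs ys rs
        (fun v : {v : HeightOneSpectrum (𝓞 k) | (Sum.inl v : Pl k) ∈ Tdiv k K D} =>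
          plAbv (Sum.inl (v : HeightOneSpectrum (𝓞 k))))) :
    ∃ ε : ℝ, 0 < ε ∧ ∀ x : D, x * star x = 1 →
      (∀ v ∈ P1, nm B (Sum.inl v) (x - x0) < ε) →
      (∀ φ : k →+* ℝ, nm B (Sum.inr φ) (x - x0) < ε) →
      ∃ w : D, w * star w = 1 ∧ C.T ((x - 1) * w) = 0 :=
  partI_of hS hdeg C B hP1 hTd (m8_of hS hdeg C B hP1 hne hTd hx0 hw0 hT0 hN1 hN3 hrho)
    (m4 hS hdeg C B hx0 hw0 hT0 hN1) (m10 hS hdeg C)

end Vale.Agent.P011.H321.M8g
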