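import Vale.Agent.P011.H321.RhoA
import Vale.Agent.P011.Even.Completion

/-!
Zeros of a quadratic form near given approximate zeros.
-/

namespace Vale.Agent.P011.H321.Rho

open IsDedekindDomain HeightOneSpectrum NumberField WithZero Topology QuadraticMap Module


section compl

variable {k : Type} [Field k] [NumberField k] (v : HeightOneSpectrum (𝓞 k))

/-- Newton for the small root of a quadratic equation. -/
theorem exists_root_small {α : v.adicCompletion k} (hα : Valued.v α < (1 : ℤᵐ⁰)) :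
    ∃ σ : v.adicCompletion k, α * σ ^ 2 + σ + 1 = 0 ∧ Valued.v σ ≤ (1 : ℤᵐ⁰) := by
  by_cases h0 : α = 0
  · exact ⟨-1, by rw [h0]; ring, by rw [Valuation.map_neg, map_one]⟩
  have h4 : (Valued.v (4 : v.adicCompletion k) : ℤᵐ⁰) ≠ 0 := (Valuation.ne_zero_iff _).mpr (by
    have := Vale.Agent.P011.Even.charZero_compl v
    norm_num)
  have h2 : (2 : v.adicCompletion k) ≠ 0 := by
    have := Vale.Agent.P011.Even.charZero_compl v
    norm_num
  have hsq : IsSquare (1 - 4 * α) := by
    apply Vale.Agent.P011.Even.isSquare_of_close v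
    have e : 1 - 4 * α - 1 = -(4 * α) := by ring
    rw [e, Valuation.map_neg, map_mul]
    calc (Valued.v (4 : v.adicCompletion k) : ℤᵐ⁰) * Valued.v α
        < Valued.v (4 : v.adicCompletion k) * 1 :=
          mul_lt_mul_of_pos_left hα (zero_lt_iff.mpr h4)
      _ = _ := mul_one _
  obtain ⟨r, hr⟩ := hsq
  set s₁ := (-1 + r) / (2 * α) with hs₁
  set s₂ := (-1 - r) / (2 * α) with hs₂
  have e1 : α * s₁ ^ 2 + s₁ + 1 = 0 := by
    rw [hs₁]
    field_simp
    linear_combination -hr
  have e2 : α * s₂ ^ 2 + s₂ + 1 = 0 := by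
    rw [hs₂]
    field_simp
    linear_combination -hr
  have e3 : s₁ + s₂ = -(s₁ * s₂) := by
    rw [hs₁, hs₂]
    field_simp
    linear_combination hr
  by_contra hcon
  push Not at hcon
  have h5 := hcon s₁ e1
  have h6 := hcon s₂ e2
  have h7 : (Valued.v (s₁ + s₂) : ℤᵐ⁰) = Valued.v s₁ * Valued.v s₂ := by
    rw [e3, Valuation.map_neg, map_mul]
  have h8 := Valued.v.map_add s₁ s₂
  rw [h7] at h8
  rcases le_total (Valued.v s₁ : ℤᵐ⁰) (Valued.v s₂) with h | h
  · rw [max_eq_right h] at h8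
    have : (Valued.v s₂ : ℤᵐ⁰) < Valued.v s₁ * Valued.v s₂ := by
      calc (Valued.v s₂ : ℤᵐ⁰) = 1 * Valued.v s₂ := (one_mul _).symm
        _ < _ := mul_lt_mul_of_pos_right h5 (zero_lt_one.trans h6)
    exact absurd h8 (not_le.mpr this)
  · rw [max_eq_left h] at h8
    have : (Valued.v s₁ : ℤᵐ⁰) < Valued.v s₁ * Valued.v s₂ := by
      calc (Valued.v s₁ : ℤᵐ⁰) = Valued.v s₁ * 1 := (mul_one _).symm
        _ < _ := mul_lt_mul_of_pos_left h6 (zero_lt_one.trans h5)
    exact absurd h8 (not_le.mpr this)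

end compl

variable {k : Type} [Field k] [NumberField k]
variable {V : Type*} [AddCommGroup V] [Module k V] {ι : Type*} [Fintype ι]

theorem polar_QC (Q : QuadraticForm k V) (B : Basis ι k V) (v : HeightOneSpectrum (𝓞 k))
    (x y : V) : polar (QC Q B v) (jC B v x) (jC B v y) =
      algebraMap k (v.adicCompletion k) (polar Q x y) :=
  Vale.Agent.P011.H182.QW.polar_map Q (QC Q B v) (jC B v) (QC_jC Q B v) x y

/-- **Zeros of a quadratic form near approximate zeros.** -/
theorem exists_zero_near (Q : QuadraticForm k V) (B : Basis ι k V) {p : V}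
    (hp : Q p = 0) (hp1 : ∃ y, polar Q p y ≠ 0) (hp2 : ∃ y, polar Q p y = 0 ∧ Q y ≠ 0)
    (T : Finset (HeightOneSpectrum (𝓞 k))) (z y : HeightOneSpectrum (𝓞 k) → V)
    (hP : ∀ v ∈ T, polar Q (z v) (y v) ≠ 0)
    (hN : ∀ v ∈ T, v.valuation k (Q (z v) * Q (y v)) < v.valuation k (polar Q (z v) (y v)) ^ 2)
    (γ : HeightOneSpectrum (𝓞 k) → ℤᵐ⁰) (hγ : ∀ v ∈ T, γ v ≠ 0)
    (f : MvPolynomial ι k) {q : V} (hq : Q q = 0) (hq1 : ∃ y, polar Q q y ≠ 0)
    (hf : MvPolynomial.eval (B.repr q) f ≠ 0) :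
    ∃ ρ : V, Q ρ = 0 ∧ (∀ v ∈ T, ∃ s : k,
      v.valuation k s ≤ v.valuation k (Q (z v) / polar Q (z v) (y v)) ∧
      ∀ i, v.valuation k (B.repr (ρ - z v - s • y v) i) < γ v) ∧
      MvPolynomial.eval (B.repr ρ) f ≠ 0 := by
  classical
  -- the exact local zeros
  have hloc : ∀ v ∈ T, ∃ s : v.adicCompletion k,
      Valued.v s ≤ v.valuation k (Q (z v) / polar Q (z v) (y v)) ∧
      QC Q B v (jC B v (z v) + s • jC B v (y v)) = 0 ∧
      ∃ y', polar (QC Q B v) (jC B v (z v) + s • jC B v (y v)) y' ≠ 0 := by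
    intro v hv
    set φ := algebraMap k (v.adicCompletion k) with hφ
    set P := polar Q (z v) (y v) with hPd
    have hP0 : P ≠ 0 := hP v hv
    have hφP : φ P ≠ 0 := (map_ne_zero _).mpr hP0
    have hα : Valued.v (φ (Q (z v) * Q (y v) / P ^ 2)) < (1 : ℤᵐ⁰) := by
      rw [hφ, val_alg, map_div₀, map_pow,
        div_lt_one₀ (zero_lt_iff.mpr (pow_ne_zero 2 ((Valuation.ne_zero_iff _).mpr hP0)))]
      exact hN v hv
    obtain ⟨σ, hσ, hσ1⟩ := exists_root_small v hα
    have q1 : QC Q B v (jC B v (z v)) = φ (Q (z v)) := QC_jC Q B v (z v)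
    have q2 : QC Q B v (jC B v (y v)) = φ (Q (y v)) := QC_jC Q B v (y v)
    have q3 : polar (QC Q B v) (jC B v (z v)) (jC B v (y v)) = φ P := polar_QC Q B v (z v) (y v)
    refine ⟨φ (Q (z v) / P) * σ, ?_, ?_, jC B v (y v), ?_⟩
    · rw [map_mul, hφ, val_alg]
      calc _ ≤ v.valuation k (Q (z v) / P) * 1 := mul_le_mul_right hσ1 _
        _ = _ := mul_one _
    · rw [QuadraticMap.map_add (QC Q B v), QuadraticMap.map_smul, QuadraticMap.polar_smul_right,
        q1, q2, q3, smul_eq_mul, smul_eq_mul]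
      have e1 : φ (Q (z v)) * (φ (Q (z v) * Q (y v) / P ^ 2) * σ ^ 2 + σ + 1) = 0 := by
        rw [hσ, mul_zero]
      rw [← e1, map_div₀, map_div₀, map_mul, map_pow]
      field_simp
      ring
    · rw [QuadraticMap.polar_add_left, QuadraticMap.polar_smul_left, q3,
        QuadraticMap.polar_self, q2]
      intro h
      have e2 : (1 + 2 * φ (Q (z v) * Q (y v) / P ^ 2) * σ) ^ 2 =
          1 - 4 * φ (Q (z v) * Q (y v) / P ^ 2) := by
        linear_combination (4 * φ (Q (z v) * Q (y v) / P ^ 2)) * hσ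
      have e3 : 1 + 2 * φ (Q (z v) * Q (y v) / P ^ 2) * σ = 0 := by
        have e4 : φ P * (1 + 2 * φ (Q (z v) * Q (y v) / P ^ 2) * σ) = 0 := by
          rw [← h, map_div₀, map_div₀, map_mul, map_pow, smul_eq_mul, two_smul]
          field_simp
          ring
        exact (mul_eq_zero.mp e4).resolve_left hφP
      rw [e3] at e2
      have e5 : (4 : v.adicCompletion k) * φ (Q (z v) * Q (y v) / P ^ 2) = 1 := by
        linear_combination e2
      have e6 := congrArg (fun t => (Valued.v t : ℤᵐ⁰)) e5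
      simp only [map_mul, map_one] at e6
      have e7 : (Valued.v (4 : v.adicCompletion k) : ℤᵐ⁰) ≤ 1 :=
        Vale.Agent.P011.Arith.val_four_le _
      have e8 : (Valued.v (4 : v.adicCompletion k) : ℤᵐ⁰) *
          Valued.v (φ (Q (z v) * Q (y v) / P ^ 2)) < 1 := by
        calc _ ≤ 1 * (Valued.v (φ (Q (z v) * Q (y v) / P ^ 2)) : ℤᵐ⁰) := mul_le_mul_left e7 _
          _ < 1 := by rw [one_mul]; exact hα
      rw [← map_mul, e5, map_one] at e8
      exact lt_irrefl _ e8
  choose! s hs1 hs2 hs3 using hloc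
  -- the precision
  have hprec : ∀ v : HeightOneSpectrum (𝓞 k), ∃ ε : ℤᵐ⁰, ε ≠ 0 ∧ ∀ i, ε * v.valuation k
      (B.repr (y v) i) < γ v ∨ γ v = 0 := by
    intro v
    by_cases h : γ v = 0
    · exact ⟨1, one_ne_zero, fun i => Or.inr h⟩
    · set M : ℤᵐ⁰ := Finset.univ.sup (fun i => v.valuation k (B.repr (y v) i)) ⊔ 1 with hM
      have hM0 : 0 < M := lt_of_lt_of_le zero_lt_one le_sup_right
      obtain ⟨n, hn⟩ := Avoid.exists_exp {v} (fun _ => γ v / M)
        (fun _ _ => div_ne_zero h hM0.ne')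
      have hn' := hn v (Finset.mem_singleton_self v)
      refine ⟨exp (-(n : ℤ)), exp_ne_zero, fun i => Or.inl ?_⟩
      have h1 : v.valuation k (B.repr (y v) i) ≤ M :=
        (Finset.le_sup (f := fun i => v.valuation k (B.repr (y v) i)) (Finset.mem_univ i)).trans
          le_sup_left
      calc exp (-(n : ℤ)) * v.valuation k (B.repr (y v) i) ≤ exp (-(n : ℤ)) * M :=
            mul_le_mul_right h1 _
        _ < γ v / M * M := mul_lt_mul_of_pos_right hn' hM0
        _ = γ v := div_mul_cancel₀ _ hM0.ne'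
  choose ε hε0 hε using hprec
  -- rational approximations of the parameters
  have hs' : ∀ v ∈ T, ∃ t : k, v.valuation k t ≤ v.valuation k (Q (z v) / polar Q (z v) (y v)) ∧
      Valued.v (algebraMap k (v.adicCompletion k) t - s v) < ε v := by
    intro v hv
    by_cases h0 : s v = 0
    · refine ⟨0, by rw [map_zero]; exact zero_le, ?_⟩
      rw [h0, map_zero, sub_zero, map_zero]
      exact zero_lt_iff.mpr (hε0 v)
    · have h1 : min (ε v) (Valued.v (s v)) ≠ 0 := by
        rcases min_choice (ε v) (Valued.v (s v)) with h | h <;> rw [h]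
        · exact hε0 v
        · exact (Valuation.ne_zero_iff _).mpr h0
      obtain ⟨_, h4, ⟨t, rfl⟩⟩ := (mem_closure_iff_nhds.1
        (v.denseRange_algebraMap (K := k) (s v))) _ (ball_mem v (s v) h1)
      refine ⟨t, ?_, lt_of_lt_of_le h4 (min_le_left _ _)⟩
      rw [← val_alg]
      have e : algebraMap k (v.adicCompletion k) t =
          (algebraMap k (v.adicCompletion k) t - s v) + s v := by ring
      rw [e]
      exact Valued.v.map_add_le ((lt_of_lt_of_le h4 (min_le_right _ _)).le.trans (hs1 v hv))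
        (hs1 v hv)
  choose! t ht1 ht2 using hs'
  obtain ⟨ρ, hρ, hρ1, hρ2⟩ := exists_zero_near_completion Q B hp hp1 hp2 T
    (fun v => jC B v (z v) + s v • jC B v (y v)) hs2 hs3 γ hγ f hq hq1 hf
  refine ⟨ρ, hρ, fun v hv => ⟨t v, ht1 v hv, fun i => ?_⟩, hρ2⟩
  rw [← val_alg]
  have e : algebraMap k (v.adicCompletion k) (B.repr (ρ - z v - t v • y v) i) =
      (algebraMap k (v.adicCompletion k) (B.repr ρ i) -
        (jC B v (z v) + s v • jC B v (y v)) i) -
      (algebraMap k (v.adicCompletion k) (t v) - s v) *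
        algebraMap k (v.adicCompletion k) (B.repr (y v) i) := by
    rw [Pi.add_apply, Pi.smul_apply, jC_apply, jC_apply]
    simp only [map_sub, map_smul, Finsupp.sub_apply, Finsupp.smul_apply, smul_eq_mul, map_mul]
    ring
  rw [e]
  refine Valued.v.map_sub_lt (hρ1 v hv i) ?_
  rw [map_mul, val_alg]
  rcases hε v i with h | h
  · calc _ ≤ ε v * v.valuation k (B.repr (y v) i) := mul_le_mul_left (ht2 v hv).le _
      _ < γ v := h
  · exact absurd h (hγ v hv)

end Vale.Agent.P011.H321.Rho
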