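import Mathlib

/-!
Every number field embeds in the field of `p`-adic numbers for infinitely many primes `p`.
-/

open Polynomial

namespace Vale.Agent.P011.H321

/-- A polynomial over the integers which is nonconstant takes values divisible by primes which
do not divide a given number. -/
theorem exists_prime_dvd_eval (f : ℤ[X]) (hf : 0 < f.natDegree) (M : ℕ) (hM : 0 < M) :
    ∃ (p : ℕ) (m : ℤ), p.Prime ∧ ¬ p ∣ M ∧ (p : ℤ) ∣ f.eval m := by
  have hf0 : f ≠ 0 := by
    rintro rfl
    simp at hf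
  obtain ⟨m₀, hm₀⟩ : ∃ m : ℤ, f.eval m ≠ 0 := by
    by_contra hcon
    push Not at hcon
    exact hf0 (Polynomial.funext fun x => by rw [hcon x, eval_zero])
  set c := f.eval m₀ with hc
  have hcM : c * M ≠ 0 := mul_ne_zero hm₀ (by exact_mod_cast hM.ne')
  -- some value is not `± c`
  have hfin : ∀ a : ℤ, {j : ℤ | f.eval (m₀ + c * M * j) = a}.Finite := by
    intro a
    have h1 : (f - C a) ≠ 0 := by
      intro h
      have h2 : f = C a := by linear_combination h
      rw [h2, natDegree_C] at hf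
      exact lt_irrefl _ hf
    have h2 : {x : ℤ | (f - C a).IsRoot x}.Finite := Polynomial.finite_setOfPred_isRoot h1
    refine (h2.preimage (f := fun j : ℤ => m₀ + c * M * j) ?_).subset ?_
    · intro x _ y _ hxy
      have h3 : c * M * x = c * M * y := by
        have : m₀ + c * M * x = m₀ + c * M * y := hxy
        linarith
      exact mul_left_cancel₀ hcM h3
    · intro j hj
      have hj' : f.eval (m₀ + c * M * j) = a := hj
      change (f - C a).IsRoot (m₀ + c * M * j)
      rw [IsRoot.def, eval_sub, eval_C, hj', sub_self]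
  obtain ⟨j, hj⟩ : ∃ j : ℤ, f.eval (m₀ + c * M * j) ≠ c ∧ f.eval (m₀ + c * M * j) ≠ -c := by
    by_contra hcon
    push Not at hcon
    refine Set.infinite_univ (α := ℤ) (((hfin c).union (hfin (-c))).subset fun j _ => ?_)
    by_cases h : f.eval (m₀ + c * M * j) = c
    · exact Or.inl h
    · exact Or.inr (hcon j h)
  obtain ⟨q, hq⟩ : c * M ∣ f.eval (m₀ + c * M * j) - c := by
    have h1 := Polynomial.sub_dvd_eval_sub (m₀ + c * M * j) m₀ f
    rw [add_sub_cancel_left] at h1
    exact (dvd_mul_right _ _).trans h1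
  set u : ℤ := 1 + M * q with hu
  have hval : f.eval (m₀ + c * M * j) = c * u := by
    rw [hu]
    linear_combination hq
  have hu1 : u.natAbs ≠ 1 := by
    intro h
    rcases Int.natAbs_eq_iff.mp h with h | h
    · exact hj.1 (by rw [hval, h]; simp)
    · exact hj.2 (by rw [hval, h]; simp)
  obtain ⟨p, hp, hpu⟩ := Nat.exists_prime_and_dvd hu1
  refine ⟨p, m₀ + c * M * j, hp, ?_, ?_⟩
  · intro h
    have h1 : (p : ℤ) ∣ u := Int.natCast_dvd.mpr hpu
    have h2 : (p : ℤ) ∣ M * q := (Int.natCast_dvd_natCast.mpr h).mul_right q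
    have h3 : (p : ℤ) ∣ 1 := by
      have h4 : u - M * q = 1 := by rw [hu]; ring
      rw [← h4]
      exact dvd_sub h1 h2
    exact hp.one_lt.ne' (by exact_mod_cast Int.eq_one_of_dvd_one (by positivity) h3)
  · rw [hval]
    exact (Int.natCast_dvd.mpr hpu).mul_left c

/-- A Bezout identity over the integers for a polynomial which is separable over the rational
numbers. -/
theorem exists_bezout (g : ℚ[X]) (hsep : g.Separable) :
    ∃ (f A B : ℤ[X]) (b r : ℤ), b ≠ 0 ∧ r ≠ 0 ∧ f.map (algebraMap ℤ ℚ) = b • g ∧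
      A * f + B * derivative f = C r := by
  obtain ⟨b, hb0, hb⟩ := IsLocalization.integerNormalization_spec (nonZeroDivisors ℤ) g
  obtain ⟨a, a', haa⟩ := hsep
  obtain ⟨α, hα0, hα⟩ := IsLocalization.integerNormalization_spec (nonZeroDivisors ℤ) a
  obtain ⟨β, hβ0, hβ⟩ := IsLocalization.integerNormalization_spec (nonZeroDivisors ℤ) a'
  have hb0' : b ≠ 0 := nonZeroDivisors.ne_zero hb0
  have hα0' : α ≠ 0 := nonZeroDivisors.ne_zero hα0
  have hβ0' : β ≠ 0 := nonZeroDivisors.ne_zero hβ0
  set f := IsLocalization.integerNormalization (nonZeroDivisors ℤ) g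
  set A := IsLocalization.integerNormalization (nonZeroDivisors ℤ) a
  set B := IsLocalization.integerNormalization (nonZeroDivisors ℤ) a'
  refine ⟨f, C β * A, C α * B, b, α * β * b, hb0', mul_ne_zero (mul_ne_zero hα0' hβ0') hb0', hb, ?_⟩
  apply Polynomial.map_injective (algebraMap ℤ ℚ) (algebraMap ℤ ℚ).injective_int
  have hf' : (derivative f).map (algebraMap ℤ ℚ) = b • derivative g := by
    rw [← derivative_map, hb, derivative_smul]
  simp only [Polynomial.map_add, Polynomial.map_mul, Polynomial.map_C, hα, hβ, hb, hf']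
  have h1 : ∀ (z : ℤ) (p : ℚ[X]), z • p = C (algebraMap ℤ ℚ z) * p := by
    intro z p
    rw [← Polynomial.smul_eq_C_mul, algebraMap_smul]
  rw [h1, h1, h1, h1, map_mul, map_mul, map_mul (algebraMap ℤ ℚ), C_mul]
  linear_combination (C (algebraMap ℤ ℚ α) * C (algebraMap ℤ ℚ β) * C (algebraMap ℤ ℚ b)) * haa

/-- A polynomial over the rational numbers which is separable and nonconstant has a root in the
ring of `p`-adic integers for infinitely many `p`. -/
theorem exists_padic_root (g : ℚ[X]) (hg : 0 < g.natDegree) (hsep : g.Separable) (N : ℕ) :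
    ∃ (p : ℕ) (_ : Fact p.Prime), N < p ∧ ∃ z : ℤ_[p], aeval (z : ℚ_[p]) g = 0 := by
  obtain ⟨f, A, B, b, r, hb0, hr0, hfg, hAB⟩ := exists_bezout g hsep
  have hbQ : (algebraMap ℤ ℚ b) ≠ 0 := by simpa using hb0
  have hdeg : 0 < f.natDegree := by
    have h1 : (f.map (algebraMap ℤ ℚ)).natDegree = f.natDegree :=
      natDegree_map_eq_of_injective (algebraMap ℤ ℚ).injective_int f
    rw [← h1, hfg, ← algebraMap_smul ℚ b g, natDegree_smul _ hbQ]
    exact hg
  have hM : 0 < N.factorial * r.natAbs := Nat.mul_pos N.factorial_pos (Int.natAbs_pos.mpr hr0)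
  obtain ⟨p, m, hp, hpM, hpf⟩ := exists_prime_dvd_eval f hdeg _ hM
  have hNp : N < p := by
    by_contra hcon
    push Not at hcon
    exact hpM ((Nat.dvd_factorial hp.pos hcon).mul_right _)
  have hpr : ¬ (p : ℤ) ∣ r := fun h => hpM ((Int.natCast_dvd.mp h).mul_left _)
  have hpf' : ¬ (p : ℤ) ∣ (derivative f).eval m := by
    intro h
    apply hpr
    have h1 : A.eval m * f.eval m + B.eval m * (derivative f).eval m = r := by
      have := congrArg (eval m) hAB
      simpa using this
    rw [← h1]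
    exact dvd_add (hpf.mul_left _) (h.mul_left _)
  have : Fact p.Prime := ⟨hp⟩
  refine ⟨p, this, hNp, ?_⟩
  have h1 : ∀ P : ℤ[X], aeval (m : ℤ_[p]) P = ((P.eval m : ℤ) : ℤ_[p]) := by
    intro P
    have := aeval_algebraMap_apply ℤ_[p] m P
    simpa using this
  have h2 : ‖aeval (m : ℤ_[p]) f‖ < ‖aeval (m : ℤ_[p]) (derivative f)‖ ^ 2 := by
    have h3 : ‖aeval (m : ℤ_[p]) (derivative f)‖ = 1 := by
      rw [h1]
      by_contra hcon
      exact hpf' ((PadicInt.norm_int_lt_one_iff_dvd _).mp
        (lt_of_le_of_ne (PadicInt.norm_le_one _) hcon))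
    rw [h3, h1, one_pow]
    exact (PadicInt.norm_int_lt_one_iff_dvd _).mpr hpf
  obtain ⟨z, hz, -⟩ := hensels_lemma h2
  refine ⟨z, ?_⟩
  have h4 : aeval (z : ℚ_[p]) f = 0 := by
    have := aeval_algebraMap_apply ℚ_[p] z f
    rw [hz, map_zero] at this
    exact this
  have h5 : aeval (z : ℚ_[p]) (f.map (algebraMap ℤ ℚ)) = 0 := by
    rw [aeval_map_algebraMap, h4]
  rw [hfg, ← algebraMap_smul ℚ b g, map_smul] at h5
  exact (smul_eq_zero.mp h5).resolve_left hbQ

/-- **Every number field embeds in the field of `p`-adic numbers for infinitely many `p`.** -/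
theorem exists_padic_embedding (L : Type*) [Field L] [NumberField L] (N : ℕ) :
    ∃ (p : ℕ) (_ : Fact p.Prime), N < p ∧ Nonempty (L →+* ℚ_[p]) := by
  set pb := Field.powerBasisOfFiniteOfSeparable ℚ L
  have hint : IsIntegral ℚ pb.gen := Algebra.IsIntegral.isIntegral _
  obtain ⟨p, hp, hN, z, hz⟩ := exists_padic_root (minpoly ℚ pb.gen) (minpoly.natDegree_pos hint)
    (Algebra.IsSeparable.isSeparable ℚ pb.gen) N
  exact ⟨p, hp, hN, ⟨(pb.lift (z : ℚ_[p]) hz).toRingHom⟩⟩

end Vale.Agent.P011.H321
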