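import Vale.Agent.P011.H321.RhoB
import Vale.Agent.P011.Even.GNorm

/-!
# Weak approximation on a non-degenerate quadric, inside an algebra
-/

set_option linter.unusedSectionVars false

open Module NumberField IsDedekindDomain QuadraticMap

namespace Vale.Agent.P011.H321.WaR

open Vale.Agent.P011.Arith Vale.Agent.P011.Even Vale.Agent.P011.H321.Rho

section alg

variable {k V : Type} [Field k] [AddCommGroup V] [Module k V] [FiniteDimensional k V]

/-- In a non-degenerate quadratic space of dimension at least three a non-zero isotropic vector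
is orthogonal to an anisotropic one. -/
theorem exists_orth_of_nondeg (Q : QuadraticForm k V)
    (hnd : ∀ x : V, x ≠ 0 → ∃ y, polar Q x y ≠ 0) (hV : 3 ≤ finrank k V) {p : V} (hp0 : p ≠ 0) :
    ∃ y, polar Q p y = 0 ∧ Q y ≠ 0 := by
  by_contra hcon
  push Not at hcon
  set b : V →ₗ[k] k := (QuadraticMap.polarBilin Q p) with hb
  have hbv : ∀ y, b y = polar Q p y := fun _ => rfl
  -- an element of the orthogonal complement outside the line
  obtain ⟨y, hy, hyl⟩ : ∃ y, polar Q p y = 0 ∧ ∀ c : k, y ≠ c • p := by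
    by_contra hall
    push Not at hall
    have h1 : LinearMap.ker b ≤ k ∙ p := by
      intro y hy
      obtain ⟨c, hc⟩ := hall y (by rw [← hbv]; exact hy)
      rw [hc]
      exact Submodule.smul_mem _ _ (Submodule.mem_span_singleton_self p)
    have h3 : finrank k (LinearMap.ker b) ≤ 1 :=
      (Submodule.finrank_mono h1).trans (finrank_span_singleton hp0).le
    have h4 := LinearMap.finrank_range_add_finrank_ker b
    have h5 : finrank k (LinearMap.range b) ≤ 1 := by
      have := Submodule.finrank_le (LinearMap.range b)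
      rwa [finrank_self] at this
    omega
  -- everything orthogonal to `p` is orthogonal to `y`
  have h6 : ∀ y', polar Q p y' = 0 → polar Q y y' = 0 := by
    intro y' hy'
    have e1 := hcon y hy
    have e2 := hcon y' hy'
    have e3 := hcon (y + y') (by rw [polar_add_right, hy, hy', add_zero])
    rw [polar, e1, e2, e3]
    simp
  obtain ⟨z, hz⟩ := hnd p hp0
  set c : k := polar Q y z / polar Q p z with hc
  have h7 : y - c • p ≠ 0 := fun h => hyl c (sub_eq_zero.mp h)
  obtain ⟨t, ht⟩ := hnd _ h7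
  apply ht
  have h8 : polar Q p (t - (polar Q p t / polar Q p z) • z) = 0 := by
    rw [polar_sub_right, polar_smul_right, smul_eq_mul, div_mul_cancel₀ _ hz, sub_self]
  have h9 := h6 _ h8
  rw [polar_sub_right, polar_smul_right, smul_eq_mul] at h9
  rw [polar_sub_left, polar_smul_left, smul_eq_mul, hc]
  field_simp at h9 ⊢
  linear_combination h9

end alg

variable {k : Type} [Field k] [NumberField k]

/-- a non-zero element which is small at a finite place -/
theorem exists_small (v : HeightOneSpectrum (𝓞 k)) {δ : ℝ} (hδ : 0 < δ) :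
    ∃ γ : Z0, γ ≠ 0 ∧ ∀ c : k, v.valuation k c < γ → plAbv (Sum.inl v) c < δ := by
  obtain ⟨π, hπ⟩ := v.valuation_exists_uniformizer k
  have hπ0 : π ≠ 0 := by
    intro h
    rw [h, map_zero] at hπ
    exact WithZero.exp_ne_zero hπ.symm
  have h1 : plAbv (Sum.inl v) π < 1 := by
    rw [plAbv_lt_one, hπ]
    exact lt_of_lt_of_eq (WithZero.coe_lt_coe.mpr (by decide)) rfl
  obtain ⟨n, hn⟩ := exists_pow_lt_of_lt_one hδ h1
  refine ⟨v.valuation k (π ^ n), (Valuation.ne_zero_iff _).mpr (pow_ne_zero n hπ0), ?_⟩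
  intro c hc
  rw [← plAbv_lt] at hc
  rw [map_pow] at hc
  exact hc.trans hn

variable {V D : Type} [AddCommGroup V] [Module k V] [DivisionRing D] [Algebra k D] {N : ℕ}
  (BD : Basis (Fin N) k D)

/-- Small coordinates give small elements. -/
theorem exists_thr {ι : Type} [Fintype ι] (B : Basis ι k V) (L : V →ₗ[k] D)
    (v : HeightOneSpectrum (𝓞 k)) {ε : ℝ} (hε : 0 < ε) :
    ∃ γ : Z0, γ ≠ 0 ∧ ∀ x : V, (∀ i, v.valuation k (B.repr x i) < γ) →
      nm BD (Sum.inl v) (L x) < ε := by
  classical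
  set M : ℝ := ∑ i, nm BD (Sum.inl v) (L (B i)) with hM
  have hM0 : 0 ≤ M := Finset.sum_nonneg fun _ _ => nm_nonneg _ _ _
  obtain ⟨γ, hγ, h⟩ := exists_small v (δ := ε / (M + 1)) (by positivity)
  refine ⟨γ, hγ, fun x hx => ?_⟩
  have e1 : L x = ∑ i, B.repr x i • L (B i) := by
    conv_lhs => rw [← B.sum_repr x, map_sum]
    simp only [map_smul]
  have h2 : nm BD (Sum.inl v) (L x) ≤ ε / (M + 1) * M := by
    rw [e1]
    refine (nm_sum_le _ _ _ _).trans ?_
    rw [hM, Finset.mul_sum]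
    refine Finset.sum_le_sum fun i _ => ?_
    rw [nm_smul]
    exact mul_le_mul_of_nonneg_right (h _ (hx i)).le (nm_nonneg _ _ _)
  refine h2.trans_lt ?_
  rw [div_mul_eq_mul_div, div_lt_iff₀ (by positivity)]
  nlinarith

/-- **Weak approximation on a non-degenerate quadric**, with the closeness measured in an
algebra. -/
theorem exists_zero_nm [FiniteDimensional k V] (Q : QuadraticForm k V) (L : V →ₗ[k] D)
    (hnd : ∀ x : V, x ≠ 0 → ∃ y, polar Q x y ≠ 0) (hV : 3 ≤ finrank k V) {p : V} (hp0 : p ≠ 0)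
    (hp : Q p = 0) {T : Set (HeightOneSpectrum (𝓞 k))} (hT : T.Finite)
    (z y : HeightOneSpectrum (𝓞 k) → V) (hP : ∀ v ∈ T, polar Q (z v) (y v) ≠ 0)
    (hN : ∀ v ∈ T, v.valuation k (Q (z v) * Q (y v)) < v.valuation k (polar Q (z v) (y v)) ^ 2)
    (ε : HeightOneSpectrum (𝓞 k) → ℝ) (hε : ∀ v ∈ T, 0 < ε v) :
    ∃ ρ : V, ρ ≠ 0 ∧ Q ρ = 0 ∧ ∀ v ∈ T, ∃ s : k,
      v.valuation k s ≤ v.valuation k (Q (z v) / polar Q (z v) (y v)) ∧
      nm BD (Sum.inl v) (L (ρ - z v - s • y v)) < ε v := by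
  classical
  set B := finBasis k V with hB
  obtain ⟨i, hi⟩ : ∃ i, B.repr p i ≠ 0 := by
    by_contra hcon
    push Not at hcon
    apply hp0
    apply B.repr.injective
    rw [map_zero]
    ext i
    exact hcon i
  have h1 : ∀ v : HeightOneSpectrum (𝓞 k), ∃ γ : Z0, γ ≠ 0 ∧ (v ∈ T → ∀ x : V,
      (∀ i, v.valuation k (B.repr x i) < γ) → nm BD (Sum.inl v) (L x) < ε v) := by
    intro v
    by_cases hv : v ∈ T
    · obtain ⟨γ, hγ, h⟩ := exists_thr BD B L v (hε v hv)
      exact ⟨γ, hγ, fun _ => h⟩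
    · exact ⟨1, one_ne_zero, fun h => absurd h hv⟩
  choose γ hγ hγT using h1
  obtain ⟨ρ, hρ, hρT, hρi⟩ := exists_zero_near Q B hp (hnd p hp0)
    (exists_orth_of_nondeg Q hnd hV hp0) hT.toFinset z y
    (fun v hv => hP v (hT.mem_toFinset.mp hv)) (fun v hv => hN v (hT.mem_toFinset.mp hv)) γ
    (fun v _ => hγ v) (MvPolynomial.X i) hp (hnd p hp0) (by rw [MvPolynomial.eval_X]; exact hi)
  refine ⟨ρ, ?_, hρ, fun v hv => ?_⟩
  · rintro rfl
    apply hρi
    rw [MvPolynomial.eval_X, map_zero]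
    rfl
  · obtain ⟨s, hs, h⟩ := hρT v (hT.mem_toFinset.mpr hv)
    exact ⟨s, hs, hγT v hv _ h⟩

end Vale.Agent.P011.H321.WaR
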